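import Mathlib.Probability.Distributions.Gaussian.Fernique
import Vale.Agent.P146.H712.AvPq
import Vale.Agent.P146.H504.Cum2
import Vale.Agent.P146.H713.Lay

/-!
P146, all temperatures: the decoupling (R2) of the couplings of one row from a position law.
The rotation of the couplings of `R` makes the row at the time one a standard Gaussian; the density
in this row is a small perturbation of a constant (Poincare inequality).
-/

open MeasureTheory ProbabilityTheory

namespace Vale.Agent.P146.R1C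

open Vale.Agent.P157.Lv Vale.Agent.P146.H425 Vale.Agent.P146.H712 Vale.Agent.P146.R1
open Vale.Agent.P146.H785 (Ax)

set_option linter.unusedSectionVars false

/-! ### rotations of a pair -/

lemma mp_rot1 {c d : ℝ} (hc : 0 ≤ c) (h : c ^ 2 + d ^ 2 = 1) :
    MeasurePreserving (fun p : ℝ × ℝ => (c * p.1 - d * p.2, d * p.1 + c * p.2))
      ((gaussianReal 0 1).prod (gaussianReal 0 1))
      ((gaussianReal 0 1).prod (gaussianReal 0 1)) := by
  have h1 := IsGaussian.map_rotation_eq_self (μ := gaussianReal 0 1) (by simp) (-Real.arcsin d)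
  have hd1 : -1 ≤ d := by nlinarith [sq_nonneg c]
  have hd2 : d ≤ 1 := by nlinarith [sq_nonneg c]
  have hsin : Real.sin (Real.arcsin d) = d := Real.sin_arcsin hd1 hd2
  have hcos : Real.cos (Real.arcsin d) = c := by
    rw [Real.cos_arcsin, show 1 - d ^ 2 = c ^ 2 by linarith]
    exact Real.sqrt_sq hc
  have e : (fun p : ℝ × ℝ => (c * p.1 - d * p.2, d * p.1 + c * p.2)) =
      ContinuousLinearMap.rotation (-Real.arcsin d) := by
    funext p
    rw [ContinuousLinearMap.rotation_apply]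
    simp only [Real.cos_neg, Real.sin_neg, hsin, hcos, smul_eq_mul, neg_neg]
    ext
    · simp only
      ring
    · simp only
  rw [e]
  exact ⟨(ContinuousLinearMap.rotation (-Real.arcsin d)).continuous.measurable, h1⟩

variable {κ : Type} [Fintype κ] [DecidableEq κ] {R : Finset κ} {c d s x b2 : ℝ}

/-- the rotation of the coordinates in `R` -/
noncomputable def rotR (R : Finset κ) (c d : ℝ) (p : (κ → ℝ) × (κ → ℝ)) : (κ → ℝ) × (κ → ℝ) :=
  (fun e => if e ∈ R then c * p.1 e - d * p.2 e else p.1 e,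
   fun e => if e ∈ R then d * p.1 e + c * p.2 e else p.2 e)

lemma mp_rotR (R : Finset κ) (hc : 0 ≤ c) (h : c ^ 2 + d ^ 2 = 1) :
    MeasurePreserving (rotR R c d) ((gI κ).prod (gI κ)) ((gI κ).prod (gI κ)) := by
  have h1 := MeasureTheory.measurePreserving_arrowProdEquivProdArrow ℝ ℝ κ
    (fun _ => gaussianReal 0 1) (fun _ => gaussianReal 0 1)
  have h2 : MeasurePreserving (fun (q : κ → ℝ × ℝ) (e : κ) =>
      if e ∈ R then (c * (q e).1 - d * (q e).2, d * (q e).1 + c * (q e).2) else q e)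
      (Measure.pi fun _ => (gaussianReal 0 1).prod (gaussianReal 0 1))
      (Measure.pi fun _ => (gaussianReal 0 1).prod (gaussianReal 0 1)) := by
    refine MeasureTheory.measurePreserving_pi (fun _ => (gaussianReal 0 1).prod (gaussianReal 0 1))
      (fun _ => (gaussianReal 0 1).prod (gaussianReal 0 1))
      (f := fun e (p : ℝ × ℝ) => if e ∈ R then (c * p.1 - d * p.2, d * p.1 + c * p.2) else p)
      fun e => ?_
    by_cases he : e ∈ R
    · simp only [he, if_true]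
      exact mp_rot1 hc h
    · simp only [he, if_false]
      exact MeasurePreserving.id _
  have h3 := h1.comp (h2.comp h1.symm)
  have e : rotR R c d = (MeasurableEquiv.arrowProdEquivProdArrow ℝ ℝ κ) ∘
      ((fun (q : κ → ℝ × ℝ) (e : κ) =>
        if e ∈ R then (c * (q e).1 - d * (q e).2, d * (q e).1 + c * (q e).2) else q e) ∘
        (MeasurableEquiv.arrowProdEquivProdArrow ℝ ℝ κ).symm) := by
    funext p
    refine Prod.ext ?_ ?_
    · funext e
      by_cases he : e ∈ R <;>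
        simp [rotR, MeasurableEquiv.arrowProdEquivProdArrow, Equiv.arrowProdEquivProdArrow, he]
    · funext e
      by_cases he : e ∈ R <;>
        simp [rotR, MeasurableEquiv.arrowProdEquivProdArrow, Equiv.arrowProdEquivProdArrow, he]
  rw [e]
  exact h3

/-- the two blocks -/
def bl (w : κ ⊕ κ → ℝ) : κ → ℝ := fun e => w (Sum.inl e)

def br (w : κ ⊕ κ → ℝ) : κ → ℝ := fun e => w (Sum.inr e)

lemma norm_bl (w : κ ⊕ κ → ℝ) : ‖bl w‖ ≤ ‖w‖ :=
  (pi_norm_le_iff_of_nonneg (norm_nonneg _)).2 fun _ => norm_le_pi_norm w _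

lemma norm_br (w : κ ⊕ κ → ℝ) : ‖br w‖ ≤ ‖w‖ :=
  (pi_norm_le_iff_of_nonneg (norm_nonneg _)).2 fun _ => norm_le_pi_norm w _

lemma meas_bl : Measurable (bl (κ := κ)) := by unfold bl; fun_prop

lemma meas_br : Measurable (br (κ := κ)) := by unfold br; fun_prop

lemma integrable_pair {Φ : (κ → ℝ) → (κ → ℝ) → ℝ}
    (hΦ : EG fun w : κ ⊕ κ → ℝ => Φ (bl w) (br w)) :
    Integrable (fun q : (κ → ℝ) × (κ → ℝ) => Φ q.1 q.2) ((gI κ).prod (gI κ)) := by
  have h1 := MeasureTheory.measurePreserving_sumPiEquivProdPi_symm (ι := κ) (ι' := κ)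
    (X := fun _ => ℝ) (fun _ => gaussianReal 0 1)
  have h2 : MeasurePreserving (fun q : (κ → ℝ) × (κ → ℝ) => (Sum.elim q.1 q.2 : κ ⊕ κ → ℝ))
      ((gI κ).prod (gI κ)) (gI (κ ⊕ κ)) := by
    have : (fun q : (κ → ℝ) × (κ → ℝ) => (Sum.elim q.1 q.2 : κ ⊕ κ → ℝ)) =
      (MeasurableEquiv.sumPiEquivProdPi (fun _ : κ ⊕ κ => ℝ)).symm := by
      funext q
      funext j
      cases j <;> rfl
    rw [this]
    exact h1
  exact MeasurePreserving.integrable_comp_of_integrable
    (g := fun w : κ ⊕ κ → ℝ => Φ (bl w) (br w)) h2 hΦ.integrable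

/-- **Rotation of the couplings of `R` in a pair of independent Gaussian vectors.** -/
lemma int_rot (R : Finset κ) {Φ : (κ → ℝ) → (κ → ℝ) → ℝ}
    (hΦ : EG fun w : κ ⊕ κ → ℝ => Φ (bl w) (br w)) (hc : 0 ≤ c) (h : c ^ 2 + d ^ 2 = 1) :
    ∫ a, (∫ g, Φ a g ∂(gI κ)) ∂(gI κ) = ∫ g, (∫ a,
      Φ (rotR R c d (a, g)).1 (rotR R c d (a, g)).2 ∂(gI κ)) ∂(gI κ) := by
  have h3 := integrable_pair hΦ
  have h4 := mp_rotR R hc h
  have h5 : ∫ q : (κ → ℝ) × (κ → ℝ), Φ q.1 q.2 ∂((gI κ).prod (gI κ)) =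
      ∫ q : (κ → ℝ) × (κ → ℝ), Φ (rotR R c d q).1 (rotR R c d q).2 ∂((gI κ).prod (gI κ)) := by
    conv_lhs => rw [← h4.map_eq]
    rw [integral_map h4.measurable.aemeasurable]
    rw [h4.map_eq]
    exact h3.aestronglyMeasurable
  rw [← integral_prod (fun q : (κ → ℝ) × (κ → ℝ) => Φ q.1 q.2) h3, h5]
  exact integral_prod_symm _ (h4.integrable_comp_of_integrable h3)

/-! ### exponential growth -/

lemma eg_compK {α β : Type} [Fintype α] [Fintype β] {f : (α → ℝ) → ℝ} (hf : EG f)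
    {A : (β → ℝ) → α → ℝ} (hA : Measurable A) {K C : ℝ} (hC : 0 ≤ C)
    (h : ∀ w, ‖A w‖ ≤ K + C * ‖w‖) : EG fun w => f (A w) := by
  obtain ⟨M, k, hM, hk, hb⟩ := hf.bdd
  refine ⟨hf.meas.comp hA, M * Real.exp (k * K), k * C, by positivity, by positivity,
    fun w => (hb _).trans ?_⟩
  rw [mul_assoc, ← Real.exp_add]
  refine mul_le_mul_of_nonneg_left (Real.exp_le_exp.2 ?_) hM
  nlinarith [mul_le_mul_of_nonneg_left (h w) hk]

lemma eg_sqrt {f : (κ → ℝ) → ℝ} (hf : EG f) : EG fun z => √(f z) := by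
  refine EG.mono (hf.abs.add (EG.const 1)) hf.meas.sqrt fun y => ?_
  rw [abs_of_nonneg (Real.sqrt_nonneg _), abs_of_nonneg (by positivity)]
  refine (Real.sqrt_le_sqrt (le_abs_self _)).trans ?_
  rw [Real.sqrt_le_left (by positivity)]
  nlinarith [abs_nonneg (f y)]

/-- Cauchy-Schwarz -/
lemma cs_gI {f g : (κ → ℝ) → ℝ} (hf : EG f) (hg : EG g) :
    (∫ z, f z * g z ∂(gI κ)) ^ 2 ≤ (∫ z, f z ^ 2 ∂(gI κ)) * ∫ z, g z ^ 2 ∂(gI κ) := by
  have h0 : ∀ t : ℝ, 0 ≤ (∫ z, f z ^ 2 ∂(gI κ)) * (t * t) + (2 * ∫ z, f z * g z ∂(gI κ)) * t +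
      ∫ z, g z ^ 2 ∂(gI κ) := by
    intro t
    have h1 : 0 ≤ ∫ z, (t * f z + g z) ^ 2 ∂(gI κ) := integral_nonneg fun z => sq_nonneg _
    have e : (fun z => (t * f z + g z) ^ 2) = fun z => (t * t) * f z ^ 2 +
        ((2 * t) * (f z * g z) + g z ^ 2) := by
      funext z; ring
    rw [e, integral_add ((hf.pow 2).const_mul _).integrable
      (((hf.mul hg).const_mul _).add (hg.pow 2)).integrable,
      integral_add ((hf.mul hg).const_mul _).integrable (hg.pow 2).integrable,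
      integral_const_mul, integral_const_mul] at h1
    linarith
  have h3 := discrim_le_zero h0
  unfold discrim at h3
  linarith

/-- **Covariance with an almost constant density.** -/
lemma cov_le {ψ g : (κ → ℝ) → ℝ} {ψ' : κ → (κ → ℝ) → ℝ} (hψ : EG ψ) (hd : ∀ e, PD e ψ (ψ' e))
    (hψ' : ∀ e, EG (ψ' e)) (hg : EG g) (h0 : ∀ z, 0 ≤ ψ z) {b : ℝ}
    (hb : ∀ z, ∑ e, ψ' e z ^ 2 ≤ b * ψ z ^ 2) (hb1 : 2 * b ≤ 1) :
    |∫ z, ψ z * g z ∂(gI κ) - (∫ z, ψ z ∂(gI κ)) * ∫ z, g z ∂(gI κ)| ≤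
      √(2 * b) * ((∫ z, ψ z ∂(gI κ)) * √(∫ z, g z ^ 2 ∂(gI κ))) := by
  set p := ∫ z, ψ z ∂(gI κ) with hp
  have hp0 : 0 ≤ p := integral_nonneg h0
  have h1 := cc_var_le_one hψ hd hψ'
  rw [← hp] at h1
  have h2 : ∑ e, ∫ z, ψ' e z ^ 2 ∂(gI κ) ≤ b * ∫ z, ψ z ^ 2 ∂(gI κ) := by
    rw [← integral_finsetSum _ fun e _ => ((hψ' e).pow 2).integrable, ← integral_const_mul]
    exact integral_mono (EG.sum _ fun e _ => (hψ' e).pow 2).integrable
      ((hψ.pow 2).const_mul b).integrable hb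
  have h3 : ∫ z, (ψ z - p) ^ 2 ∂(gI κ) = (∫ z, ψ z ^ 2 ∂(gI κ)) - p ^ 2 := by
    have e : (fun z => (ψ z - p) ^ 2) = fun z => ψ z ^ 2 + ((-2 * p) * ψ z + p ^ 2) := by
      funext z; ring
    rw [e, integral_add (hψ.pow 2).integrable ((hψ.const_mul _).add (EG.const _)).integrable,
      integral_add (hψ.const_mul _).integrable (EG.const _).integrable, integral_const_mul, ← hp]
    simp only [integral_const, probReal_univ, smul_eq_mul, one_mul]
    ring
  have h4 : ∫ z, (ψ z - p) ^ 2 ∂(gI κ) ≤ 2 * b * p ^ 2 := by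
    have h5 := h1.trans h2
    have h6 : (∫ z, ψ z ^ 2 ∂(gI κ)) = (∫ z, (ψ z - p) ^ 2 ∂(gI κ)) + p ^ 2 := by linarith
    rw [h6] at h5
    have h7 : 0 ≤ ∫ z, (ψ z - p) ^ 2 ∂(gI κ) := integral_nonneg fun z => sq_nonneg _
    nlinarith
  have h5 : ∫ z, ψ z * g z ∂(gI κ) - p * ∫ z, g z ∂(gI κ) = ∫ z, (ψ z - p) * g z ∂(gI κ) := by
    have e : (fun z => (ψ z - p) * g z) = fun z => ψ z * g z - p * g z := by
      funext z; ring
    rw [e, integral_sub (hψ.mul hg).integrable (hg.const_mul _).integrable, integral_const_mul]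
  have h6 := cs_gI (hψ.sub (EG.const p)) hg
  have hg0 : 0 ≤ ∫ z, g z ^ 2 ∂(gI κ) := integral_nonneg fun z => sq_nonneg _
  have h7 : (∫ z, (ψ z - p) * g z ∂(gI κ)) ^ 2 ≤ 2 * b * p ^ 2 * ∫ z, g z ^ 2 ∂(gI κ) :=
    h6.trans (mul_le_mul_of_nonneg_right h4 hg0)
  rw [h5]
  refine (Real.abs_le_sqrt h7).trans (le_of_eq ?_)
  rw [mul_assoc (2 * b), Real.sqrt_mul' _ (by positivity), Real.sqrt_mul (sq_nonneg p),
    Real.sqrt_sq hp0]

/-! ### the position law after the rotation -/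

variable {F G : (κ → ℝ) → ℝ} {D : κ → (κ → ℝ) → ℝ} {B L : ℝ}

/-- the row at the time `s`, in the rotated coordinates -/
noncomputable def yR (R : Finset κ) (s : ℝ) (z a g : κ → ℝ) : κ → ℝ :=
  sw R z (√s • (√s • a - √(1 - s) • g))

/-- the row at the time one, in the rotated coordinates -/
noncomputable def zR (R : Finset κ) (s : ℝ) (z a g : κ → ℝ) : κ → ℝ :=
  sw R (z + √(1 - s) • g) a

/-- the density -/
noncomputable def rhoR (R : Finset κ) (x s : ℝ) (F : (κ → ℝ) → ℝ) (z a g : κ → ℝ) : ℝ :=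
  Real.exp (x * (F (zR R s z a g) - uu x s F (yR R s z a g)))

lemma norm_yR (R : Finset κ) (s : ℝ) (z a g : κ → ℝ) :
    ‖yR R s z a g‖ ≤ ‖z‖ + √s * (√s * ‖a‖ + √(1 - s) * ‖g‖) := by
  refine (norm_sw_le R z _).trans ?_
  refine add_le_add le_rfl ?_
  rw [norm_smul, Real.norm_eq_abs, abs_of_nonneg (Real.sqrt_nonneg s)]
  refine mul_le_mul_of_nonneg_left ((norm_sub_le _ _).trans ?_) (Real.sqrt_nonneg s)
  rw [norm_smul, norm_smul, Real.norm_eq_abs, Real.norm_eq_abs,
    abs_of_nonneg (Real.sqrt_nonneg s), abs_of_nonneg (Real.sqrt_nonneg (1 - s))]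

lemma norm_zR (R : Finset κ) (s : ℝ) (z a g : κ → ℝ) :
    ‖zR R s z a g‖ ≤ ‖z‖ + (‖a‖ + √(1 - s) * ‖g‖) := by
  refine (norm_sw_le R _ _).trans ?_
  have h1 := norm_add_le z (√(1 - s) • g)
  rw [norm_smul, Real.norm_eq_abs, abs_of_nonneg (Real.sqrt_nonneg (1 - s))] at h1
  linarith

lemma meas_swf {α : Type} [MeasurableSpace α] {f g : α → κ → ℝ} (hf : Measurable f)
    (hg : Measurable g) (R : Finset κ) : Measurable fun w => sw R (f w) (g w) := by
  refine measurable_pi_lambda _ fun e => ?_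
  unfold sw
  split_ifs
  · exact (measurable_pi_apply e).comp hg
  · exact (measurable_pi_apply e).comp hf

lemma eg_yR {f : (κ → ℝ) → ℝ} (hf : EG f) (R : Finset κ) (s : ℝ) (z : κ → ℝ) :
    EG fun w : κ ⊕ κ → ℝ => f (yR R s z (bl w) (br w)) := by
  refine eg_compK hf (K := ‖z‖) (C := √s * (√s + √(1 - s))) ?_ (by positivity) fun w => ?_
  · refine meas_swf measurable_const ?_ R
    have h1 := meas_bl (κ := κ)
    have h2 := meas_br (κ := κ)
    fun_prop
  · refine (norm_yR R s z _ _).trans ?_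
    have h1 := mul_le_mul_of_nonneg_left (norm_bl w) (Real.sqrt_nonneg s)
    have h2 := mul_le_mul_of_nonneg_left (norm_br w) (Real.sqrt_nonneg (1 - s))
    have h3 := mul_le_mul_of_nonneg_left (add_le_add h1 h2) (Real.sqrt_nonneg s)
    linarith

lemma eg_zR {f : (κ → ℝ) → ℝ} (hf : EG f) (R : Finset κ) (s : ℝ) (z : κ → ℝ) :
    EG fun w : κ ⊕ κ → ℝ => f (zR R s z (bl w) (br w)) := by
  refine eg_compK hf (K := ‖z‖) (C := 1 + √(1 - s)) ?_ (by positivity) fun w => ?_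
  · have h1 := meas_bl (κ := κ)
    have h2 := meas_br (κ := κ)
    exact meas_swf (by fun_prop) h1 R
  · refine (norm_zR R s z _ _).trans ?_
    have h1 := norm_bl w
    have h2 := mul_le_mul_of_nonneg_left (norm_br w) (Real.sqrt_nonneg (1 - s))
    linarith

lemma eg_rhoR (h : C11 F D B L) (hx : 0 < x) (R : Finset κ) (s : ℝ) (z : κ → ℝ) :
    EG fun w : κ ⊕ κ → ℝ => rhoR R x s F z (bl w) (br w) := by
  have h1 := eg_zR (C11.egx h x) R s z
  have h2 := eg_yR (C11.egx (c11_uu h hx s) (-x)) R s z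
  have e : (fun w : κ ⊕ κ → ℝ => rhoR R x s F z (bl w) (br w)) = fun w =>
      Real.exp (x * F (zR R s z (bl w) (br w))) *
        Real.exp (-x * uu x s F (yR R s z (bl w) (br w))) := by
    funext w
    unfold rhoR
    rw [← Real.exp_add]
    congr 1
    ring
  rw [e]
  exact h1.mul h2

lemma Ax_uu (h : C11 F D B L) (hx : 0 < x) (s : ℝ) (G : (κ → ℝ) → ℝ) (y : κ → ℝ) :
    Ax x (√(1 - s)) F G y = ∫ g, Real.exp (x * (F (y + √(1 - s) • g) - uu x s F y)) *
      G (y + √(1 - s) • g) ∂(gI κ) := by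
  have h1 : Real.exp (x * uu x s F y) = ∫ g, Real.exp (x * F (y + √(1 - s) • g)) ∂(gI κ) :=
    h.lip.exp_W h.B0 hx y
  unfold H785.Ax
  rw [← h1, div_eq_mul_inv, ← Real.exp_neg, mul_comm, ← integral_const_mul]
  refine integral_congr_ae (Filter.Eventually.of_forall fun g => ?_)
  simp only
  rw [← mul_assoc, ← Real.exp_add]
  congr 2
  ring

/-- **The position law of a row in the rotated coordinates.** -/
lemma xi_rot (h : C11 F D B L) (hx : 0 < x) (hs : 0 ≤ s) (hs1 : s ≤ 1) (hG : EG G) (z : κ → ℝ) :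
    AvP s R (Ax x (√(1 - s)) F G) z = ∫ g, (∫ a, rhoR R x s F z a g * G (zR R s z a g) ∂(gI κ))
      ∂(gI κ) := by
  have hss : √s * √s = s := Real.mul_self_sqrt hs
  have htt : √(1 - s) * √(1 - s) = 1 - s := Real.mul_self_sqrt (by linarith)
  have h1 : AvP s R (Ax x (√(1 - s)) F G) z = ∫ a, (∫ g,
      Real.exp (x * (F (sw R z (√s • a) + √(1 - s) • g) - uu x s F (sw R z (√s • a)))) *
        G (sw R z (√s • a) + √(1 - s) • g) ∂(gI κ)) ∂(gI κ) := by
    unfold AvP
    refine integral_congr_ae (Filter.Eventually.of_forall fun a => ?_)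
    exact Ax_uu h hx s G _
  have hE : EG fun w : κ ⊕ κ → ℝ =>
      Real.exp (x * (F (sw R z (√s • bl w) + √(1 - s) • br w) - uu x s F (sw R z (√s • bl w)))) *
        G (sw R z (√s • bl w) + √(1 - s) • br w) := by
    have m1 := meas_bl (κ := κ)
    have m2 := meas_br (κ := κ)
    have k1 : ∀ w : κ ⊕ κ → ℝ, ‖sw R z (√s • bl w)‖ ≤ ‖z‖ + √s * ‖w‖ := fun w => by
      refine (norm_sw_le R z _).trans ?_
      rw [norm_smul, Real.norm_eq_abs, abs_of_nonneg (Real.sqrt_nonneg s)]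
      linarith [mul_le_mul_of_nonneg_left (norm_bl w) (Real.sqrt_nonneg s)]
    have k2 : ∀ w : κ ⊕ κ → ℝ, ‖sw R z (√s • bl w) + √(1 - s) • br w‖ ≤
        ‖z‖ + (√s + √(1 - s)) * ‖w‖ := fun w => by
      refine (norm_add_le _ _).trans ?_
      rw [norm_smul, Real.norm_eq_abs, abs_of_nonneg (Real.sqrt_nonneg (1 - s))]
      linarith [k1 w, mul_le_mul_of_nonneg_left (norm_br w) (Real.sqrt_nonneg (1 - s))]
    have n1 : Measurable fun w : κ ⊕ κ → ℝ => sw R z (√s • bl w) :=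
      meas_swf measurable_const (by fun_prop) R
    have n2 : Measurable fun w : κ ⊕ κ → ℝ => sw R z (√s • bl w) + √(1 - s) • br w := by fun_prop
    have h2 := eg_compK (C11.egx h x) n2 (by positivity) k2
    have h3 := eg_compK (C11.egx (c11_uu h hx s) (-x)) n1 (by positivity) k1
    have h4 := eg_compK hG n2 (by positivity) k2
    have e : (fun w : κ ⊕ κ → ℝ =>
      Real.exp (x * (F (sw R z (√s • bl w) + √(1 - s) • br w) - uu x s F (sw R z (√s • bl w)))) *
        G (sw R z (√s • bl w) + √(1 - s) • br w)) = fun w =>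
        Real.exp (x * F (sw R z (√s • bl w) + √(1 - s) • br w)) *
          Real.exp (-x * uu x s F (sw R z (√s • bl w))) *
            G (sw R z (√s • bl w) + √(1 - s) • br w) := by
      funext w
      rw [← Real.exp_add]
      congr 2
      ring
    rw [e]
    exact (h2.mul h3).mul h4
  rw [h1, int_rot R (Φ := fun a g =>
      Real.exp (x * (F (sw R z (√s • a) + √(1 - s) • g) - uu x s F (sw R z (√s • a)))) *
        G (sw R z (√s • a) + √(1 - s) • g)) hE (Real.sqrt_nonneg s) (d := √(1 - s))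
      (by rw [Real.sq_sqrt hs, Real.sq_sqrt (by linarith)]; ring)]
  refine integral_congr_ae (Filter.Eventually.of_forall fun g => ?_)
  refine integral_congr_ae (Filter.Eventually.of_forall fun a => ?_)
  simp only
  have e1 : sw R z (√s • (rotR R (√s) (√(1 - s)) (a, g)).1) = yR R s z a g := by
    funext e
    unfold yR sw rotR
    by_cases he : e ∈ R <;> simp [he]
  have e2 : yR R s z a g + √(1 - s) • (rotR R (√s) (√(1 - s)) (a, g)).2 = zR R s z a g := by
    funext e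
    unfold yR zR sw rotR
    by_cases he : e ∈ R
    · simp only [he, if_true, Pi.add_apply, Pi.smul_apply, Pi.sub_apply, smul_eq_mul]
      calc √s * (√s * a e - √(1 - s) * g e) + √(1 - s) * (√(1 - s) * a e + √s * g e) =
          (√s * √s + √(1 - s) * √(1 - s)) * a e := by ring
        _ = a e := by rw [hss, htt]; ring
    · simp [he]
  rw [e1, e2]
  rfl

/-! ### the gradient of the density in the row -/

lemma pd_yR {F' : (κ → ℝ) → ℝ} {e : κ} (he : e ∈ R) (hd : PD e F F') (hs : 0 ≤ s)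
    (z g : κ → ℝ) : PD e (fun a => F (yR R s z a g)) (fun a => s * F' (yR R s z a g)) := by
  intro y t0
  have h1 : ∀ t, yR R s z (Function.update y e t) g =
      Function.update (yR R s z y g) e (√s * (√s * t - √(1 - s) * g e)) := by
    intro t
    funext j
    unfold yR sw
    by_cases hj : j = e
    · subst hj
      simp [he]
    · by_cases hR : j ∈ R <;> simp [hj, hR]
  have h2 : HasDerivAt (fun t => √s * (√s * t - √(1 - s) * g e)) s t0 := by
    have h3 := (((hasDerivAt_id t0).const_mul (√s)).sub_const (√(1 - s) * g e)).const_mul (√s)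
    refine h3.congr_deriv ?_
    rw [mul_one, Real.mul_self_sqrt hs]
  have h3 := (hd (yR R s z y g) (√s * (√s * t0 - √(1 - s) * g e))).comp t0 h2
  refine (h3.congr_deriv ?_).congr_of_eventuallyEq (Filter.Eventually.of_forall fun t => ?_)
  · simp only [h1]
    ring
  · simp only [h1, Function.comp_apply]

lemma yR_not {e : κ} (he : e ∉ R) (z y g : κ → ℝ) (t : ℝ) :
    yR R s z (Function.update y e t) g = yR R s z y g := by
  funext j
  unfold yR sw
  by_cases hR : j ∈ R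
  · have hj : j ≠ e := fun h => he (h ▸ hR)
    simp [hR, hj]
  · simp [hR]

lemma zR_not {e : κ} (he : e ∉ R) (z y g : κ → ℝ) (t : ℝ) :
    zR R s z (Function.update y e t) g = zR R s z y g := by
  funext j
  unfold zR sw
  by_cases hR : j ∈ R
  · have hj : j ≠ e := fun h => he (h ▸ hR)
    simp [hR, hj]
  · simp [hR]

lemma row_dd (h : C11 F D B L) (hb : ∀ y, ∑ e ∈ R, D e y ^ 2 ≤ b2) (x s : ℝ) (y : κ → ℝ) :
    ∑ e ∈ R, Ax x s F (D e) y ^ 2 ≤ b2 := by
  have h1 : ∑ e ∈ R, Ax x s F (D e) y ^ 2 ≤ ∑ e ∈ R, Ax x s F (fun u => D e u * D e u) y :=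
    Finset.sum_le_sum fun e _ => H785.Ax_sq_le h.lip h.B0 (C11.egD h e) x s y
  refine h1.trans ?_
  rw [← H785.Ax_sum h.lip h.B0 R (fun e _ => (C11.egD h e).mul (C11.egD h e)),
    ← H785.Ax_const h.lip h.B0 b2 x s y]
  refine H785.Ax_mono h.lip h.B0 (EG.sum R fun e _ => (C11.egD h e).mul (C11.egD h e))
    (EG.const b2) (fun u => ?_) x s y
  refine le_trans (le_of_eq ?_) (hb u)
  exact Finset.sum_congr rfl fun e _ => (_root_.sq (D e u)).symm

lemma eg_zR1 {f : (κ → ℝ) → ℝ} (hf : EG f) (R : Finset κ) (s : ℝ) (z g : κ → ℝ) :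
    EG fun a => f (zR R s z a g) := by
  refine eg_compK hf (K := ‖z‖ + √(1 - s) * ‖g‖) (C := 1)
    (meas_swf measurable_const measurable_id R) zero_le_one fun w => ?_
  have := norm_zR R s z w g
  linarith

lemma eg_yR1 {f : (κ → ℝ) → ℝ} (hf : EG f) (R : Finset κ) (s : ℝ) (z g : κ → ℝ) :
    EG fun a => f (yR R s z a g) := by
  refine eg_compK hf (K := ‖z‖ + √s * (√(1 - s) * ‖g‖)) (C := √s * √s)
    (meas_swf measurable_const (by fun_prop) R) (by positivity) fun w => ?_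
  have := norm_yR R s z w g
  linarith

lemma eg_rhoR1 (h : C11 F D B L) (hx : 0 < x) (R : Finset κ) (s : ℝ) (z g : κ → ℝ) :
    EG fun a => rhoR R x s F z a g := by
  have h1 := eg_zR1 (C11.egx h x) R s z g
  have h2 := eg_yR1 (C11.egx (c11_uu h hx s) (-x)) R s z g
  have e : (fun a => rhoR R x s F z a g) = fun a =>
      Real.exp (x * F (zR R s z a g)) * Real.exp (-x * uu x s F (yR R s z a g)) := by
    funext w
    unfold rhoR
    rw [← Real.exp_add]
    congr 1
    ring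
  rw [e]
  exact h1.mul h2

/-- **Decoupling of the row, conditionally on the other couplings.** -/
lemma row_cov (h : C11 F D B L) (hx : 0 < x) (hs : 0 ≤ s) (hs1 : s ≤ 1)
    (hb : ∀ y, ∑ e ∈ R, D e y ^ 2 ≤ b2) (hb1 : 8 * b2 * x ^ 2 ≤ 1) (hG : EG G) (z g : κ → ℝ) :
    |∫ a, rhoR R x s F z a g * G (zR R s z a g) ∂(gI κ) -
      (∫ a, rhoR R x s F z a g ∂(gI κ)) * ∫ a, G (zR R s z a g) ∂(gI κ)| ≤
      √(8 * b2 * x ^ 2) * ((∫ a, rhoR R x s F z a g ∂(gI κ)) *
        √(∫ a, G (zR R s z a g) ^ 2 ∂(gI κ))) := by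
  classical
  set DU : κ → (κ → ℝ) → ℝ := fun e => Ax x (√(1 - s)) F (D e) with hDU
  have hU : C11 (uu x s F) _ _ _ := c11_uu h hx s
  have pU : ∀ e, PD e (uu x s F) (DU e) := fun e =>
    Cum.pd_W h.lip h.B0 (R1.C11.pd h e) (C11.egD h e) hx.ne' _
  have eU : ∀ e, EG (DU e) := fun e => eg_Ax h (C11.egD h e) _ _
  set ψ' : κ → (κ → ℝ) → ℝ := fun e a => if e ∈ R then
    rhoR R x s F z a g * (x * (D e (zR R s z a g) - s * DU e (yR R s z a g))) else 0 with hψ'
  have hρ := eg_rhoR1 h hx R s z g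
  have h1 : ∀ e, PD e (fun a => rhoR R x s F z a g) (ψ' e) := by
    intro e
    by_cases he : e ∈ R
    · simp only [hψ', he, if_true]
      have q1 : PD e (fun a => F (zR R s z a g)) (fun a => D e (zR R s z a g)) :=
        pd_sw he (R1.C11.pd h e) _
      have q2 := pd_yR he (pU e) hs z g
      exact ((q1.sub q2).const_mul x).exp
    · simp only [hψ', he, if_false]
      refine PD.of_indep fun y t => ?_
      unfold rhoR
      rw [yR_not he, zR_not he]
  have h2 : ∀ e, EG (ψ' e) := by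
    intro e
    by_cases he : e ∈ R
    · simp only [hψ', he, if_true]
      exact hρ.mul (((eg_zR1 (C11.egD h e) R s z g).sub
        ((eg_yR1 (eU e) R s z g).const_mul s)).const_mul x)
    · simp only [hψ', he, if_false]
      exact EG.const 0
  have h3 : ∀ a, ∑ e, ψ' e a ^ 2 ≤ (4 * b2 * x ^ 2) * rhoR R x s F z a g ^ 2 := by
    intro a
    have e1 : ∑ e, ψ' e a ^ 2 = ∑ e ∈ R, (rhoR R x s F z a g *
        (x * (D e (zR R s z a g) - s * DU e (yR R s z a g)))) ^ 2 := by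
      rw [← Finset.sum_subset (Finset.subset_univ R)]
      · exact Finset.sum_congr rfl fun e he => by simp only [hψ', he, if_true]
      · intro e _ he
        simp [hψ', he]
    have e2 : ∀ e ∈ R, (rhoR R x s F z a g *
        (x * (D e (zR R s z a g) - s * DU e (yR R s z a g)))) ^ 2 ≤
        rhoR R x s F z a g ^ 2 * (x ^ 2 * (2 * D e (zR R s z a g) ^ 2 +
          2 * DU e (yR R s z a g) ^ 2)) := by
      intro e _
      rw [mul_pow, mul_pow]
      refine mul_le_mul_of_nonneg_left (mul_le_mul_of_nonneg_left ?_ (sq_nonneg _)) (sq_nonneg _)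
      have s2 : s ^ 2 ≤ 1 := pow_le_one₀ hs hs1
      nlinarith [sq_nonneg (D e (zR R s z a g) + s * DU e (yR R s z a g)),
        mul_le_mul_of_nonneg_right s2 (sq_nonneg (DU e (yR R s z a g)))]
    rw [e1]
    refine (Finset.sum_le_sum e2).trans ?_
    rw [← Finset.mul_sum, ← Finset.mul_sum, Finset.sum_add_distrib, ← Finset.mul_sum,
      ← Finset.mul_sum]
    have k1 := hb (zR R s z a g)
    have k2 := row_dd h hb x (√(1 - s)) (yR R s z a g)
    have k3 : x ^ 2 * (2 * ∑ e ∈ R, D e (zR R s z a g) ^ 2 +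
        2 * ∑ e ∈ R, DU e (yR R s z a g) ^ 2) ≤ x ^ 2 * (4 * b2) :=
      mul_le_mul_of_nonneg_left (by linarith) (sq_nonneg x)
    have k4 := mul_le_mul_of_nonneg_left k3 (sq_nonneg (rhoR R x s F z a g))
    linarith
  have h4 := cov_le hρ h1 h2 (eg_zR1 hG R s z g) (fun a => (Real.exp_pos _).le) h3 (by linarith)
  rw [show 2 * (4 * b2 * x ^ 2) = 8 * b2 * x ^ 2 by ring] at h4
  exact h4

lemma eg_int1 {Φ : (κ → ℝ) → (κ → ℝ) → ℝ}
    (hΦ : EG fun w : κ ⊕ κ → ℝ => Φ (bl w) (br w)) : EG fun g => ∫ a, Φ a g ∂(gI κ) := by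
  have h1 : EG fun w : κ ⊕ κ → ℝ => Φ (br w) (bl w) := by
    refine eg_compK hΦ (A := fun w => fun e => w e.swap) (by fun_prop) (K := 0) (C := 1)
      zero_le_one fun w => ?_
    rw [zero_add, one_mul]
    exact (pi_norm_le_iff_of_nonneg (norm_nonneg _)).2 fun _ => norm_le_pi_norm w _
  exact eg_int h1

lemma AvP_zR (G : (κ → ℝ) → ℝ) (R : Finset κ) (s : ℝ) (z a g : κ → ℝ) :
    AvP 1 R G (zR R s z a g) = ∫ a', G (zR R s z a' g) ∂(gI κ) := by
  unfold AvP zR
  simp only [Real.sqrt_one, one_smul, R1C.sw_sw]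

/-- **(R2) Decoupling of a row from the position law.** -/
theorem r2_one (h : C11 F D B L) (hx : 0 < x) (hs : 0 ≤ s) (hs1 : s ≤ 1)
    (hb : ∀ y, ∑ e ∈ R, D e y ^ 2 ≤ b2) (hb1 : 8 * b2 * x ^ 2 ≤ 1) (hG : EG G) (z : κ → ℝ) :
    |AvP s R (Ax x (√(1 - s)) F G) z - AvP s R (Ax x (√(1 - s)) F (AvP 1 R G)) z| ≤
      3 * √b2 * x * AvP s R (Ax x (√(1 - s)) F (fun y => √(AvP 1 R (fun u => G u ^ 2) y))) z := by
  have hG1 : EG (AvP 1 R G) := eg_AvP hG 1 R
  have hG2 : EG fun y => √(AvP 1 R (fun u => G u ^ 2) y) := eg_sqrt (eg_AvP (hG.pow 2) 1 R)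
  have hρ := eg_rhoR h hx R s z
  have i1 := eg_int1 (Φ := fun a g => rhoR R x s F z a g * G (zR R s z a g))
    (hρ.mul (eg_zR hG R s z))
  have i2 := eg_int1 (Φ := fun a g => rhoR R x s F z a g * AvP 1 R G (zR R s z a g))
    (hρ.mul (eg_zR hG1 R s z))
  have i3 := eg_int1 (Φ := fun a g => rhoR R x s F z a g *
    √(AvP 1 R (fun u => G u ^ 2) (zR R s z a g))) (hρ.mul (eg_zR hG2 R s z))
  rw [xi_rot h hx hs hs1 hG, xi_rot h hx hs hs1 hG1, xi_rot h hx hs hs1 hG2,
    ← integral_sub i1.integrable i2.integrable, ← integral_const_mul]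
  refine (abs_integral_le_integral_abs).trans ?_
  refine integral_mono (i1.sub i2).abs.integrable (i3.const_mul _).integrable fun g => ?_
  simp only [AvP_zR]
  rw [integral_mul_const, integral_mul_const]
  refine (row_cov h hx hs hs1 hb hb1 hG z g).trans ?_
  refine mul_le_mul_of_nonneg_right ?_ (mul_nonneg
    (integral_nonneg fun a => (Real.exp_pos _).le) (Real.sqrt_nonneg _))
  have hb0 : 0 ≤ b2 := (Finset.sum_nonneg fun e _ => sq_nonneg _).trans (hb 0)
  rw [show 8 * b2 * x ^ 2 = b2 * (8 * x ^ 2) by ring, Real.sqrt_mul hb0, mul_comm 3, mul_assoc]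
  refine mul_le_mul_of_nonneg_left ?_ (Real.sqrt_nonneg _)
  rw [Real.sqrt_le_left (by positivity)]
  nlinarith [sq_nonneg x]

/-- (R2) with an average over a second set. -/
theorem r2 (h : C11 F D B L) (hx : 0 < x) (hs : 0 ≤ s) (hs1 : s ≤ 1)
    (hb : ∀ y, ∑ e ∈ R, D e y ^ 2 ≤ b2) (hb1 : 8 * b2 * x ^ 2 ≤ 1) (hG : EG G)
    (R' : Finset κ) (z : κ → ℝ) :
    |AvP s (R ∪ R') (Ax x (√(1 - s)) F G) z -
      AvP s (R ∪ R') (Ax x (√(1 - s)) F (AvP 1 R G)) z| ≤
      3 * √b2 * x * AvP s (R ∪ R') (Ax x (√(1 - s)) F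
        (fun y => √(AvP 1 R (fun u => G u ^ 2) y))) z := by
  have hG1 : EG (AvP 1 R G) := eg_AvP hG 1 R
  have hG2 : EG fun y => √(AvP 1 R (fun u => G u ^ 2) y) := eg_sqrt (eg_AvP (hG.pow 2) 1 R)
  have a0 := eg_Ax h hG x (√(1 - s))
  have a1 := eg_Ax h hG1 x (√(1 - s))
  have a2 := eg_Ax h hG2 x (√(1 - s))
  rw [Finset.union_comm, ← AvP_AvP a0, ← AvP_AvP a1, ← AvP_AvP a2,
    ← AvP_sub (eg_AvP a0 s R) (eg_AvP a1 s R), ← AvP_const_mul]
  have h1 := fun z => r2_one h hx hs hs1 hb hb1 hG z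
  rw [abs_le]
  constructor
  · rw [neg_eq_neg_one_mul, ← AvP_const_mul]
    refine AvP_mono (((eg_AvP a2 s R).const_mul _).const_mul _)
      ((eg_AvP a0 s R).sub (eg_AvP a1 s R)) (fun y => ?_) z
    have := (abs_le.1 (h1 y)).1
    linarith
  · exact AvP_mono ((eg_AvP a0 s R).sub (eg_AvP a1 s R)) ((eg_AvP a2 s R).const_mul _)
      (fun y => (abs_le.1 (h1 y)).2) z

end Vale.Agent.P146.R1C
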