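import Vale.Agent.P146.H546.Fa
import Vale.Agent.P146.Bdl.B2

/-!
P146, plan R1: the fixed bulk inequality (FB) in terms of Gaussian integrals; transfer of the
abstract statements of `Fa` to the square integrable functions of the Gaussian vector.
-/

open Finset Matrix MeasureTheory ProbabilityTheory

set_option linter.unusedSectionVars false

namespace Vale.Agent.P146.H546

open Vale.Agent.P157.Lv

section El
variable {ι : Type} [Fintype ι]

/-- The class of a square integrable function. -/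
noncomputable def el (f : (ι → ℝ) → ℝ) : Lp ℝ 2 (gI ι) :=
  open Classical in if h : MemLp f 2 (gI ι) then h.toLp f else 0

lemma eg_memLp {f : (ι → ℝ) → ℝ} (hf : EG f) : MemLp f 2 (gI ι) := by
  rw [memLp_two_iff_integrable_sq hf.meas.aestronglyMeasurable]
  exact (hf.pow 2).integrable

lemma el_eq {f : (ι → ℝ) → ℝ} (hf : EG f) : el f = (eg_memLp hf).toLp f := by
  unfold el
  rw [dif_pos (eg_memLp hf)]

lemma inner_el {f g : (ι → ℝ) → ℝ} (hf : EG f) (hg : EG g) :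
    inner ℝ (el f) (el g) = ∫ z, f z * g z ∂(gI ι) := by
  rw [el_eq hf, el_eq hg, L2.inner_def]
  refine integral_congr_ae ?_
  filter_upwards [(eg_memLp hf).coeFn_toLp, (eg_memLp hg).coeFn_toLp] with z h1 h2
  rw [h1, h2]
  simp [mul_comm]

lemma el_add {f g : (ι → ℝ) → ℝ} (hf : EG f) (hg : EG g) :
    el (fun z => f z + g z) = el f + el g := by
  rw [el_eq hf, el_eq hg, el_eq (hf.add hg)]
  exact MemLp.toLp_add _ _

lemma el_sub {f g : (ι → ℝ) → ℝ} (hf : EG f) (hg : EG g) :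
    el (fun z => f z - g z) = el f - el g := by
  rw [el_eq hf, el_eq hg, el_eq (hf.sub hg)]
  exact MemLp.toLp_sub _ _

lemma el_smul (c : ℝ) {f : (ι → ℝ) → ℝ} (hf : EG f) :
    el (fun z => c * f z) = c • el f := by
  rw [el_eq hf, el_eq (hf.const_mul c)]
  exact MemLp.toLp_const_smul c (eg_memLp hf)

lemma el_zero : el (fun _ : ι → ℝ => (0 : ℝ)) = 0 := by
  have := el_smul 0 (EG.const (ι := ι) 0)
  simpa using this

lemma el_sum {κ : Type*} (s : Finset κ) {f : κ → (ι → ℝ) → ℝ} (hf : ∀ i ∈ s, EG (f i)) :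
    el (fun z => ∑ i ∈ s, f i z) = ∑ i ∈ s, el (f i) := by
  classical
  induction s using Finset.induction_on with
  | empty => simpa using el_zero
  | insert a s ha ih =>
    simp only [Finset.sum_insert ha]
    rw [el_add (hf a (Finset.mem_insert_self a s))
      (EG.sum s fun i hi => hf i (Finset.mem_insert_of_mem hi)),
      ih fun i hi => hf i (Finset.mem_insert_of_mem hi)]

lemma norm_el_sq {f : (ι → ℝ) → ℝ} (hf : EG f) : ‖el f‖ ^ 2 = ∫ z, f z ^ 2 ∂(gI ι) := by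
  rw [← real_inner_self_eq_norm_sq, inner_el hf hf]
  simp only [sq]

end El

section Int
variable {ι κ : Type} [Fintype ι] [DecidableEq ι] [Fintype κ]

lemma n2_el {f : κ → (ι → ℝ) → ℝ} (hf : ∀ i, EG (f i)) :
    n2 (fun i => el (f i)) = ∫ z, ∑ i, f i z ^ 2 ∂(gI ι) := by
  rw [integral_finsetSum _ fun i _ => ((hf i).pow 2).integrable]
  exact sum_congr rfl fun i _ => norm_el_sq (hf i)

lemma int_coord (i j : ι) : ∫ z, z i * z j ∂(gI ι) = if i = j then 1 else 0 := by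
  have hp : PD i (fun z : ι → ℝ => z j) (fun _ => if i = j then 1 else 0) := by
    intro y x
    by_cases h : i = j
    · subst h
      simpa using hasDerivAt_id' x
    · simp only [Function.update_of_ne (Ne.symm h), if_neg h]
      exact hasDerivAt_const _ _
  rw [hp.stein (EG.coord j) (EG.const _), integral_const]
  simp

/-- The data: the decomposition of a field in the Gaussian space. -/
structure DecI (a : ι → (ι → ℝ) → ℝ) (M : Matrix ι ι ℝ) : Prop where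
  eg : ∀ i, EG (a i)
  sy : Mᵀ = M
  st : ∀ i j, ∫ z, z j * (a i z - ∑ k, M i k * z k) ∂(gI ι) = 0

lemma eg_lin (M : Matrix ι ι ℝ) (i : ι) : EG (fun z : ι → ℝ => ∑ k, M i k * z k) :=
  EG.sum _ fun k _ => (EG.coord k).const_mul _

lemma DecI.egn {a : ι → (ι → ℝ) → ℝ} {M : Matrix ι ι ℝ} (h : DecI a M) (i : ι) :
    EG (fun z => a i z - ∑ k, M i k * z k) := (h.eg i).sub (eg_lin M i)

lemma DecI.dec {a : ι → (ι → ℝ) → ℝ} {M : Matrix ι ι ℝ} (h : DecI a M) :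
    Dec (fun i : ι => el (fun z : ι → ℝ => z i)) (fun i => el (a i)) M
      (fun i => el (fun z => a i z - ∑ k, M i k * z k)) := by
  refine ⟨fun i j => ?_, h.sy, fun i => ?_, fun i j => ?_⟩
  · rw [inner_el (EG.coord i) (EG.coord j), int_coord]
  · have e : el (fun z => ∑ k, M i k * z k) = ∑ k, M i k • el (fun z : ι → ℝ => z k) := by
      rw [el_sum _ fun k _ => (EG.coord k).const_mul _]
      exact sum_congr rfl fun k _ => el_smul _ (EG.coord k)
    rw [el_sub (h.eg i) (eg_lin M i), e]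
    abel
  · rw [inner_el (EG.coord j) (h.egn i)]
    exact h.st i j

/-- The two-row form as integrals. -/
noncomputable def Gi (a d : ι → (ι → ℝ) → ℝ) : ℝ :=
  ∑ i, ∑ j, ((∫ z, a i z * a j z ∂(gI ι)) * (∫ z, d i z * d j z ∂(gI ι)) -
    (∫ z, a i z * d j z ∂(gI ι)) ^ 2)

/-- The commutator functional as integrals. -/
noncomputable def Yi (a d : ι → (ι → ℝ) → ℝ) : ℝ :=
  1 / 2 * ∑ i, ∑ j, ((∫ z, a i z * d j z ∂(gI ι)) - (∫ z, a j z * d i z ∂(gI ι))) ^ 2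

lemma Gf_el {a d : ι → (ι → ℝ) → ℝ} (ha : ∀ i, EG (a i)) (hd : ∀ i, EG (d i)) :
    Gf (fun i => el (a i)) (fun i => el (d i)) = Gi a d := by
  rw [Gf_eq_sum]
  exact sum_congr rfl fun i _ => sum_congr rfl fun j _ => by
    rw [inner_el (ha i) (ha j), inner_el (hd i) (hd j), inner_el (ha i) (hd j)]

lemma Yf_el {a d : ι → (ι → ℝ) → ℝ} (ha : ∀ i, EG (a i)) (hd : ∀ i, EG (d i)) :
    Yf (fun i => el (a i)) (fun i => el (d i)) = Yi a d := by
  rw [Yf_eq_sum, Yi]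
  congr 1
  exact sum_congr rfl fun i _ => sum_congr rfl fun j _ => by
    rw [inner_el (ha i) (hd j), inner_el (ha j) (hd i)]

/-- The lower bound without any assumption on the structure. -/
theorem Gi_ge {a d : ι → (ι → ℝ) → ℝ} {M1 M2 : Matrix ι ι ℝ} (h1 : DecI a M1) (h2 : DecI d M2)
    {α0 α1 δ0 δ1 : ℝ} (hα0 : 0 ≤ α0) (hα1 : 0 ≤ α1) (hδ0 : 0 ≤ δ0) (hδ1 : 0 ≤ δ1)
    (ha : ∫ z, ∑ i, a i z ^ 2 ∂(gI ι) ≤ α0 ^ 2)
    (han : ∫ z, ∑ i, (a i z - ∑ k, M1 i k * z k) ^ 2 ∂(gI ι) ≤ α1 ^ 2)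
    (hd : ∫ z, ∑ i, d i z ^ 2 ∂(gI ι) ≤ δ0 ^ 2)
    (hdn : ∫ z, ∑ i, (d i z - ∑ k, M2 i k * z k) ^ 2 ∂(gI ι) ≤ δ1 ^ 2) :
    -(α0 * δ1 + α1 * δ0) ^ 2 ≤ Gi a d := by
  rw [← Gf_el h1.eg h2.eg]
  refine Gf_ge h1.dec h2.dec hα0 hα1 hδ0 hδ1 ?_ ?_ ?_ ?_
  · rw [n2_el h1.eg]; exact ha
  · rw [n2_el h1.egn]; exact han
  · rw [n2_el h2.eg]; exact hd
  · rw [n2_el h2.egn]; exact hdn

/-- **(FB) in terms of Gaussian integrals.** -/
theorem fb_int {a d : ι → (ι → ℝ) → ℝ} {M1 M2 : Matrix ι ι ℝ} (h1 : DecI a M1) (h2 : DecI d M2)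
    (v : ι → ℝ) (hv : ∑ i, v i ^ 2 = 1) {A : (ι → ℝ) → ℝ} (hA : EG A) {m : ℝ}
    (hm : m = ∑ i, ∑ j, v i * M1 i j * v j)
    (sal : ∀ j, ∫ z, (A z - m * ∑ i, v i * z i) * z j ∂(gI ι) = 0)
    {c α0 α1 δ0 δ1 ε0 ε1 : ℝ} (hc : 0 ≤ c) (hα0 : 0 ≤ α0) (hα1 : 0 ≤ α1) (hδ0 : 0 ≤ δ0)
    (hδ1 : 0 ≤ δ1) (hε0 : 0 ≤ ε0) (hε1 : 0 ≤ ε1)
    (ha : ∫ z, ∑ i, a i z ^ 2 ∂(gI ι) ≤ α0 ^ 2)
    (han : ∫ z, ∑ i, (a i z - ∑ k, M1 i k * z k) ^ 2 ∂(gI ι) ≤ α1 ^ 2)
    (hd : ∫ z, ∑ i, d i z ^ 2 ∂(gI ι) ≤ δ0 ^ 2)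
    (hdn : ∫ z, ∑ i, (d i z - ∑ k, M2 i k * z k) ^ 2 ∂(gI ι) ≤ δ1 ^ 2)
    (hal : ∫ z, (A z - m * ∑ i, v i * z i) ^ 2 ∂(gI ι) ≤ α1 ^ 2)
    (he0 : ∑ i, ∑ j, (M1 i j - m * (v i * v j)) ^ 2 ≤ ε0 ^ 2)
    (he1 : ∫ z, ∑ i, (a i z - ∑ k, M1 i k * z k - v i * (A z - m * ∑ i, v i * z i)) ^ 2 ∂(gI ι) ≤
      ε1 ^ 2)
    (hG : c * (∑ i, (∫ z, A z * d i z ∂(gI ι)) ^ 2 - (∑ i, v i * ∫ z, A z * d i z ∂(gI ι)) ^ 2) ≤
      (∫ z, A z ^ 2 ∂(gI ι)) * (∫ z, (∑ i, v i * d i z) ^ 2 ∂(gI ι)) -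
        ∑ i, (∫ z, A z * d i z ∂(gI ι)) ^ 2) :
    c / 2 * Yi a d - 2 * c * ((ε0 ^ 2 + ε1 ^ 2) * δ0 ^ 2) -
      6 * ((ε0 * δ1 + ε1 * δ0) * (α0 * δ1 + α1 * δ0)) ≤ Gi a d := by
  have hlin : EG (fun z : ι → ℝ => ∑ i, v i * z i) :=
    EG.sum _ fun k _ => (EG.coord k).const_mul _
  have hegal : EG (fun z : ι → ℝ => A z - m * ∑ i, v i * z i) := hA.sub (hlin.const_mul m)
  have e1 : el (fun z : ι → ℝ => ∑ i, v i * z i) = ∑ i, v i • el (fun z : ι → ℝ => z i) := by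
    rw [el_sum _ fun k _ => (EG.coord k).const_mul _]
    exact sum_congr rfl fun k _ => el_smul _ (EG.coord k)
  have hAel : el A = m • ∑ i, v i • el (fun z : ι → ℝ => z i) +
      el (fun z => A z - m * ∑ i, v i * z i) := by
    rw [el_sub hA (hlin.const_mul m), el_smul m hlin, e1]; abel
  have hm' : |m| ≤ α0 := by
    have k1 := h1.dec.fb_le hα0 (by rw [n2_el h1.eg]; exact ha)
    refine le_trans ?_ k1
    have hx := Finset.sum_mul_sq_le_sq_mul_sq (univ : Finset (ι × ι)) (fun p => v p.1 * v p.2)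
      (fun p => M1 p.1 p.2)
    have x1 : ∑ p : ι × ι, v p.1 * v p.2 * M1 p.1 p.2 = m := by
      rw [Fintype.sum_prod_type, hm]
      exact sum_congr rfl fun i _ => sum_congr rfl fun j _ => by ring
    have x2 : ∑ p : ι × ι, (v p.1 * v p.2) ^ 2 = 1 := by
      rw [Fintype.sum_prod_type]
      simp only [mul_pow, ← mul_sum, ← sum_mul, hv]; norm_num
    have x3 : ∑ p : ι × ι, M1 p.1 p.2 ^ 2 = dt M1 M1 := by
      rw [Fintype.sum_prod_type]; simp only [dt, sq]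
    rw [x1, x2, x3, one_mul] at hx
    exact Real.abs_le_sqrt hx
  have hAd : ∀ i, inner ℝ (el A) (el (d i)) = ∫ z, A z * d i z ∂(gI ι) :=
    fun i => inner_el hA (h2.eg i)
  have hG' : c * (∑ i, (inner ℝ (el A) (el (d i))) ^ 2 -
      (∑ i, v i * inner ℝ (el A) (el (d i))) ^ 2) ≤
      Gf (fun i => v i • el A) (fun i => el (d i)) := by
    have g1 : Gf (fun i => v i • el A) (fun i => el (d i)) =
        (∫ z, A z ^ 2 ∂(gI ι)) * (∫ z, (∑ i, v i * d i z) ^ 2 ∂(gI ι)) -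
          ∑ i, (∫ z, A z * d i z ∂(gI ι)) ^ 2 := by
      rw [Gf_eq_sum]
      have g2 : ∀ i j, inner ℝ (v i • el A) (v j • el A) * inner ℝ (el (d i)) (el (d j)) -
          inner ℝ (v i • el A) (el (d j)) ^ 2 =
          (∫ z, A z ^ 2 ∂(gI ι)) * (v i * v j * ∫ z, d i z * d j z ∂(gI ι)) -
            v i ^ 2 * (∫ z, A z * d j z ∂(gI ι)) ^ 2 := by
        intro i j
        rw [real_inner_smul_left, real_inner_smul_right, real_inner_smul_left, inner_el hA hA,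
          inner_el (h2.eg i) (h2.eg j), hAd]
        simp only [sq]; ring
      have g3 : ∫ z, (∑ i, v i * d i z) ^ 2 ∂(gI ι) =
          ∑ i, ∑ j, v i * v j * ∫ z, d i z * d j z ∂(gI ι) := by
        have g4 : ∀ z, (∑ i, v i * d i z) ^ 2 = ∑ i, ∑ j, v i * v j * (d i z * d j z) := by
          intro z
          rw [sq, sum_mul_sum]
          exact sum_congr rfl fun i _ => sum_congr rfl fun j _ => by ring
        simp only [g4]
        rw [integral_finsetSum _ fun i _ => (EG.sum _ fun j _ =>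
          ((h2.eg i).mul (h2.eg j)).const_mul _).integrable]
        refine sum_congr rfl fun i _ => ?_
        rw [integral_finsetSum _ fun j _ => (((h2.eg i).mul (h2.eg j)).const_mul _).integrable]
        exact sum_congr rfl fun j _ => integral_const_mul _ _
      simp only [g2, sum_sub_distrib, ← mul_sum, ← sum_mul, hv, one_mul]
      rw [g3]
    rw [g1]
    simp only [hAd]
    exact hG
  have := fb_abs h1.dec h2.dec v hv hAel (al := el (fun z => A z - m * ∑ i, v i * z i))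
    (fun j => by
      rw [real_inner_comm, inner_el hegal (EG.coord j)]; exact sal j)
    hc hα0 hα1 hδ0 hδ1 hε0 hε1 (by rw [n2_el h1.eg]; exact ha) (by rw [n2_el h1.egn]; exact han)
    (by rw [n2_el h2.eg]; exact hd) (by rw [n2_el h2.egn]; exact hdn) hm'
    (by
      have : ‖el (fun z => A z - m * ∑ i, v i * z i)‖ ^ 2 ≤ α1 ^ 2 := by
        rw [norm_el_sq hegal]; exact hal
      exact norm_le_of_sq hα1 this)
    (by
      have : dt (M1 - m • vecMulVec v v) (M1 - m • vecMulVec v v) =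
          ∑ i, ∑ j, (M1 i j - m * (v i * v j)) ^ 2 := by
        simp only [dt, Matrix.sub_apply, Matrix.smul_apply, vecMulVec_apply, smul_eq_mul, sq]
      rw [this]; exact he0)
    (by
      have : (fun i => el (fun z => a i z - ∑ k, M1 i k * z k) -
          v i • el (fun z => A z - m * ∑ i, v i * z i)) =
          fun i => el (fun z => a i z - ∑ k, M1 i k * z k - v i * (A z - m * ∑ i, v i * z i)) := by
        funext i
        rw [← el_smul (v i) hegal, ← el_sub (h1.egn i) (hegal.const_mul (v i))]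
      rw [this, n2_el fun i => (h1.egn i).sub (hegal.const_mul (v i))]; exact he1)
    hG'
  rw [Gf_el h1.eg h2.eg, Yf_el h1.eg h2.eg] at this
  exact this

end Int

end Vale.Agent.P146.H546
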