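import Vale.Agent.P146.H546.Fd
import Vale.Agent.P146.H329.Fb4
import Vale.Agent.P146.H785.Hes
import Vale.Agent.P146.H946.Odd

/-!
P146, plan R1: (FB) for two times. Scaling and smoothing of the fields, and the fixed bulk
inequality for `a(y) = A(σ y)` and `d(y, y') = B(σ y + τ y')`.
-/

open Finset Matrix MeasureTheory ProbabilityTheory

set_option linter.unusedSectionVars false

namespace Vale.Agent.P146.H546

open Vale.Agent.P157.Lv Vale.Agent.P146.R1 Vale.Agent.P146.R1C Vale.Agent.P146.H425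

variable {ι : Type} [Fintype ι] [DecidableEq ι] {A B : ι → (ι → ℝ) → ℝ}
  {V W : ι → ι → (ι → ℝ) → ℝ}

lemma eg_scale {f : (ι → ℝ) → ℝ} (hf : EG f) (σ : ℝ) : EG fun y => f (σ • y) :=
  eg_comp hf (A := fun y : ι → ℝ => σ • y) (by fun_prop) (abs_nonneg σ) fun w => by
    rw [norm_smul, Real.norm_eq_abs]

/-- the two-time point -/
def tp (σ τ : ℝ) (w : ι ⊕ ι → ℝ) : ι → ℝ :=
  σ • (fun e => w (Sum.inl e)) + τ • fun e => w (Sum.inr e)

lemma tp_elim (σ τ : ℝ) (y y' : ι → ℝ) : tp σ τ (Sum.elim y y') = σ • y + τ • y' := rfl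

lemma eg_tp {f : (ι → ℝ) → ℝ} (hf : EG f) (σ τ : ℝ) : EG fun w : ι ⊕ ι → ℝ => f (tp σ τ w) := by
  refine eg_comp hf (A := tp σ τ) ?_ (c := |σ| + |τ|) (by positivity) fun w => ?_
  · unfold tp
    fun_prop
  · unfold tp
    refine (norm_add_le _ _).trans ?_
    rw [norm_smul, norm_smul, Real.norm_eq_abs, Real.norm_eq_abs, add_mul]
    have h1 : ‖(fun e => w (Sum.inl e) : ι → ℝ)‖ ≤ ‖w‖ :=
      (pi_norm_le_iff_of_nonneg (norm_nonneg _)).2 fun _ => norm_le_pi_norm w _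
    have h2 : ‖(fun e => w (Sum.inr e) : ι → ℝ)‖ ≤ ‖w‖ :=
      (pi_norm_le_iff_of_nonneg (norm_nonneg _)).2 fun _ => norm_le_pi_norm w _
    gcongr

lemma eg_smooth {f : (ι → ℝ) → ℝ} (hf : EG f) (σ τ : ℝ) :
    EG fun y => ∫ y', f (σ • y + τ • y') ∂(gI ι) := eg_int (eg_tp hf σ τ)

lemma cont_smooth {f : (ι → ℝ) → ℝ} (hf : EG f) (hc : Continuous f) (τ : ℝ) :
    Continuous fun y => ∫ y', f (y + τ • y') ∂(gI ι) := by
  obtain ⟨C, a, hC, ha, hb⟩ := hf.bdd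
  rw [continuous_iff_continuousAt]
  intro y
  refine continuousAt_of_dominated (bound := fun y' => C * Real.exp (a * (‖y‖ + 1)) *
    Real.exp (a * |τ| * ‖y'‖)) ?_ ?_ ?_ ?_
  · exact Filter.Eventually.of_forall fun u => (hf.meas.comp (by fun_prop)).aestronglyMeasurable
  · filter_upwards [Metric.ball_mem_nhds y one_pos] with u hu
    refine Filter.Eventually.of_forall fun y' => ?_
    rw [Real.norm_eq_abs]
    refine (hb _).trans ?_
    rw [mul_assoc, ← Real.exp_add]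
    refine mul_le_mul_of_nonneg_left (Real.exp_le_exp.2 ?_) hC
    have h1 : ‖u + τ • y'‖ ≤ ‖y‖ + 1 + |τ| * ‖y'‖ := by
      refine (norm_add_le _ _).trans ?_
      rw [norm_smul, Real.norm_eq_abs]
      have h3 := mem_ball_iff_norm.1 hu
      have h4 := norm_add_le (u - y) y
      rw [sub_add_cancel] at h4
      linarith
    have := mul_le_mul_of_nonneg_left h1 ha
    linarith
  · exact (integrable_exp_norm _).const_mul _
  · exact Filter.Eventually.of_forall fun y' => (hc.comp (by fun_prop)).continuousAt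

lemma GF_scale (h : H329.GF A V) (σ : ℝ) :
    H329.GF (fun i y => A i (σ • y)) (fun i j y => σ * V i j (σ • y)) where
  fd i y := by
    have h1 := (h.fd i (σ • y)).comp y ((hasFDerivAt_id y).const_smul σ)
    refine h1.congr_fderiv ?_
    ext w
    simp [mul_assoc, Finset.mul_sum]
  eg i := eg_scale (h.eg i) σ
  egH i j := (eg_scale (h.egH i j) σ).const_mul σ
  cH i j := ((h.cH i j).comp (by fun_prop)).const_mul σ
  sym i j y := by rw [h.sym]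
  odd i y := by rw [smul_neg, h.odd]

lemma GF_smooth (h : H329.GF A V) (τ : ℝ) :
    H329.GF (fun i y => ∫ y', A i (y + τ • y') ∂(gI ι))
      (fun i j y => ∫ y', V i j (y + τ • y') ∂(gI ι)) where
  fd i y := H785.fd_gauss (h.eg i) (fun j => h.egH i j) (fun y => h.fd i y) τ y
  eg i := by simpa only [one_smul] using eg_smooth (h.eg i) 1 τ
  egH i j := by simpa only [one_smul] using eg_smooth (h.egH i j) 1 τ
  cH i j := cont_smooth (h.egH i j) (h.cH i j) τ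
  sym i j y := by simp only [h.sym i j]
  odd i y := by
    rw [← integral_neg]
    have h1 := H946.integral_neg_gI (ι := ι) (F := fun y' => A i (-y + τ • y'))
      ((h.eg i).meas.comp (by fun_prop))
    rw [← h1]
    refine integral_congr_ae (Filter.Eventually.of_forall fun y' => ?_)
    simp only
    rw [← h.odd]
    congr 1
    rw [smul_neg, neg_add]

/-- the field of the second time, averaged over the increment -/
lemma GF_two (h : H329.GF B W) (σ τ : ℝ) :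
    H329.GF (db fun i w => B i (tp σ τ w))
      (fun i j y => σ * ∫ y', W i j (σ • y + τ • y') ∂(gI ι)) :=
  GF_scale (GF_smooth h τ) σ

lemma GF_decI (h : H329.GF A V) : DecI A (H329.MH V) where
  eg := h.eg
  sy := by
    ext i j
    show H329.MH V j i = H329.MH V i j
    unfold H329.MH
    simp only [h.sym j i]
  st i j := H329.stein_nl h i j

/-- Cauchy-Schwarz -/
lemma int_mul_sq_le {f g : (ι → ℝ) → ℝ} (hf : EG f) (hg : EG g) :
    (∫ z, f z * g z ∂(gI ι)) ^ 2 ≤ (∫ z, f z ^ 2 ∂(gI ι)) * ∫ z, g z ^ 2 ∂(gI ι) := by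
  rw [← inner_el hf hg, ← norm_el_sq hf, ← norm_el_sq hg, ← mul_pow]
  exact sq_le_sq' (by
    have := neg_le_of_abs_le (abs_real_inner_le_norm (el f) (el g))
    linarith) (real_inner_le_norm _ _)

lemma dir_sq_le {v : ι → ℝ} (hv : ∑ i, v i ^ 2 = 1) {a : ι → (ι → ℝ) → ℝ} (ha : ∀ i, EG (a i)) :
    ∫ z, (∑ i, v i * a i z) ^ 2 ∂(gI ι) ≤ ∫ z, ∑ i, a i z ^ 2 ∂(gI ι) := by
  refine integral_mono ((EG.sum _ fun i _ => (ha i).const_mul _).pow 2).integrable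
    (EG.sum _ fun i _ => (ha i).pow 2).integrable fun z => ?_
  have := Finset.sum_mul_sq_le_sq_mul_sq univ v fun i => a i z
  rw [hv, one_mul] at this
  exact this

/-- **(FB) for one time.** -/
theorem fb_gf {a d : ι → (ι → ℝ) → ℝ} {H K : ι → ι → (ι → ℝ) → ℝ} (ha : H329.GF a H)
    (hd : H329.GF d K) {v : ι → ℝ} (hv : ∑ i, v i ^ 2 = 1) {c α0 α1 δ0 δ1 ε0 ε1 : ℝ}
    (hc : 0 ≤ c) (hα0 : 0 ≤ α0) (hα1 : 0 ≤ α1) (hδ0 : 0 ≤ δ0) (hδ1 : 0 ≤ δ1) (hε0 : 0 ≤ ε0)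
    (hε1 : 0 ≤ ε1) (hca : 2 * c * ∫ z, ∑ i, a i z ^ 2 ∂(gI ι) ≤
      ∫ z, H329.al v a H z ^ 2 ∂(gI ι))
    (ha0 : ∫ z, ∑ i, a i z ^ 2 ∂(gI ι) ≤ α0 ^ 2)
    (ha1 : ∫ z, ∑ i, H329.nl a H i z ^ 2 ∂(gI ι) ≤ α1 ^ 2)
    (hd0 : ∫ z, ∑ i, d i z ^ 2 ∂(gI ι) ≤ δ0 ^ 2)
    (hd1 : ∫ z, ∑ i, H329.nl d K i z ^ 2 ∂(gI ι) ≤ δ1 ^ 2)
    (he0 : ∑ i, ∑ j, (H329.MH H i j - H329.mv v H * (v i * v j)) ^ 2 ≤ ε0 ^ 2)
    (he1 : 2 * ∑ i, ∑ j, ∫ z, ((H i j z - H329.MH H i j) -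
      v i * ∑ k, v k * (H k j z - H329.MH H k j)) ^ 2 ∂(gI ι) ≤ ε1 ^ 2) :
    c / 2 * Yi a d - 2 * c * ((ε0 ^ 2 + ε1 ^ 2) * δ0 ^ 2) -
      6 * ((ε0 * δ1 + ε1 * δ0) * (α0 * δ1 + α1 * δ0)) ≤ Gi a d := by
  have hpe : EG fun z => H329.prof v a (H329.dv v z) := H329.eg_comp_dv (ha.cce v) v
  set Q := ∫ z, H329.prof v a (H329.dv v z) ^ 2 ∂(gI ι) with hQ
  have hQ0 : 0 ≤ Q := integral_nonneg fun z => sq_nonneg _
  have hQ1 : Q ≤ ∫ z, ∑ i, a i z ^ 2 ∂(gI ι) :=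
    (H329.prof_sq_le ha hv).trans (dir_sq_le hv ha.eg)
  set P : ι → ℝ := fun i => ∫ z, H329.prof v a (H329.dv v z) * d i z ∂(gI ι) with hP
  have hR : ∑ i, (P i - v i * ∑ j, v j * P j) ^ 2 = ∑ i, P i ^ 2 - (∑ i, v i * P i) ^ 2 := by
    have h1 : ∀ i, (P i - v i * ∑ j, v j * P j) ^ 2 =
        P i ^ 2 - 2 * (∑ j, v j * P j) * (v i * P i) + v i ^ 2 * (∑ j, v j * P j) ^ 2 := by
      intro i; ring
    rw [sum_congr rfl fun i _ => h1 i, sum_add_distrib, sum_sub_distrib, ← mul_sum, ← sum_mul, hv]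
    ring
  have hg := H329.gtrick ha hd hv
  have hG : c * (∑ i, P i ^ 2 - (∑ i, v i * P i) ^ 2) ≤
      Q * (∫ z, (∑ i, v i * d i z) ^ 2 ∂(gI ι)) - ∑ i, P i ^ 2 := by
    rcases hQ0.eq_or_lt with h0 | h0
    · have h1 : ∀ i, P i = 0 := by
        intro i
        have h2 := int_mul_sq_le hpe (hd.eg i)
        rw [← hQ, ← h0, zero_mul] at h2
        exact pow_eq_zero_iff (two_ne_zero) |>.1 (le_antisymm h2 (sq_nonneg _))
      simp only [h1, ← h0]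
      simp
    · have h1 : (0 : ℝ) < 2 * Q := by linarith
      refine le_of_mul_le_mul_left ?_ h1
      rw [← hR]
      have h3 : 0 ≤ ∑ i, (P i - v i * ∑ j, v j * P j) ^ 2 := sum_nonneg fun i _ => sq_nonneg _
      have h4 : 2 * Q * c ≤ ∫ z, H329.al v a H z ^ 2 ∂(gI ι) := by
        refine le_trans ?_ hca
        nlinarith [mul_le_mul_of_nonneg_left hQ1 hc]
      calc _ = 2 * Q * c * ∑ i, (P i - v i * ∑ j, v j * P j) ^ 2 := by ring
        _ ≤ _ := mul_le_mul_of_nonneg_right h4 h3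
        _ ≤ _ := hg
  exact fb_int (GF_decI ha) (GF_decI hd) v hv hpe (m := H329.mv v H) rfl
    (fun j => H329.al_perp ha hv j) hc hα0 hα1 hδ0 hδ1 hε0 hε1 ha0 ha1 hd0 hd1
    (((H329.eta_le ha hv).trans (dir_sq_le hv fun i => (GF_decI ha).egn i)).trans ha1) he0
    ((H329.eps1_le ha hv).trans he1) hG

/-- the field of the second time: the two sizes -/
lemma two_d0 (h : ∀ i, EG (B i)) {σ τ ς : ℝ} (hs : σ ^ 2 + τ ^ 2 = ς ^ 2) :
    ∫ y, ∑ i, db (fun i w => B i (tp σ τ w)) i y ^ 2 ∂(gI ι) ≤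
      ∫ y, ∑ i, B i (ς • y) ^ 2 ∂(gI ι) := by
  refine (int_db_sq_le fun i => eg_tp (h i) σ τ).trans (le_of_eq ?_)
  have h1 := gI_rot (f := fun u => ∑ i, B i u ^ 2) (EG.sum _ fun i _ => (h i).pow 2) hs 0
  simp only [zero_add] at h1
  exact h1

lemma two_MH (h : H329.GF B W) {σ τ ς : ℝ} (hs : σ ^ 2 + τ ^ 2 = ς ^ 2) (i j : ι) :
    H329.MH (fun i j y => σ * ∫ y', W i j (σ • y + τ • y') ∂(gI ι)) i j =
      σ * ∫ y, W i j (ς • y) ∂(gI ι) := by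
  unfold H329.MH
  rw [integral_const_mul]
  have h1 := gI_rot (h.egH i j) hs 0
  simp only [zero_add] at h1
  rw [h1]

lemma two_d1 (h : H329.GF B W) {σ τ ς : ℝ} (hs : σ ^ 2 + τ ^ 2 = ς ^ 2) :
    ∫ y, ∑ i, H329.nl (db fun i w => B i (tp σ τ w))
        (fun i j y => σ * ∫ y', W i j (σ • y + τ • y') ∂(gI ι)) i y ^ 2 ∂(gI ι) ≤
      ∫ y, ∑ i, H329.nl (fun i y => B i (ς • y)) (fun i j y => ς * W i j (ς • y)) i y ^ 2
        ∂(gI ι) := by
  set w : ι → ι → ℝ := fun i j => ∫ y, W i j (ς • y) ∂(gI ι) with hw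
  set C : ι → (ι → ℝ) → ℝ := fun i u => B i u - ∑ j, w i j * u j with hC
  have hCe : ∀ i, EG (C i) := fun i => (h.eg i).sub
    (EG.sum _ fun j _ => (EG.coord j).const_mul _)
  have e1 : ∀ i y, H329.nl (db fun i w => B i (tp σ τ w))
      (fun i j y => σ * ∫ y', W i j (σ • y + τ • y') ∂(gI ι)) i y =
      db (fun i u => C i (tp σ τ u)) i y := by
    intro i y
    unfold H329.nl
    have h2 : ∀ j, H329.MH (fun i j y => σ * ∫ y', W i j (σ • y + τ • y') ∂(gI ι)) i j =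
        σ * w i j := two_MH h hs i
    simp only [h2]
    unfold db
    simp only [tp_elim, hC]
    have h3 : ∀ j, EG fun y' : ι → ℝ => w i j * (σ • y + τ • y') j := by
      intro j
      simp only [Pi.add_apply, Pi.smul_apply, smul_eq_mul, mul_add]
      exact (EG.const _).add (((EG.coord j).const_mul τ).const_mul _)
    have h4 : EG fun y' : ι → ℝ => B i (σ • y + τ • y') :=
      eg_elim (eg_tp (h.eg i) σ τ) y
    rw [integral_sub h4.integrable (EG.sum _ fun j _ => h3 j).integrable,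
      integral_finsetSum _ fun j _ => (h3 j).integrable]
    congr 1
    refine sum_congr rfl fun j _ => ?_
    rw [integral_const_mul]
    simp only [Pi.add_apply, Pi.smul_apply, smul_eq_mul]
    rw [integral_add (integrable_const _) ((EG.coord j).const_mul τ).integrable]
    have h5 : ∫ y' : ι → ℝ, y' j ∂(gI ι) = 0 := by
      have h6 := H946.integral_neg_gI (ι := ι) (F := fun y' => y' j) (by fun_prop)
      simp only [Pi.neg_apply, integral_neg] at h6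
      linarith
    rw [integral_const_mul τ, h5, integral_const, probReal_univ, one_smul]
    ring
  have e2 : ∀ i y, H329.nl (fun i y => B i (ς • y)) (fun i j y => ς * W i j (ς • y)) i y =
      C i (ς • y) := by
    intro i y
    unfold H329.nl H329.MH
    simp only [hC, hw, integral_const_mul, Pi.smul_apply, smul_eq_mul]
    congr 1
    exact sum_congr rfl fun j _ => by ring
  simp only [e1, e2]
  exact two_d0 hCe hs

/-- **(FB) for two times.** -/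
theorem fb_two (hA : H329.GF A V) (hB : H329.GF B W) {σ τ ς : ℝ} (hs : σ ^ 2 + τ ^ 2 = ς ^ 2)
    {v : ι → ℝ} (hv : ∑ i, v i ^ 2 = 1) {c α0 α1 δ0 δ1 ε0 ε1 : ℝ}
    (hc : 0 ≤ c) (hα0 : 0 ≤ α0) (hα1 : 0 ≤ α1) (hδ0 : 0 ≤ δ0) (hδ1 : 0 ≤ δ1) (hε0 : 0 ≤ ε0)
    (hε1 : 0 ≤ ε1)
    (hca : 2 * c * ∫ z, ∑ i, A i (σ • z) ^ 2 ∂(gI ι) ≤
      ∫ z, H329.al v (fun i y => A i (σ • y)) (fun i j y => σ * V i j (σ • y)) z ^ 2 ∂(gI ι))
    (ha0 : ∫ z, ∑ i, A i (σ • z) ^ 2 ∂(gI ι) ≤ α0 ^ 2)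
    (ha1 : ∫ z, ∑ i, H329.nl (fun i y => A i (σ • y)) (fun i j y => σ * V i j (σ • y)) i z ^ 2
      ∂(gI ι) ≤ α1 ^ 2)
    (hd0 : ∫ z, ∑ i, B i (ς • z) ^ 2 ∂(gI ι) ≤ δ0 ^ 2)
    (hd1 : ∫ z, ∑ i, H329.nl (fun i y => B i (ς • y)) (fun i j y => ς * W i j (ς • y)) i z ^ 2
      ∂(gI ι) ≤ δ1 ^ 2)
    (he0 : ∑ i, ∑ j, (H329.MH (fun i j y => σ * V i j (σ • y)) i j -
      H329.mv v (fun i j y => σ * V i j (σ • y)) * (v i * v j)) ^ 2 ≤ ε0 ^ 2)
    (he1 : 2 * ∑ i, ∑ j, ∫ z, ((σ * V i j (σ • z) -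
        H329.MH (fun i j y => σ * V i j (σ • y)) i j) -
      v i * ∑ k, v k * (σ * V k j (σ • z) -
        H329.MH (fun i j y => σ * V i j (σ • y)) k j)) ^ 2 ∂(gI ι) ≤ ε1 ^ 2) :
    c / 4 * ∑ i, ∑ j, ((∫ y, (∫ y', A i (σ • y) * B j (σ • y + τ • y') ∂(gI ι)) ∂(gI ι)) -
        ∫ y, (∫ y', A j (σ • y) * B i (σ • y + τ • y') ∂(gI ι)) ∂(gI ι)) ^ 2 ≤
      (∑ i, ∑ j, ((∫ y, A i (σ • y) * A j (σ • y) ∂(gI ι)) *
        (∫ y, (∫ y', B i (σ • y + τ • y') * B j (σ • y + τ • y') ∂(gI ι)) ∂(gI ι)) -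
        (∫ y, (∫ y', A i (σ • y) * B j (σ • y + τ • y') ∂(gI ι)) ∂(gI ι)) ^ 2)) +
      2 * c * ((ε0 ^ 2 + ε1 ^ 2) * δ0 ^ 2) +
      6 * ((ε0 * δ1 + ε1 * δ0) * (α0 * δ1 + α1 * δ0)) := by
  have h1 := fb_gf (GF_scale hA σ) (GF_two hB σ τ) hv hc hα0 hα1 hδ0 hδ1 hε0 hε1 hca ha0 ha1
    ((two_d0 hB.eg hs).trans hd0) ((two_d1 hB hs).trans hd1) he0 he1
  have h2 := split_ge (a := fun i y => A i (σ • y)) (U := fun i w => B i (tp σ τ w))
    (fun i => eg_scale (hA.eg i) σ) fun i => eg_tp (hB.eg i) σ τ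
  have h3 : Yi (fun i y => A i (σ • y)) (db fun i w => B i (tp σ τ w)) = _ := Yi_db
  rw [h3] at h1
  simp only [tp_elim] at h1 h2
  linarith

end Vale.Agent.P146.H546
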