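import Vale.Agent.P146.H332.Lin

/-!
P146: algebra for the fixed bulk inequality. Vectors `a u, d u` of an inner product space, symmetric
real matrices `B, D` (the linear parts); the perpendicular block of the two-row form.
-/

open Finset Matrix

set_option linter.unusedSectionVars false

namespace Vale.Agent.P146.H546

section Mat
variable {κ : Type} [Fintype κ]

/-- Entrywise product of two matrices. -/
def dt (X Y : Matrix κ κ ℝ) : ℝ := ∑ i, ∑ j, X i j * Y i j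

lemma dt_comm (X Y : Matrix κ κ ℝ) : dt X Y = dt Y X := by
  simp only [dt, mul_comm]

lemma dt_self_nonneg (X : Matrix κ κ ℝ) : 0 ≤ dt X X := by
  unfold dt; exact sum_nonneg fun i _ => sum_nonneg fun j _ => mul_self_nonneg _

lemma dt_sub_left (X Y Z : Matrix κ κ ℝ) : dt (X - Y) Z = dt X Z - dt Y Z := by
  simp only [dt, Matrix.sub_apply, sub_mul, sum_sub_distrib]

lemma dt_le (X Y : Matrix κ κ ℝ) : |dt X Y| ≤ √(dt X X) * √(dt Y Y) := by
  have h := Finset.sum_mul_sq_le_sq_mul_sq (univ : Finset (κ × κ)) (fun p => X p.1 p.2)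
    (fun p => Y p.1 p.2)
  have e1 : ∑ p : κ × κ, X p.1 p.2 * Y p.1 p.2 = dt X Y := by
    rw [Fintype.sum_prod_type]; rfl
  have e2 : ∀ Z : Matrix κ κ ℝ, ∑ p : κ × κ, Z p.1 p.2 ^ 2 = dt Z Z := by
    intro Z; rw [Fintype.sum_prod_type]; simp only [dt, sq]
  rw [e1, e2, e2] at h
  rw [← Real.sqrt_mul (dt_self_nonneg X)]
  exact Real.abs_le_sqrt h

lemma dt_mul_eq (A B C : Matrix κ κ ℝ) : dt (A * B) C = dt B (Aᵀ * C) := by
  simp only [dt, Matrix.mul_apply, Matrix.transpose_apply, sum_mul, mul_sum]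
  rw [sum_comm]
  conv_rhs => rw [sum_comm]
  refine sum_congr rfl fun j _ => ?_
  rw [sum_comm]
  refine sum_congr rfl fun k _ => sum_congr rfl fun i _ => ?_
  ring

lemma dt_mul_eq' (A B C : Matrix κ κ ℝ) : dt (A * B) C = dt A (C * Bᵀ) := by
  simp only [dt, Matrix.mul_apply, Matrix.transpose_apply, sum_mul, mul_sum]
  refine sum_congr rfl fun i _ => ?_
  rw [sum_comm]
  refine sum_congr rfl fun k _ => sum_congr rfl fun j _ => ?_
  ring

lemma dt_sq_sq {B D : Matrix κ κ ℝ} (hB : Bᵀ = B) (hD : Dᵀ = D) :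
    dt (B * B) (D * D) = dt (B * D) (B * D) := by
  rw [dt_mul_eq, hB, ← Matrix.mul_assoc, dt_comm, dt_mul_eq', hD, dt_comm]

lemma dt_vec {B : Matrix κ κ ℝ} (hB : Bᵀ = B) (w : κ → ℝ) :
    dt (B * B) (vecMulVec w w) = ∑ i, (∑ j, B i j * w j) ^ 2 := by
  have hs : ∀ i j, B i j = B j i := fun i j => by
    rw [← Matrix.transpose_apply B, hB]
  simp only [dt, Matrix.mul_apply, vecMulVec_apply, sum_mul]
  have : ∀ i, (∑ j, B i j * w j) ^ 2 = ∑ p, ∑ q, B i p * B i q * (w p * w q) := by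
    intro i
    rw [sq, sum_mul_sum]
    refine sum_congr rfl fun p _ => sum_congr rfl fun q _ => ?_
    ring
  simp only [this]
  rw [sum_comm]
  calc ∑ j, ∑ i, ∑ k, B i k * B k j * (w i * w j)
      = ∑ j, ∑ k, ∑ i, B i k * B k j * (w i * w j) := by
        refine sum_congr rfl fun j _ => ?_
        rw [sum_comm]
    _ = ∑ k, ∑ j, ∑ i, B i k * B k j * (w i * w j) := sum_comm
    _ = ∑ k, ∑ i, ∑ j, B i k * B k j * (w i * w j) := by
        refine sum_congr rfl fun k _ => ?_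
        rw [sum_comm]
    _ = _ := by
        refine sum_congr rfl fun k _ => sum_congr rfl fun i _ => sum_congr rfl fun j _ => ?_
        rw [hs i k]

end Mat

section Gram
variable {κ : Type} [Fintype κ]
variable {E : Type*} [NormedAddCommGroup E] [InnerProductSpace ℝ E]

/-- Gram matrix. -/
noncomputable def gm (x y : κ → E) : Matrix κ κ ℝ := fun i j => inner ℝ (x i) (y j)

lemma gm_symm (x : κ → E) : (gm x x)ᵀ = gm x x := by
  ext i j; simp only [Matrix.transpose_apply, gm]; exact real_inner_comm _ _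

/-- Squared total norm. -/
noncomputable def n2 (x : κ → E) : ℝ := ∑ i, ‖x i‖ ^ 2

lemma n2_nonneg (x : κ → E) : 0 ≤ n2 x := by unfold n2; positivity

lemma dt_gm_le (x y : κ → E) : dt (gm x y) (gm x y) ≤ n2 x * n2 y := by
  simp only [dt, gm, n2]
  rw [sum_mul_sum]
  refine sum_le_sum fun i _ => sum_le_sum fun j _ => ?_
  have := abs_real_inner_le_norm (x i) (y j)
  rw [← sq, ← mul_pow]
  exact sq_le_sq' (by linarith [neg_abs_le (inner ℝ (x i) (y j))]) (le_trans (le_abs_self _) this)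

lemma norm_comb_sq (c : κ → ℝ) (x : κ → E) :
    ‖∑ i, c i • x i‖ ^ 2 = ∑ i, ∑ j, c i * c j * inner ℝ (x i) (x j) := by
  rw [← real_inner_self_eq_norm_sq, sum_inner]
  refine sum_congr rfl fun i _ => ?_
  rw [inner_sum]
  refine sum_congr rfl fun j _ => ?_
  rw [real_inner_smul_left, real_inner_smul_right]; ring

lemma psd_gm (x : κ → E) : H332.Psd (gm x x) := by
  refine ⟨gm_symm x, fun c => ?_⟩
  have := norm_comb_sq c x
  simp only [gm]
  rw [← this]
  positivity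

/-- The Gram matrices of two families have nonnegative entrywise product. -/
lemma dt_gm_nonneg [DecidableEq κ] (x y : κ → E) : 0 ≤ dt (gm x x) (gm y y) :=
  (psd_gm x).sum_mul_nonneg (psd_gm y)

lemma comb2 (B D : Matrix κ κ ℝ) (hB : Bᵀ = B) (hD : Dᵀ = D) (a d : κ → E) :
    ∑ u, ‖∑ p, (B u p • d p - D u p • a p)‖ ^ 2 =
      dt (B * B) (gm d d) + dt (D * D) (gm a a) - 2 * dt (D * B) (gm a d) := by
  have hsB : ∀ i j, B i j = B j i := fun i j => by rw [← Matrix.transpose_apply B, hB]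
  have hsD : ∀ i j, D i j = D j i := fun i j => by rw [← Matrix.transpose_apply D, hD]
  have h1 : ∀ u, ‖∑ p, (B u p • d p - D u p • a p)‖ ^ 2 =
      ∑ p, ∑ q, (B u p * B u q * inner ℝ (d p) (d q) + D u p * D u q * inner ℝ (a p) (a q)
        - B u p * D u q * inner ℝ (d p) (a q) - D u p * B u q * inner ℝ (a p) (d q)) := by
    intro u
    rw [← real_inner_self_eq_norm_sq, sum_inner]
    refine sum_congr rfl fun p _ => ?_
    rw [inner_sum]
    refine sum_congr rfl fun q _ => ?_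
    rw [inner_sub_left, inner_sub_right, inner_sub_right]
    simp only [real_inner_smul_left, real_inner_smul_right]; ring
  have sw : ∀ f : κ → κ → κ → ℝ, ∑ u, ∑ p, ∑ q, f u p q = ∑ p, ∑ q, ∑ u, f u p q := by
    intro f
    rw [sum_comm]
    refine sum_congr rfl fun p _ => ?_
    rw [sum_comm]
  rw [sum_congr rfl fun u _ => h1 u]
  simp only [sum_sub_distrib, sum_add_distrib]
  rw [sw (fun u p q => B u p * B u q * inner ℝ (d p) (d q)),
    sw (fun u p q => D u p * D u q * inner ℝ (a p) (a q)),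
    sw (fun u p q => B u p * D u q * inner ℝ (d p) (a q)),
    sw (fun u p q => D u p * B u q * inner ℝ (a p) (d q))]
  have e1 : ∑ p, ∑ q, ∑ u, B u p * B u q * inner ℝ (d p) (d q) = dt (B * B) (gm d d) := by
    simp only [dt, Matrix.mul_apply, gm, sum_mul]
    refine sum_congr rfl fun p _ => sum_congr rfl fun q _ => sum_congr rfl fun u _ => ?_
    rw [hsB u p]
  have e2 : ∑ p, ∑ q, ∑ u, D u p * D u q * inner ℝ (a p) (a q) = dt (D * D) (gm a a) := by
    simp only [dt, Matrix.mul_apply, gm, sum_mul]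
    refine sum_congr rfl fun p _ => sum_congr rfl fun q _ => sum_congr rfl fun u _ => ?_
    rw [hsD u p]
  have e3 : ∑ p, ∑ q, ∑ u, B u p * D u q * inner ℝ (d p) (a q) = dt (D * B) (gm a d) := by
    rw [sum_comm]
    simp only [dt, Matrix.mul_apply, gm, sum_mul]
    refine sum_congr rfl fun p _ => sum_congr rfl fun q _ => sum_congr rfl fun u _ => ?_
    rw [hsD u p, real_inner_comm]; ring
  have e4 : ∑ p, ∑ q, ∑ u, D u p * B u q * inner ℝ (a p) (d q) = dt (D * B) (gm a d) := by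
    simp only [dt, Matrix.mul_apply, gm, sum_mul]
    refine sum_congr rfl fun p _ => sum_congr rfl fun q _ => sum_congr rfl fun u _ => ?_
    rw [hsD u p]
  rw [e1, e2, e3, e4]; ring

/-- The perpendicular part of the two-row form. -/
noncomputable def rest (B D : Matrix κ κ ℝ) (w : κ → ℝ) (α δ : E) (a d : κ → E) : ℝ :=
  2 * ∑ u, inner ℝ α (a u) * ((∑ p, D u p * w p) + inner ℝ δ (d u)) +
    (∑ u, ∑ v, ((B * B) u v + gm a a u v) * (w u * w v + (D * D) u v + gm d d u v)) -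
    ∑ u, ((∑ p, B u p * w p) + inner ℝ (a u) δ) ^ 2 -
    ∑ u, ∑ v, ((B * D) u v + gm a d u v) ^ 2

lemma rest_eq (B D : Matrix κ κ ℝ) (hB : Bᵀ = B) (hD : Dᵀ = D) (w : κ → ℝ) (α δ : E)
    (a d : κ → E) :
    rest B D w α δ a d = 2 * ∑ u, inner ℝ α (a u) * (∑ p, D u p * w p) +
      2 * ∑ u, inner ℝ α (a u) * inner ℝ δ (d u) + ‖∑ u, w u • a u‖ ^ 2 -
      2 * ∑ u, (∑ p, B u p * w p) * inner ℝ (a u) δ - ∑ u, (inner ℝ (a u) δ) ^ 2 +
      ∑ u, ‖∑ p, (B u p • d p - D u p • a p)‖ ^ 2 - 2 * dt (B * D - D * B) (gm a d) +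
      dt (gm a a) (gm d d) - dt (gm a d) (gm a d) := by
  have h1 : ∑ u, ∑ v, ((B * B) u v + gm a a u v) * (w u * w v + (D * D) u v + gm d d u v) =
      dt (B * B) (vecMulVec w w) + dt (B * B) (D * D) + dt (B * B) (gm d d) +
      dt (gm a a) (vecMulVec w w) + dt (D * D) (gm a a) + dt (gm a a) (gm d d) := by
    simp only [dt, vecMulVec_apply, ← sum_add_distrib]
    refine sum_congr rfl fun u _ => sum_congr rfl fun v _ => ?_
    ring
  have h2 : ∑ u, ∑ v, ((B * D) u v + gm a d u v) ^ 2 =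
      dt (B * D) (B * D) + 2 * dt (B * D) (gm a d) + dt (gm a d) (gm a d) := by
    simp only [dt, mul_sum, ← sum_add_distrib]
    refine sum_congr rfl fun u _ => sum_congr rfl fun v _ => ?_
    ring
  have h3 : dt (gm a a) (vecMulVec w w) = ‖∑ u, w u • a u‖ ^ 2 := by
    rw [norm_comb_sq]
    simp only [dt, gm, vecMulVec_apply]
    refine sum_congr rfl fun u _ => sum_congr rfl fun v _ => ?_
    ring
  have h4 : ∑ u, ((∑ p, B u p * w p) + inner ℝ (a u) δ) ^ 2 =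
      ∑ u, (∑ p, B u p * w p) ^ 2 + 2 * ∑ u, (∑ p, B u p * w p) * inner ℝ (a u) δ +
        ∑ u, (inner ℝ (a u) δ) ^ 2 := by
    simp only [mul_sum (univ : Finset κ) (fun u => (∑ p, B u p * w p) * inner ℝ (a u) δ),
      ← sum_add_distrib]
    refine sum_congr rfl fun u _ => ?_
    ring
  have h5 : ∑ u, inner ℝ α (a u) * ((∑ p, D u p * w p) + inner ℝ δ (d u)) =
      ∑ u, inner ℝ α (a u) * (∑ p, D u p * w p) + ∑ u, inner ℝ α (a u) * inner ℝ δ (d u) := by
    simp only [← sum_add_distrib]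
    refine sum_congr rfl fun u _ => ?_
    ring
  rw [rest, h1, h2, h3, h4, h5, dt_vec hB, dt_sq_sq hB hD, comb2 B D hB hD, dt_sub_left]
  ring

lemma sum_mul_le_sqrt (x y : κ → ℝ) : |∑ u, x u * y u| ≤ √(∑ u, x u ^ 2) * √(∑ u, y u ^ 2) := by
  rw [← Real.sqrt_mul (by positivity)]
  exact Real.abs_le_sqrt (Finset.sum_mul_sq_le_sq_mul_sq _ _ _)

lemma sum_inner_sq_le (α : E) (a : κ → E) : ∑ u, (inner ℝ α (a u)) ^ 2 ≤ ‖α‖ ^ 2 * n2 a := by
  unfold n2; rw [mul_sum]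
  refine sum_le_sum fun u _ => ?_
  have := abs_real_inner_le_norm α (a u)
  rw [← mul_pow]
  exact sq_le_sq' (by linarith [neg_abs_le (inner ℝ α (a u))]) (le_trans (le_abs_self _) this)

/-- **Lower bound for the perpendicular part.** -/
theorem rest_ge [DecidableEq κ] (B D : Matrix κ κ ℝ) (hB : Bᵀ = B) (hD : Dᵀ = D) (w : κ → ℝ) (α δ : E)
    (a d : κ → E) :
    -(2 * ‖α‖ * √(n2 a) * √(∑ u, (∑ p, D u p * w p) ^ 2) +
      2 * ‖α‖ * ‖δ‖ * √(n2 a) * √(n2 d) +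
      2 * √(∑ u, (∑ p, B u p * w p) ^ 2) * ‖δ‖ * √(n2 a) + ‖δ‖ ^ 2 * n2 a +
      2 * √(dt (B * D - D * B) (B * D - D * B)) * √(n2 a) * √(n2 d) + n2 a * n2 d) ≤
      rest B D w α δ a d := by
  rw [rest_eq B D hB hD]
  have hA := n2_nonneg a
  have hd := n2_nonneg d
  have s1 : ∀ β : E, √(∑ u, (inner ℝ β (a u)) ^ 2) ≤ ‖β‖ * √(n2 a) := by
    intro β
    rw [← Real.sqrt_sq (norm_nonneg β), ← Real.sqrt_mul (sq_nonneg _)]
    exact Real.sqrt_le_sqrt (sum_inner_sq_le β a)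
  have s2 : √(∑ u, (inner ℝ δ (d u)) ^ 2) ≤ ‖δ‖ * √(n2 d) := by
    rw [← Real.sqrt_sq (norm_nonneg δ), ← Real.sqrt_mul (sq_nonneg _)]
    exact Real.sqrt_le_sqrt (sum_inner_sq_le δ d)
  have t1 : -(‖α‖ * √(n2 a) * √(∑ u, (∑ p, D u p * w p) ^ 2)) ≤
      ∑ u, inner ℝ α (a u) * (∑ p, D u p * w p) := by
    have h := sum_mul_le_sqrt (fun u => inner ℝ α (a u)) (fun u => ∑ p, D u p * w p)
    have h2 : √(∑ u, (inner ℝ α (a u)) ^ 2) * √(∑ u, (∑ p, D u p * w p) ^ 2) ≤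
      ‖α‖ * √(n2 a) * √(∑ u, (∑ p, D u p * w p) ^ 2) :=
        mul_le_mul_of_nonneg_right (s1 α) (Real.sqrt_nonneg _)
    linarith [neg_abs_le (∑ u, inner ℝ α (a u) * (∑ p, D u p * w p))]
  have t2 : -(‖α‖ * ‖δ‖ * √(n2 a) * √(n2 d)) ≤ ∑ u, inner ℝ α (a u) * inner ℝ δ (d u) := by
    have h := sum_mul_le_sqrt (fun u => inner ℝ α (a u)) (fun u => inner ℝ δ (d u))
    have h2 : √(∑ u, (inner ℝ α (a u)) ^ 2) * √(∑ u, (inner ℝ δ (d u)) ^ 2) ≤
      (‖α‖ * √(n2 a)) * (‖δ‖ * √(n2 d)) :=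
        mul_le_mul (s1 α) s2 (Real.sqrt_nonneg _) (by positivity)
    have h3 : (‖α‖ * √(n2 a)) * (‖δ‖ * √(n2 d)) = ‖α‖ * ‖δ‖ * √(n2 a) * √(n2 d) := by ring
    linarith [neg_abs_le (∑ u, inner ℝ α (a u) * inner ℝ δ (d u))]
  have e3 : ∀ u, inner ℝ (a u) δ = inner ℝ δ (a u) := fun u => real_inner_comm _ _
  have t3 : ∑ u, (∑ p, B u p * w p) * inner ℝ (a u) δ ≤
      √(∑ u, (∑ p, B u p * w p) ^ 2) * ‖δ‖ * √(n2 a) := by
    simp only [e3]
    have h := sum_mul_le_sqrt (fun u => ∑ p, B u p * w p) (fun u => inner ℝ δ (a u))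
    have h2 : √(∑ u, (∑ p, B u p * w p) ^ 2) * √(∑ u, (inner ℝ δ (a u)) ^ 2) ≤
      √(∑ u, (∑ p, B u p * w p) ^ 2) * (‖δ‖ * √(n2 a)) :=
        mul_le_mul_of_nonneg_left (s1 δ) (Real.sqrt_nonneg _)
    linarith [le_abs_self (∑ u, (∑ p, B u p * w p) * inner ℝ δ (a u))]
  have t4 : ∑ u, (inner ℝ (a u) δ) ^ 2 ≤ ‖δ‖ ^ 2 * n2 a := by
    simp only [e3]; exact sum_inner_sq_le δ a
  have t5 : dt (B * D - D * B) (gm a d) ≤
      √(dt (B * D - D * B) (B * D - D * B)) * √(n2 a) * √(n2 d) := by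
    have h := dt_le (B * D - D * B) (gm a d)
    have h2 : √(dt (gm a d) (gm a d)) ≤ √(n2 a) * √(n2 d) := by
      rw [← Real.sqrt_mul hA]; exact Real.sqrt_le_sqrt (dt_gm_le a d)
    have h3 := mul_le_mul_of_nonneg_left h2 (Real.sqrt_nonneg (dt (B * D - D * B) (B * D - D * B)))
    linarith [le_abs_self (dt (B * D - D * B) (gm a d))]
  have t6 := dt_gm_nonneg a d
  have t7 := dt_gm_le a d
  have t8 : 0 ≤ ‖∑ u, w u • a u‖ ^ 2 := sq_nonneg _
  have t9 : 0 ≤ ∑ u, ‖∑ p, (B u p • d p - D u p • a p)‖ ^ 2 := by positivity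
  linarith

end Gram

end Vale.Agent.P146.H546
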