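import Vale.Agent.P146.H546.Core1

/-!
P146: algebra for the fixed bulk inequality, part 2. Scalars are elements of an inner product space
`L` (square integrable functions), `o` is the constant function one. `h, e` are the top row of the
first symmetric matrix, `k, w, K` the entries of the second one. Lower bound for the top part of the
two-row form, and the gain from the symmetry of the fourth derivatives.
-/

open Finset Matrix

set_option linter.unusedSectionVars false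

namespace Vale.Agent.P146.H546

variable {κ : Type} [Fintype κ]
variable {L : Type*} [NormedAddCommGroup L] [InnerProductSpace ℝ L]

/-- Sum of inner products. -/
noncomputable def ip (x y : κ → L) : ℝ := ∑ i, inner ℝ (x i) (y i)

lemma ip_comm (x y : κ → L) : ip x y = ip y x := by
  simp only [ip]; exact sum_congr rfl fun i _ => real_inner_comm _ _

lemma ip_self (x : κ → L) : ip x x = n2 x := by
  simp only [ip, n2]; exact sum_congr rfl fun i _ => real_inner_self_eq_norm_sq _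

lemma ip_sq_le (x y : κ → L) : (ip x y) ^ 2 ≤ n2 x * n2 y := by
  have h1 : (ip x y) ^ 2 ≤ (∑ i, ‖x i‖ * ‖y i‖) ^ 2 := by
    apply sq_le_sq'
    · have : -(∑ i, ‖x i‖ * ‖y i‖) ≤ ip x y := by
        rw [ip, ← sum_neg_distrib]
        exact sum_le_sum fun i _ => by
          linarith [abs_real_inner_le_norm (x i) (y i), neg_abs_le (inner ℝ (x i) (y i))]
      exact this
    · exact sum_le_sum fun i _ => real_inner_le_norm _ _
  exact h1.trans (Finset.sum_mul_sq_le_sq_mul_sq _ _ _)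

lemma ip_abs_le (x y : κ → L) : |ip x y| ≤ √(n2 x) * √(n2 y) := by
  rw [← Real.sqrt_mul (n2_nonneg x)]; exact Real.abs_le_sqrt (ip_sq_le x y)

/-- The top part of the two-row form. -/
noncomputable def top (h k : L) (e w : κ → L) (K : κ → κ → L) : ℝ :=
  (‖h‖ ^ 2 + n2 e) * (‖k‖ ^ 2 + n2 w) - (inner ℝ h k + ip e w) ^ 2 -
    ∑ u, (inner ℝ h (w u) + ip e (fun p => K p u)) ^ 2

/-- The main positive quantity. -/
noncomputable def mm (b : ℝ) (ω : κ → ℝ) (h' k : L) (w' : κ → L) : ℝ :=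
  ∑ u, ‖b • w' u - ω u • h'‖ ^ 2 + b ^ 2 * ‖k‖ ^ 2

lemma mm_nonneg (b : ℝ) (ω : κ → ℝ) (h' k : L) (w' : κ → L) : 0 ≤ mm b ω h' k w' := by
  unfold mm; positivity

lemma norm_split {o : L} (ho : ‖o‖ = 1) (b : ℝ) {h' : L} (h0 : inner ℝ o h' = 0) :
    ‖b • o + h'‖ ^ 2 = b ^ 2 + ‖h'‖ ^ 2 := by
  rw [norm_add_sq_real, real_inner_smul_left, h0, norm_smul, ho]
  simp

theorem top_ge {o : L} (ho : ‖o‖ = 1) (b : ℝ) (ω : κ → ℝ) {h' k : L} {e w' : κ → L}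
    (K : κ → κ → L) (h0 : inner ℝ o h' = 0) (k0 : inner ℝ o k = 0) (e0 : ∀ u, inner ℝ o (e u) = 0)
    (w0 : ∀ u, inner ℝ o (w' u) = 0) :
    mm b ω h' k w' - 2 * |inner ℝ h' k| * |ip e w'| -
      2 * √(∑ u, (b * ω u + inner ℝ h' (w' u)) ^ 2) * √(∑ u, (ip e (fun p => K p u)) ^ 2) -
      ∑ u, (ip e (fun p => K p u)) ^ 2 ≤
    top (b • o + h') k e (fun u => ω u • o + w' u) K := by
  have hhk : inner ℝ (b • o + h') k = inner ℝ h' k := by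
    rw [inner_add_left, real_inner_smul_left, k0]; ring
  have hew : ip e (fun u => ω u • o + w' u) = ip e w' := by
    simp only [ip]
    refine sum_congr rfl fun u _ => ?_
    rw [inner_add_right, real_inner_smul_right, real_inner_comm, e0]; ring
  have hhw : ∀ u, inner ℝ (b • o + h') (ω u • o + w' u) = b * ω u + inner ℝ h' (w' u) := by
    intro u
    rw [inner_add_left, inner_add_right, inner_add_right]
    simp only [real_inner_smul_left, real_inner_smul_right]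
    rw [w0, real_inner_comm o h', h0, real_inner_self_eq_norm_sq, ho]; ring
  have hw2 : n2 (fun u => ω u • o + w' u) = ∑ u, (ω u) ^ 2 + n2 w' := by
    simp only [n2, ← sum_add_distrib]
    exact sum_congr rfl fun u _ => norm_split ho _ (w0 u)
  set F : κ → ℝ := fun u => b * ω u + inner ℝ h' (w' u) with hF
  set J : κ → ℝ := fun u => ip e (fun p => K p u) with hJ
  have hmm : mm b ω h' k w' = ∑ u, (b ^ 2 * ‖w' u‖ ^ 2 + (ω u) ^ 2 * ‖h'‖ ^ 2 -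
      2 * (b * ω u * inner ℝ h' (w' u))) + b ^ 2 * ‖k‖ ^ 2 := by
    rw [mm]
    congr 1
    refine sum_congr rfl fun u _ => ?_
    rw [norm_sub_sq_real, norm_smul, norm_smul, real_inner_smul_left, real_inner_smul_right,
      real_inner_comm, mul_pow, mul_pow, Real.norm_eq_abs, Real.norm_eq_abs, sq_abs, sq_abs]
    ring
  have c1 : (inner ℝ h' k) ^ 2 ≤ ‖h'‖ ^ 2 * ‖k‖ ^ 2 := by
    rw [← mul_pow]
    have := abs_real_inner_le_norm h' k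
    exact sq_le_sq' (by linarith [neg_abs_le (inner ℝ h' k)]) (le_trans (le_abs_self _) this)
  have c2 : ∑ u, (inner ℝ h' (w' u)) ^ 2 ≤ ‖h'‖ ^ 2 * n2 w' := sum_inner_sq_le h' w'
  have c3 : (ip e w') ^ 2 ≤ n2 e * n2 w' := ip_sq_le e w'
  have c4 : ∑ u, F u * J u ≤ √(∑ u, F u ^ 2) * √(∑ u, J u ^ 2) :=
    le_trans (le_abs_self _) (sum_mul_le_sqrt F J)
  have hFs : ∑ u, F u ^ 2 = b ^ 2 * ∑ u, (ω u) ^ 2 + 2 * ∑ u, b * ω u * inner ℝ h' (w' u) +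
      ∑ u, (inner ℝ h' (w' u)) ^ 2 := by
    simp only [mul_sum, ← sum_add_distrib]
    exact sum_congr rfl fun u _ => by simp only [hF]; ring
  have hmm2 : mm b ω h' k w' = b ^ 2 * n2 w' + ‖h'‖ ^ 2 * ∑ u, (ω u) ^ 2 -
      2 * ∑ u, b * ω u * inner ℝ h' (w' u) + b ^ 2 * ‖k‖ ^ 2 := by
    rw [hmm]
    simp only [n2, mul_sum, sum_sub_distrib, sum_add_distrib]
    congr 3
    exact sum_congr rfl fun u _ => by ring
  have hFJ : ∑ u, (F u + J u) ^ 2 = ∑ u, F u ^ 2 + 2 * ∑ u, F u * J u + ∑ u, J u ^ 2 := by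
    simp only [mul_sum, ← sum_add_distrib]
    exact sum_congr rfl fun u _ => by ring
  have hab : inner ℝ h' k * ip e w' ≤ |inner ℝ h' k| * |ip e w'| := by
    rw [← abs_mul]; exact le_abs_self _
  have hn : ‖b • o + h'‖ ^ 2 = b ^ 2 + ‖h'‖ ^ 2 := norm_split ho b h0
  have hωn : 0 ≤ ∑ u, (ω u) ^ 2 := by positivity
  have hen := n2_nonneg e
  have hwn := n2_nonneg w'
  have htop : top (b • o + h') k e (fun u => ω u • o + w' u) K =
      (b ^ 2 + ‖h'‖ ^ 2 + n2 e) * (‖k‖ ^ 2 + (∑ u, (ω u) ^ 2 + n2 w')) -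
        (inner ℝ h' k + ip e w') ^ 2 - (∑ u, F u ^ 2 + 2 * ∑ u, F u * J u + ∑ u, J u ^ 2) := by
    rw [top, hhk, hew, hw2, hn, ← hFJ]
    simp only [hhw]
    rfl
  have hR : √(∑ u, (b * ω u + inner ℝ h' (w' u)) ^ 2) * √(∑ u, (ip e (fun p => K p u)) ^ 2) =
      √(∑ u, F u ^ 2) * √(∑ u, J u ^ 2) := rfl
  have hJ2 : ∑ u, (ip e (fun p => K p u)) ^ 2 = ∑ u, J u ^ 2 := rfl
  rw [htop, mul_assoc 2 (√(∑ u, (b * ω u + inner ℝ h' (w' u)) ^ 2)), hR, hJ2, hmm2]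
  have p1 : 0 ≤ n2 e * ‖k‖ ^ 2 := by positivity
  have p2 : 0 ≤ n2 e * ∑ u, (ω u) ^ 2 := by positivity
  have key : (b ^ 2 + ‖h'‖ ^ 2 + n2 e) * (‖k‖ ^ 2 + (∑ u, (ω u) ^ 2 + n2 w')) =
      b ^ 2 * ‖k‖ ^ 2 + b ^ 2 * ∑ u, (ω u) ^ 2 + b ^ 2 * n2 w' + ‖h'‖ ^ 2 * ‖k‖ ^ 2 +
      ‖h'‖ ^ 2 * ∑ u, (ω u) ^ 2 + ‖h'‖ ^ 2 * n2 w' + n2 e * ‖k‖ ^ 2 + n2 e * ∑ u, (ω u) ^ 2 +
      n2 e * n2 w' := by ring
  have key2 : (inner ℝ h' k + ip e w') ^ 2 = (inner ℝ h' k) ^ 2 + 2 * (inner ℝ h' k * ip e w') +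
      (ip e w') ^ 2 := by ring
  rw [key, key2]
  generalize √(∑ u, F u ^ 2) * √(∑ u, J u ^ 2) = R at *
  linarith [c1, c2, c3, c4, p1, p2, hab, hFs]

lemma cs_weight {W : ℝ} (hW : 0 < W) (x y B q : ℝ) :
    (x * y + B * q) ^ 2 ≤ (x ^ 2 + W * B ^ 2) * (y ^ 2 + q ^ 2 / W) := by
  obtain ⟨s, hs, rfl⟩ : ∃ s : ℝ, 0 < s ∧ W = s ^ 2 :=
    ⟨√W, Real.sqrt_pos.2 hW, (Real.sq_sqrt hW.le).symm⟩
  obtain ⟨r, rfl⟩ : ∃ r : ℝ, q = r * s := ⟨q / s, by field_simp⟩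
  have : (r * s) ^ 2 / s ^ 2 = r ^ 2 := by field_simp
  rw [this]
  nlinarith [sq_nonneg (s * B * y - x * r)]

/-- **The gain.** If `⟨w u, Q₁⟩ = ⟨k, Q₂ u⟩` (equality of mixed fourth derivatives) then rotation
costs at least the square of the third chaos coefficient of the first function. -/
theorem gain (b : ℝ) (ω : κ → ℝ) {h' k : L} {w' : κ → L} {Q₁ : L} {Q₂ : κ → L}
    (hQ1 : ‖Q₁‖ ^ 2 ≤ 2 / 3) (hQ2 : ∀ c : κ → ℝ, ‖∑ u, c u • Q₂ u‖ ^ 2 ≤ 1 / 3 * ∑ u, c u ^ 2)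
    (hsym : ∀ u, inner ℝ (w' u) Q₁ = inner ℝ k (Q₂ u)) :
    (∑ u, (ω u) ^ 2) * (inner ℝ h' Q₁) ^ 2 ≤ mm b ω h' k w' := by
  set W := ∑ u, (ω u) ^ 2 with hW
  have hWn : 0 ≤ W := by positivity
  rcases eq_or_lt_of_le hWn with h0 | hpos
  · rw [← h0, zero_mul]; exact mm_nonneg _ _ _ _ _
  set X : L := ∑ u, ω u • (b • w' u - ω u • h') with hX
  set Q : L := ∑ u, ω u • Q₂ u with hQ
  have e1 : inner ℝ X Q₁ - b * inner ℝ k Q = -(W * inner ℝ h' Q₁) := by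
    rw [hX, hQ, sum_inner, inner_sum, mul_sum, ← sum_sub_distrib, hW, sum_mul, ← sum_neg_distrib]
    refine sum_congr rfl fun u _ => ?_
    rw [real_inner_smul_left, inner_sub_left, real_inner_smul_left, real_inner_smul_left,
      real_inner_smul_right, hsym]
    ring
  set S := ∑ u, ‖b • w' u - ω u • h'‖ ^ 2 with hS
  have hSn : 0 ≤ S := by positivity
  have e2 : ‖X‖ ^ 2 ≤ W * S := by
    have h1 : ‖X‖ ≤ ∑ u, |ω u| * ‖b • w' u - ω u • h'‖ := by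
      refine (norm_sum_le _ _).trans (sum_le_sum fun u _ => ?_)
      rw [norm_smul, Real.norm_eq_abs]
    have h2 : (∑ u, |ω u| * ‖b • w' u - ω u • h'‖) ^ 2 ≤ W * S := by
      have := Finset.sum_mul_sq_le_sq_mul_sq univ (fun u => |ω u|)
        (fun u => ‖b • w' u - ω u • h'‖)
      simpa only [sq_abs] using this
    exact (pow_le_pow_left₀ (norm_nonneg _) h1 2).trans h2
  have e3 : ‖Q‖ ^ 2 ≤ 1 / 3 * W := hQ2 ω
  have i1 : |inner ℝ X Q₁| ≤ ‖X‖ * ‖Q₁‖ := abs_real_inner_le_norm _ _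
  have i2 : |inner ℝ k Q| ≤ ‖k‖ * ‖Q‖ := abs_real_inner_le_norm _ _
  have i3 : W * |inner ℝ h' Q₁| ≤ ‖X‖ * ‖Q₁‖ + |b| * ‖k‖ * ‖Q‖ := by
    have : W * |inner ℝ h' Q₁| = |inner ℝ X Q₁ - b * inner ℝ k Q| := by
      rw [e1, abs_neg, abs_mul, abs_of_pos hpos]
    rw [this]
    have h3 : |inner ℝ X Q₁ - b * inner ℝ k Q| ≤ |inner ℝ X Q₁| + |b| * |inner ℝ k Q| := by
      rw [← abs_mul]; exact abs_sub _ _
    have h4 : |b| * |inner ℝ k Q| ≤ |b| * (‖k‖ * ‖Q‖) :=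
      mul_le_mul_of_nonneg_left i2 (abs_nonneg _)
    linarith
  have i4 : (‖X‖ * ‖Q₁‖ + |b| * ‖k‖ * ‖Q‖) ^ 2 ≤ W * mm b ω h' k w' := by
    have hb : |b| ^ 2 = b ^ 2 := sq_abs b
    have h5 : (‖X‖ * ‖Q₁‖ + |b| * ‖k‖ * ‖Q‖) ^ 2 ≤
        (‖X‖ ^ 2 + W * (b ^ 2 * ‖k‖ ^ 2)) * (‖Q₁‖ ^ 2 + ‖Q‖ ^ 2 / W) := by
      have := cs_weight hpos ‖X‖ ‖Q₁‖ (|b| * ‖k‖) ‖Q‖
      rwa [mul_pow, hb] at this
    have h9 : ‖Q₁‖ ^ 2 + ‖Q‖ ^ 2 / W ≤ 1 := by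
      have : ‖Q‖ ^ 2 / W ≤ 1 / 3 := by rw [div_le_iff₀ hpos]; linarith
      linarith
    have h10 : 0 ≤ ‖X‖ ^ 2 + W * (b ^ 2 * ‖k‖ ^ 2) := by positivity
    have h11 : ‖X‖ ^ 2 + W * (b ^ 2 * ‖k‖ ^ 2) ≤ W * mm b ω h' k w' := by
      rw [mm, ← hS]; nlinarith [e2]
    calc _ ≤ _ := h5
      _ ≤ (‖X‖ ^ 2 + W * (b ^ 2 * ‖k‖ ^ 2)) * 1 := mul_le_mul_of_nonneg_left h9 h10
      _ ≤ _ := by rw [mul_one]; exact h11
  have i5 : (W * |inner ℝ h' Q₁|) ^ 2 ≤ W * mm b ω h' k w' :=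
    (pow_le_pow_left₀ (by positivity) i3 2).trans i4
  have i6 : W * (W * (inner ℝ h' Q₁) ^ 2) ≤ W * mm b ω h' k w' := by
    have : (W * |inner ℝ h' Q₁|) ^ 2 = W * (W * (inner ℝ h' Q₁) ^ 2) := by
      rw [mul_pow, sq_abs]; ring
    linarith
  exact le_of_mul_le_mul_left i6 hpos

end Vale.Agent.P146.H546
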