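import Vale.Agent.P146.H546.Core2

/-!
P146: the fixed bulk inequality. `H, K` are symmetric matrices of square integrable functions
(entries in an inner product space `L`), `GG H K` is the two-row form
`tr(E H² E K²) - |E H K|²`. It is unchanged under `K ↦ K + c H` and under rotations. In the basis
where `E H` is block diagonal the lower bound `core` holds.
-/

open Finset Matrix

set_option linter.unusedSectionVars false

namespace Vale.Agent.P146.H546

section General
variable {ι : Type} [Fintype ι]
variable {L : Type*} [NormedAddCommGroup L] [InnerProductSpace ℝ L]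

/-- The matrix `E H Kᵀ`. -/
noncomputable def gr (H K : ι → ι → L) : Matrix ι ι ℝ := fun i j => ip (H i) (K j)

/-- The two-row form. -/
noncomputable def GG (H K : ι → ι → L) : ℝ := dt (gr H H) (gr K K) - dt (gr H K) (gr H K)

lemma ip_add_right (x y z : ι → L) : ip x (fun i => y i + z i) = ip x y + ip x z := by
  simp only [ip, inner_add_right, sum_add_distrib]

lemma ip_add_left (x y z : ι → L) : ip (fun i => y i + z i) x = ip y x + ip z x := by
  simp only [ip, inner_add_left, sum_add_distrib]

lemma ip_smul_right (c : ℝ) (x y : ι → L) : ip x (fun i => c • y i) = c * ip x y := by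
  simp only [ip, real_inner_smul_right, mul_sum]

lemma ip_smul_left (c : ℝ) (x y : ι → L) : ip (fun i => c • x i) y = c * ip x y := by
  simp only [ip, real_inner_smul_left, mul_sum]

lemma gr_comm (H K : ι → ι → L) (i j : ι) : gr H K i j = gr K H j i := ip_comm _ _

/-- Invariance under adding a multiple of the first field. -/
theorem GG_add_smul (H K : ι → ι → L) (c : ℝ) :
    GG H (fun i j => K i j + c • H i j) = GG H K := by
  have h1 : ∀ i j, gr (fun i j => K i j + c • H i j) (fun i j => K i j + c • H i j) i j =
      gr K K i j + c * gr H K j i + c * gr H K i j + c ^ 2 * gr H H i j := by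
    intro i j
    simp only [gr, ip_add_right, ip_add_left, ip_smul_left, ip_smul_right]
    rw [ip_comm (K i) (H j)]; ring
  have h2 : ∀ i j, gr H (fun i j => K i j + c • H i j) i j = gr H K i j + c * gr H H i j := by
    intro i j
    simp only [gr, ip_add_right, ip_smul_right]
  have h3 : dt (gr H H) (gr (fun i j => K i j + c • H i j) (fun i j => K i j + c • H i j)) =
      dt (gr H H) (gr K K) + c * ∑ i, ∑ j, gr H H i j * gr H K j i +
        c * dt (gr H H) (gr H K) + c ^ 2 * dt (gr H H) (gr H H) := by
    simp only [dt, mul_sum, ← sum_add_distrib]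
    refine sum_congr rfl fun i _ => sum_congr rfl fun j _ => ?_
    rw [h1]; ring
  have h4 : dt (gr H (fun i j => K i j + c • H i j)) (gr H (fun i j => K i j + c • H i j)) =
      dt (gr H K) (gr H K) + 2 * c * dt (gr H H) (gr H K) + c ^ 2 * dt (gr H H) (gr H H) := by
    simp only [dt, mul_sum, ← sum_add_distrib]
    refine sum_congr rfl fun i _ => sum_congr rfl fun j _ => ?_
    rw [h2]; ring
  have h5 : ∑ i, ∑ j, gr H H i j * gr H K j i = dt (gr H H) (gr H K) := by
    rw [sum_comm]
    refine sum_congr rfl fun i _ => sum_congr rfl fun j _ => ?_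
    rw [gr_comm H H]
  rw [GG, h3, h4, h5, GG]; ring

end General

section Block
variable {κ : Type} [Fintype κ]
variable {L : Type*} [NormedAddCommGroup L] [InnerProductSpace ℝ L]

/-- A symmetric matrix from its blocks. -/
def blk (h : L) (e : κ → L) (H : κ → κ → L) : Option κ → Option κ → L
  | none, none => h
  | none, some u => e u
  | some u, none => e u
  | some u, some v => H u v

/-- The row of index `u` of the lower block. -/
noncomputable def low (e : κ → L) (H : κ → κ → L) (u : κ) : PiLp 2 (fun _ : Option κ => L) :=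
  WithLp.toLp 2 (fun i => i.elim (e u) (fun p => H u p))

/-- The top row. -/
noncomputable def upp (h : L) (e : κ → L) : PiLp 2 (fun _ : Option κ => L) :=
  WithLp.toLp 2 (fun i => i.elim h e)

lemma inner_upp_upp (h k : L) (e w : κ → L) :
    inner ℝ (upp h e) (upp k w) = inner ℝ h k + ip e w := by
  simp only [upp, PiLp.inner_apply, Fintype.sum_option, Option.elim, ip]

lemma inner_upp_low (h : L) (e w : κ → L) (K : κ → κ → L) (u : κ) :
    inner ℝ (upp h e) (low w K u) = inner ℝ h (w u) + ip e (K u) := by
  simp only [upp, low, PiLp.inner_apply, Fintype.sum_option, Option.elim, ip]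

lemma inner_low_upp (k : L) (e w : κ → L) (H : κ → κ → L) (u : κ) :
    inner ℝ (low e H u) (upp k w) = inner ℝ (e u) k + ip (H u) w := by
  simp only [upp, low, PiLp.inner_apply, Fintype.sum_option, Option.elim, ip]

lemma inner_low_low (e w : κ → L) (H K : κ → κ → L) (u v : κ) :
    inner ℝ (low e H u) (low w K v) = inner ℝ (e u) (w v) + ip (H u) (K v) := by
  simp only [low, PiLp.inner_apply, Fintype.sum_option, Option.elim, ip]

lemma norm_upp_sq (h : L) (e : κ → L) : ‖upp h e‖ ^ 2 = ‖h‖ ^ 2 + n2 e := by
  rw [← real_inner_self_eq_norm_sq, inner_upp_upp, real_inner_self_eq_norm_sq, ip_self]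

lemma n2_low (e : κ → L) (H : κ → κ → L) : n2 (low e H) = n2 e + ∑ u, n2 (H u) := by
  simp only [n2]
  rw [← sum_add_distrib]
  refine sum_congr rfl fun u _ => ?_
  rw [← real_inner_self_eq_norm_sq, inner_low_low, real_inner_self_eq_norm_sq, ip_self, n2]

lemma gr_nn (h k : L) (e w : κ → L) (H K : κ → κ → L) :
    gr (blk h e H) (blk k w K) none none = inner ℝ h k + ip e w := by
  simp only [gr, ip, Fintype.sum_option, blk]

lemma gr_ns (h k : L) (e w : κ → L) (H K : κ → κ → L) (u : κ) :
    gr (blk h e H) (blk k w K) none (some u) = inner ℝ h (w u) + ip e (K u) := by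
  simp only [gr, ip, Fintype.sum_option, blk]

lemma gr_sn (h k : L) (e w : κ → L) (H K : κ → κ → L) (u : κ) :
    gr (blk h e H) (blk k w K) (some u) none = inner ℝ (e u) k + ip (H u) w := by
  simp only [gr, ip, Fintype.sum_option, blk]

lemma gr_ss (h k : L) (e w : κ → L) (H K : κ → κ → L) (u v : κ) :
    gr (blk h e H) (blk k w K) (some u) (some v) = inner ℝ (e u) (w v) + ip (H u) (K v) := by
  simp only [gr, ip, Fintype.sum_option, blk]

lemma ip_const {o : L} (ho : ‖o‖ = 1) (x y : κ → ℝ) {x' y' : κ → L}
    (hx : ∀ u, inner ℝ o (x' u) = 0) (hy : ∀ u, inner ℝ o (y' u) = 0) :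
    ip (fun u => x u • o + x' u) (fun u => y u • o + y' u) = ∑ u, x u * y u + ip x' y' := by
  simp only [ip, ← sum_add_distrib]
  refine sum_congr rfl fun u _ => ?_
  rw [inner_add_left, inner_add_right, inner_add_right]
  simp only [real_inner_smul_left, real_inner_smul_right]
  rw [hy, real_inner_comm o (x' u), hx, real_inner_self_eq_norm_sq, ho]; ring

lemma ip_const_right {o : L} (y : κ → ℝ) {x' y' : κ → L}
    (hx : ∀ u, inner ℝ o (x' u) = 0) :
    ip x' (fun u => y u • o + y' u) = ip x' y' := by
  simp only [ip]
  refine sum_congr rfl fun u _ => ?_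
  rw [inner_add_right, real_inner_smul_right, real_inner_comm, hx]; ring

/-- The two-row form splits into the top part and the perpendicular part. -/
theorem GG_blk {o : L} (ho : ‖o‖ = 1) (b : ℝ) (B D : Matrix κ κ ℝ) (hB : Bᵀ = B) (hD : Dᵀ = D)
    (ω : κ → ℝ) {h' k : L} {e w' : κ → L} {H' K' : κ → κ → L}
    (k0 : inner ℝ o k = 0) (e0 : ∀ u, inner ℝ o (e u) = 0)
    (w0 : ∀ u, inner ℝ o (w' u) = 0) (H0 : ∀ u v, inner ℝ o (H' u v) = 0)
    (K0 : ∀ u v, inner ℝ o (K' u v) = 0) :
    GG (blk (b • o + h') e (fun u v => B u v • o + H' u v))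
        (blk k (fun u => ω u • o + w' u) (fun u v => D u v • o + K' u v)) =
      top (b • o + h') k e (fun u => ω u • o + w' u) (fun p u => D u p • o + K' u p) +
        rest B D ω (upp h' e) (upp k w') (low e H') (low w' K') := by
  have hsB : ∀ i j, B i j = B j i := fun i j => by rw [← Matrix.transpose_apply B, hB]
  have hsD : ∀ i j, D i j = D j i := fun i j => by rw [← Matrix.transpose_apply D, hD]
  set Hm := blk (b • o + h') e (fun u v => B u v • o + H' u v) with hHm
  set Km := blk k (fun u => ω u • o + w' u) (fun u v => D u v • o + K' u v) with hKm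
  have a1 : ∀ u, gr Hm Hm none (some u) = inner ℝ (upp h' e) (low e H' u) := by
    intro u
    rw [hHm, gr_ns, inner_upp_low, ip_const_right (fun v => B u v) e0, inner_add_left,
      real_inner_smul_left, e0]; ring
  have a2 : ∀ u, gr Km Km none (some u) =
      (∑ p, D u p * ω p) + inner ℝ (upp k w') (low w' K' u) := by
    intro u
    rw [hKm, gr_ns, inner_upp_low, ip_const ho ω (fun v => D u v) w0 (K0 u), inner_add_right,
      real_inner_smul_right, real_inner_comm, k0]
    have : ∑ x, ω x * D u x = ∑ p, D u p * ω p := sum_congr rfl fun _ _ => mul_comm _ _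
    rw [this]; ring
  have a3 : ∀ u v, gr Hm Hm (some u) (some v) = (B * B) u v + gm (low e H') (low e H') u v := by
    intro u v
    rw [hHm, gr_ss, gm, inner_low_low, ip_const ho (fun p => B u p) (fun p => B v p) (H0 u) (H0 v),
      Matrix.mul_apply]
    have : ∑ x, B u x * B v x = ∑ x, B u x * B x v := sum_congr rfl fun x _ => by rw [hsB v x]
    rw [this]; ring
  have a4 : ∀ u v, gr Km Km (some u) (some v) =
      ω u * ω v + (D * D) u v + gm (low w' K') (low w' K') u v := by
    intro u v
    rw [hKm, gr_ss, gm, inner_low_low, ip_const ho (fun p => D u p) (fun p => D v p) (K0 u) (K0 v),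
      Matrix.mul_apply, inner_add_left, inner_add_right, inner_add_right]
    simp only [real_inner_smul_left, real_inner_smul_right]
    rw [w0, real_inner_comm o (w' u), w0, real_inner_self_eq_norm_sq, ho]
    have : ∑ x, D u x * D v x = ∑ x, D u x * D x v := sum_congr rfl fun x _ => by rw [hsD v x]
    rw [this]; ring
  have a5 : ∀ u, gr Hm Km (some u) none =
      (∑ p, B u p * ω p) + inner ℝ (low e H' u) (upp k w') := by
    intro u
    rw [hHm, hKm, gr_sn, inner_low_upp, ip_const ho (fun p => B u p) ω (H0 u) w0]; ring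
  have a6 : ∀ u v, gr Hm Km (some u) (some v) = (B * D) u v + gm (low e H') (low w' K') u v := by
    intro u v
    rw [hHm, hKm, gr_ss, gm, inner_low_low,
      ip_const ho (fun p => B u p) (fun p => D v p) (H0 u) (K0 v), Matrix.mul_apply,
      inner_add_right, real_inner_smul_right, real_inner_comm, e0]
    have : ∑ x, B u x * D v x = ∑ x, B u x * D x v := sum_congr rfl fun x _ => by rw [hsD v x]
    rw [this]; ring
  have c1 : dt (gr Hm Hm) (gr Km Km) = gr Hm Hm none none * gr Km Km none none +
      2 * ∑ u, gr Hm Hm none (some u) * gr Km Km none (some u) +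
      ∑ u, ∑ v, gr Hm Hm (some u) (some v) * gr Km Km (some u) (some v) := by
    simp only [dt, Fintype.sum_option, sum_add_distrib]
    have : ∀ u, gr Hm Hm (some u) none * gr Km Km (some u) none =
        gr Hm Hm none (some u) * gr Km Km none (some u) := by
      intro u; rw [gr_comm Hm Hm (some u), gr_comm Km Km (some u)]
    simp only [this]; ring
  have c2 : dt (gr Hm Km) (gr Hm Km) = (gr Hm Km none none) ^ 2 +
      ∑ u, (gr Hm Km none (some u)) ^ 2 + ∑ u, (gr Hm Km (some u) none) ^ 2 +
      ∑ u, ∑ v, (gr Hm Km (some u) (some v)) ^ 2 := by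
    simp only [dt, Fintype.sum_option, sum_add_distrib, ← sq]; ring
  have c3 : gr Hm Hm none none = ‖b • o + h'‖ ^ 2 + n2 e := by
    rw [hHm, gr_nn, real_inner_self_eq_norm_sq, ip_self]
  have c4 : gr Km Km none none = ‖k‖ ^ 2 + n2 (fun u => ω u • o + w' u) := by
    rw [hKm, gr_nn, real_inner_self_eq_norm_sq, ip_self]
  have c5 : gr Hm Km none none = inner ℝ (b • o + h') k + ip e (fun u => ω u • o + w' u) := by
    rw [hHm, hKm, gr_nn]
  have c6 : ∀ u, gr Hm Km none (some u) = inner ℝ (b • o + h') (ω u • o + w' u) +
      ip e (fun p => D u p • o + K' u p) := by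
    intro u; rw [hHm, hKm, gr_ns]
  rw [GG, c1, c2, c3, c4, c5, top, rest]
  simp only [a1, a2, a3, a4, a5, a6, c6]
  ring

end Block

end Vale.Agent.P146.H546
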