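import Vale.Agent.P146.H546.Core3

/-!
P146: the fixed bulk inequality `core`, with explicit error terms.
-/

open Finset Matrix

set_option linter.unusedSectionVars false

namespace Vale.Agent.P146.H546

variable {κ : Type} [Fintype κ]
variable {L : Type*} [NormedAddCommGroup L] [InnerProductSpace ℝ L]

lemma n2_eq_norm (x : κ → L) : n2 x = ‖(WithLp.toLp 2 x : PiLp 2 (fun _ : κ => L))‖ ^ 2 := by
  rw [← real_inner_self_eq_norm_sq, PiLp.inner_apply]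
  simp only [n2, real_inner_self_eq_norm_sq]

lemma sqrt_n2_add_le (x y : κ → L) : √(n2 (fun u => x u + y u)) ≤ √(n2 x) + √(n2 y) := by
  rw [n2_eq_norm, n2_eq_norm, n2_eq_norm, Real.sqrt_sq (norm_nonneg _),
    Real.sqrt_sq (norm_nonneg _), Real.sqrt_sq (norm_nonneg _)]
  exact norm_add_le (WithLp.toLp 2 x : PiLp 2 (fun _ : κ => L)) (WithLp.toLp 2 y)

lemma sqrt_sum_add_le (x y : κ → ℝ) :
    √(∑ u, (x u + y u) ^ 2) ≤ √(∑ u, (x u) ^ 2) + √(∑ u, (y u) ^ 2) := by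
  have h := sqrt_n2_add_le (L := ℝ) x y
  simpa only [n2, Real.norm_eq_abs, sq_abs] using h

lemma sqrt_n2_smul (c : κ → ℝ) (x : L) :
    √(n2 (fun u => c u • x)) = √(∑ u, (c u) ^ 2) * ‖x‖ := by
  have : n2 (fun u => c u • x) = (∑ u, (c u) ^ 2) * ‖x‖ ^ 2 := by
    simp only [n2, norm_smul, mul_pow, Real.norm_eq_abs, sq_abs, sum_mul]
  rw [this, Real.sqrt_mul (by positivity), Real.sqrt_sq (norm_nonneg _)]

/-- `√(∑ (M w)²) ≤ |M| |w|`. -/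
lemma sqrt_mulVec_le (M : Matrix κ κ ℝ) (w : κ → ℝ) :
    √(∑ u, (∑ p, M u p * w p) ^ 2) ≤ √(dt M M) * √(∑ u, (w u) ^ 2) := by
  rw [← Real.sqrt_mul (dt_self_nonneg M)]
  apply Real.sqrt_le_sqrt
  simp only [dt, sum_mul, ← sq]
  refine sum_le_sum fun u _ => ?_
  rw [← sum_mul]
  exact Finset.sum_mul_sq_le_sq_mul_sq _ _ _

lemma sqrt_dt_eq (X : Matrix κ κ ℝ) :
    √(dt X X) = ‖(WithLp.toLp 2 (fun p : κ × κ => X p.1 p.2) : PiLp 2 (fun _ : κ × κ => ℝ))‖ := by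
  rw [← Real.sqrt_sq (norm_nonneg (WithLp.toLp 2 (fun p : κ × κ => X p.1 p.2) :
    PiLp 2 (fun _ : κ × κ => ℝ))), ← real_inner_self_eq_norm_sq, PiLp.inner_apply,
    Fintype.sum_prod_type]
  simp only [dt, real_inner_self_eq_norm_sq, Real.norm_eq_abs, sq_abs, ← sq]

lemma sqrt_dt_sub_le (X Y : Matrix κ κ ℝ) :
    √(dt (X - Y) (X - Y)) ≤ √(dt X X) + √(dt Y Y) := by
  rw [sqrt_dt_eq, sqrt_dt_eq, sqrt_dt_eq]
  exact norm_sub_le (WithLp.toLp 2 (fun p : κ × κ => X p.1 p.2) : PiLp 2 (fun _ : κ × κ => ℝ))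
    (WithLp.toLp 2 (fun p : κ × κ => Y p.1 p.2))

lemma sqrt_dt_mul_le (X Y : Matrix κ κ ℝ) : √(dt (X * Y) (X * Y)) ≤ √(dt X X) * √(dt Y Y) := by
  rw [← Real.sqrt_mul (dt_self_nonneg X)]
  apply Real.sqrt_le_sqrt
  simp only [dt, Matrix.mul_apply, ← sq]
  calc ∑ i, ∑ j, (∑ k, X i k * Y k j) ^ 2
      ≤ ∑ i, ∑ j, (∑ k, X i k ^ 2) * (∑ k, Y k j ^ 2) :=
        sum_le_sum fun i _ => sum_le_sum fun j _ => Finset.sum_mul_sq_le_sq_mul_sq _ _ _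
    _ = (∑ i, ∑ k, X i k ^ 2) * (∑ j, ∑ k, Y k j ^ 2) := by
        rw [sum_mul_sum]
    _ = _ := by
        congr 1
        exact sum_comm

/-- The numerical inequality behind `core`. -/
lemma num {M Ω q r θ Δ κ' : ℝ} (hΩ : 0 ≤ Ω) (hr : 0 ≤ r) (hrq : r ≤ q)
    (hq : q ≤ 1 / 16) (hθ : 0 ≤ θ) (hθ1 : θ ≤ 1) (hΔ : 0 ≤ Δ) (hκ : 0 ≤ κ') :
    M ^ 2 / 2 - (67 * q * r * Ω ^ 2 + 3 * r * Ω * κ' + 6 * r ^ 2 * κ' ^ 2 + 6 * q * r * Δ * Ω +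
      4 * θ * Δ * r * κ' + 64 * θ ^ 2 * Δ ^ 2 * r ^ 2) ≤
    M ^ 2 - (2 * q * r * M * (M + q * Ω) + 2 * (Ω + q * (M + q * Ω)) * r * κ' + r ^ 2 * κ' ^ 2 +
      2 * q * r * Δ * Ω + 2 * q * r * (2 * M + q * Ω) * (M + q * Ω + κ') +
      2 * θ * Ω * r * (2 * M + q * Ω) + r ^ 2 * (2 * M + q * Ω) ^ 2 +
      4 * θ * Δ * r * (M + q * Ω + κ') + r ^ 2 * (M + q * Ω + κ') ^ 2) := by
  have hq0 : 0 ≤ q := hr.trans hrq
  have a1 : 0 ≤ (M / 8 - 8 * q ^ 2 * r * Ω) ^ 2 := sq_nonneg _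
  have a2 : 0 ≤ (M / 8 - 8 * q * r * κ') ^ 2 := sq_nonneg _
  have a3 : 0 ≤ (M / 8 - 24 * q ^ 2 * r * Ω) ^ 2 := sq_nonneg _
  have a4 : 0 ≤ (M / 8 - 16 * q * r * κ') ^ 2 := sq_nonneg _
  have a5 : 0 ≤ (M / 4 - 8 * θ * r * Ω) ^ 2 := sq_nonneg _
  have a6 : 0 ≤ (M / 4 - 8 * θ * r * Δ) ^ 2 := sq_nonneg _
  have b7 : 0 ≤ r ^ 2 * (2 * M - q * Ω) ^ 2 := by positivity
  have a7 : r ^ 2 * (2 * M + q * Ω) ^ 2 ≤ 8 * (r ^ 2 * M ^ 2) + 2 * (r ^ 2 * q ^ 2 * Ω ^ 2) := by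
    linarith
  have b8 : 0 ≤ r ^ 2 * (M - q * Ω) ^ 2 := by positivity
  have b9 : 0 ≤ r ^ 2 * (M - κ') ^ 2 := by positivity
  have b10 : 0 ≤ r ^ 2 * (q * Ω - κ') ^ 2 := by positivity
  have a8 : r ^ 2 * (M + q * Ω + κ') ^ 2 ≤
      3 * (r ^ 2 * M ^ 2) + 3 * (r ^ 2 * q ^ 2 * Ω ^ 2) + 3 * (r ^ 2 * κ' ^ 2) := by
    linarith
  -- sizes
  have hr16 : r ≤ 1 / 16 := hrq.trans hq
  have hqr : q * r ≤ 1 / 256 := by
    have := mul_le_mul hq hr16 hr (by norm_num : (0:ℝ) ≤ 1 / 16)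
    linarith
  have hrr : r ^ 2 ≤ 1 / 256 := by
    have := pow_le_pow_left₀ hr hr16 2
    linarith
  have hq2 : q ^ 2 ≤ 1 / 256 := by
    have := pow_le_pow_left₀ hq0 hq 2
    linarith
  have hq4 : q ^ 4 ≤ 1 / 65536 := by
    have := pow_le_pow_left₀ hq0 hq 4
    linarith
  have hr2 : r ^ 2 ≤ q * r := by
    have := mul_le_mul_of_nonneg_right hrq hr
    linarith
  have hθ2 : θ ^ 2 ≤ 1 := by
    have := pow_le_pow_left₀ hθ hθ1 2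
    linarith
  have m1 : q * r * M ^ 2 ≤ 1 / 256 * M ^ 2 := mul_le_mul_of_nonneg_right hqr (sq_nonneg _)
  have m2 : r ^ 2 * M ^ 2 ≤ 1 / 256 * M ^ 2 := mul_le_mul_of_nonneg_right hrr (sq_nonneg _)
  have hqrn : 0 ≤ q * r := mul_nonneg hq0 hr
  have hrO : r ^ 2 * Ω ^ 2 ≤ q * r * Ω ^ 2 := mul_le_mul_of_nonneg_right hr2 (sq_nonneg _)
  have o1 : q ^ 4 * (r ^ 2 * Ω ^ 2) ≤ 1 / 65536 * (q * r * Ω ^ 2) := by
    have h1 : q ^ 4 * (r ^ 2 * Ω ^ 2) ≤ 1 / 65536 * (r ^ 2 * Ω ^ 2) :=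
      mul_le_mul_of_nonneg_right hq4 (by positivity)
    linarith
  have o2 : θ ^ 2 * (r ^ 2 * Ω ^ 2) ≤ q * r * Ω ^ 2 := by
    have h1 : θ ^ 2 * (r ^ 2 * Ω ^ 2) ≤ 1 * (r ^ 2 * Ω ^ 2) :=
      mul_le_mul_of_nonneg_right hθ2 (by positivity)
    linarith
  have o3 : q ^ 2 * (q * r * Ω ^ 2) ≤ 1 / 256 * (q * r * Ω ^ 2) :=
    mul_le_mul_of_nonneg_right hq2 (by positivity)
  have o4 : θ * (q * r * Ω ^ 2) ≤ 1 * (q * r * Ω ^ 2) :=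
    mul_le_mul_of_nonneg_right hθ1 (by positivity)
  have o5 : q ^ 2 * (r ^ 2 * Ω ^ 2) ≤ 1 / 256 * (q * r * Ω ^ 2) := by
    have h1 : q ^ 2 * (r ^ 2 * Ω ^ 2) ≤ 1 / 256 * (r ^ 2 * Ω ^ 2) :=
      mul_le_mul_of_nonneg_right hq2 (by positivity)
    linarith
  have k1 : q ^ 2 * (r * Ω * κ') ≤ 1 / 256 * (r * Ω * κ') :=
    mul_le_mul_of_nonneg_right hq2 (by positivity)
  have k2 : q ^ 2 * (r ^ 2 * κ' ^ 2) ≤ 1 / 256 * (r ^ 2 * κ' ^ 2) :=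
    mul_le_mul_of_nonneg_right hq2 (by positivity)
  have d1 : θ * (q * r * Δ * Ω) ≤ 1 * (q * r * Δ * Ω) :=
    mul_le_mul_of_nonneg_right hθ1 (by positivity)
  have p1 : 0 ≤ q * r * Ω ^ 2 := by positivity
  have p2 : 0 ≤ r * Ω * κ' := by positivity
  have p3 : 0 ≤ r ^ 2 * κ' ^ 2 := by positivity
  have p4 : 0 ≤ q * r * Δ * Ω := by positivity
  have p5 : 0 ≤ M ^ 2 := sq_nonneg _
  linarith [a1, a2, a3, a4, a5, a6, a7, a8, m1, m2, o1, o2, o3, o4, o5, k1, k2, d1, p1, p2, p3,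
    p4, p5]

end Vale.Agent.P146.H546
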