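import Vale.Agent.P146.H546.Core4

/-!
P146: the fixed bulk inequality `core`.
-/

open Finset Matrix

set_option linter.unusedSectionVars false

namespace Vale.Agent.P146.H546

variable {κ : Type} [Fintype κ]
variable {L : Type*} [NormedAddCommGroup L] [InnerProductSpace ℝ L]

lemma sqrt_le_of_sq {x y : ℝ} (hy : 0 ≤ y) (h : x ≤ y ^ 2) : √x ≤ y := by
  rw [← Real.sqrt_sq hy]; exact Real.sqrt_le_sqrt h

lemma norm_le_of_sq {x y : ℝ} (hy : 0 ≤ y) (h : x ^ 2 ≤ y ^ 2) : x ≤ y := by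
  exact le_of_sq_le_sq h hy

/-- Sizes of the second fields in terms of `mm`. -/
lemma mm_norms {b q M Ω : ℝ} (hb : 0 < b) (ω : κ → ℝ) {h' k : L} {w' : κ → L}
    (hM : 0 ≤ M) (hm : mm b ω h' k w' = (M * b) ^ 2) (hΩn : 0 ≤ Ω)
    (hΩ : Ω ^ 2 = ∑ u, (ω u) ^ 2) (hh : ‖h'‖ ≤ q * b) :
    ‖k‖ ≤ M ∧ √(n2 w') ≤ M + q * Ω ∧ n2 w' ≤ (M + q * Ω) ^ 2 := by
  have hw'n := n2_nonneg w'
  have hΩs : √(∑ u, (ω u) ^ 2) = Ω := by rw [← hΩ, Real.sqrt_sq hΩn]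
  have hw : √(n2 w') ≤ M + q * Ω := by
    have h1 : √(n2 (fun u => (b • w' u - ω u • h') + ω u • h')) ≤
        √(n2 (fun u => b • w' u - ω u • h')) + √(n2 (fun u => ω u • h')) := sqrt_n2_add_le _ _
    have h2 : n2 (fun u => (b • w' u - ω u • h') + ω u • h') = b ^ 2 * n2 w' := by
      simp only [sub_add_cancel, n2, norm_smul, mul_pow, Real.norm_eq_abs, sq_abs, mul_sum]
    have h3 : √(n2 (fun u => b • w' u - ω u • h')) ≤ M * b := by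
      apply sqrt_le_of_sq (by positivity)
      rw [← hm, mm, n2]
      have : 0 ≤ b ^ 2 * ‖k‖ ^ 2 := by positivity
      linarith
    rw [h2, sqrt_n2_smul, Real.sqrt_mul (by positivity), Real.sqrt_sq hb.le, hΩs] at h1
    have h4 : Ω * ‖h'‖ ≤ Ω * (q * b) := mul_le_mul_of_nonneg_left hh hΩn
    have h5 : b * √(n2 w') ≤ b * (M + q * Ω) := by linarith
    exact le_of_mul_le_mul_left h5 hb
  refine ⟨?_, hw, ?_⟩
  · have h1 : (b * ‖k‖) ^ 2 ≤ (M * b) ^ 2 := by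
      rw [← hm, mm, mul_pow]
      have : 0 ≤ ∑ u, ‖b • w' u - ω u • h'‖ ^ 2 := by positivity
      linarith
    have h2 : b * ‖k‖ ≤ M * b := norm_le_of_sq (by positivity) h1
    exact le_of_mul_le_mul_left (by linarith [mul_comm M b]) hb
  · have := pow_le_pow_left₀ (Real.sqrt_nonneg _) hw 2
    rwa [Real.sq_sqrt hw'n] at this

lemma top_core {o : L} (ho : ‖o‖ = 1) {b q r κ' M Ω : ℝ} (hb : 0 < b) (hr : 0 ≤ r)
    (hq0 : 0 ≤ q) (hκ : 0 ≤ κ') (D : Matrix κ κ ℝ)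
    (ω : κ → ℝ) {h' k : L} {e w' : κ → L} {K' : κ → κ → L} (h0 : inner ℝ o h' = 0)
    (k0 : inner ℝ o k = 0) (e0 : ∀ u, inner ℝ o (e u) = 0) (w0 : ∀ u, inner ℝ o (w' u) = 0)
    (hM : 0 ≤ M) (hm : mm b ω h' k w' = (M * b) ^ 2) (hΩn : 0 ≤ Ω)
    (hΩ : Ω ^ 2 = ∑ u, (ω u) ^ 2) (hh : ‖h'‖ ≤ q * b) (hA : n2 e ≤ (r * b) ^ 2)
    (hK : ∑ u, n2 (K' u) ≤ κ' ^ 2) :
    b ^ 2 * (M ^ 2 - (2 * q * r * M * (M + q * Ω) + 2 * (Ω + q * (M + q * Ω)) * r * κ' +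
      r ^ 2 * κ' ^ 2)) ≤
    top (b • o + h') k e (fun u => ω u • o + w' u) (fun p u => D u p • o + K' u p) := by
  obtain ⟨hk, hw, hw2⟩ := mm_norms hb ω hM hm hΩn hΩ hh
  have hΩs : √(∑ u, (ω u) ^ 2) = Ω := by rw [← hΩ, Real.sqrt_sq hΩn]
  have hes : √(n2 e) ≤ r * b := sqrt_le_of_sq (by positivity) hA
  have hKn : 0 ≤ ∑ u, n2 (K' u) := sum_nonneg fun u _ => n2_nonneg _
  have hMq : 0 ≤ M + q * Ω := by positivity
  have htop := top_ge ho b ω (fun p u => D u p • o + K' u p) h0 k0 e0 w0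
  have hJ : ∀ u, ip e (fun p => D u p • o + K' u p) = ip e (K' u) :=
    fun u => ip_const_right (fun p => D u p) e0
  simp only [hJ] at htop
  have hJ2 : ∑ u, (ip e (K' u)) ^ 2 ≤ (r * b * κ') ^ 2 := by
    calc ∑ u, (ip e (K' u)) ^ 2 ≤ ∑ u, n2 e * n2 (K' u) := sum_le_sum fun u _ => ip_sq_le _ _
      _ = n2 e * ∑ u, n2 (K' u) := by rw [mul_sum]
      _ ≤ (r * b) ^ 2 * κ' ^ 2 := mul_le_mul hA hK hKn (by positivity)
      _ = _ := by ring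
  have hJs : √(∑ u, (ip e (K' u)) ^ 2) ≤ r * b * κ' := sqrt_le_of_sq (by positivity) hJ2
  have hF : √(∑ u, (b * ω u + inner ℝ h' (w' u)) ^ 2) ≤ b * Ω + q * b * (M + q * Ω) := by
    have h1 := sqrt_sum_add_le (fun u => b * ω u) (fun u => inner ℝ h' (w' u))
    have h2 : √(∑ u, (b * ω u) ^ 2) = b * Ω := by
      simp only [mul_pow, ← mul_sum]
      rw [Real.sqrt_mul (by positivity), Real.sqrt_sq hb.le, hΩs]
    have h3 : √(∑ u, (inner ℝ h' (w' u)) ^ 2) ≤ q * b * (M + q * Ω) := by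
      have h4 : √(∑ u, (inner ℝ h' (w' u)) ^ 2) ≤ ‖h'‖ * √(n2 w') := by
        rw [← Real.sqrt_sq (norm_nonneg h'), ← Real.sqrt_mul (sq_nonneg _)]
        exact Real.sqrt_le_sqrt (sum_inner_sq_le h' w')
      exact h4.trans (mul_le_mul hh hw (Real.sqrt_nonneg _) (by positivity))
    linarith
  have hT1 : |inner ℝ h' k| * |ip e w'| ≤ (q * b * M) * (r * b * (M + q * Ω)) := by
    have h1 : |inner ℝ h' k| ≤ q * b * M :=
      (abs_real_inner_le_norm _ _).trans (mul_le_mul hh hk (norm_nonneg _) (by positivity))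
    have h2 : |ip e w'| ≤ r * b * (M + q * Ω) :=
      (ip_abs_le _ _).trans (mul_le_mul hes hw (Real.sqrt_nonneg _) (by positivity))
    exact mul_le_mul h1 h2 (abs_nonneg _) (by positivity)
  have hT2 : √(∑ u, (b * ω u + inner ℝ h' (w' u)) ^ 2) * √(∑ u, (ip e (K' u)) ^ 2) ≤
      (b * Ω + q * b * (M + q * Ω)) * (r * b * κ') :=
    mul_le_mul hF hJs (Real.sqrt_nonneg _) (by positivity)
  rw [hm] at htop
  linarith [htop, hT1, hT2, hJ2]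

lemma rest_core [DecidableEq κ] {b q r θ Δ κ' M Ω : ℝ} (hb : 0 < b) (hr : 0 ≤ r)
    (hq0 : 0 ≤ q) (hθ : 0 ≤ θ) (hΔ : 0 ≤ Δ) (hκ : 0 ≤ κ')
    (B D : Matrix κ κ ℝ) (hB : Bᵀ = B) (hD : Dᵀ = D)
    (ω : κ → ℝ) {h' k : L} {e w' : κ → L} {H' K' : κ → κ → L}
    (hM : 0 ≤ M) (hm : mm b ω h' k w' = (M * b) ^ 2) (hΩn : 0 ≤ Ω)
    (hΩ : Ω ^ 2 = ∑ u, (ω u) ^ 2)
    (hα : ‖h'‖ ^ 2 + n2 e ≤ (q * b) ^ 2) (hA : n2 e + ∑ u, n2 (H' u) ≤ (r * b) ^ 2)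
    (hBn : dt B B ≤ (θ * b) ^ 2) (hDn : dt D D ≤ Δ ^ 2) (hK : ∑ u, n2 (K' u) ≤ κ' ^ 2) :
    -(b ^ 2 * (2 * q * r * Δ * Ω + 2 * q * r * (2 * M + q * Ω) * (M + q * Ω + κ') +
      2 * θ * Ω * r * (2 * M + q * Ω) + r ^ 2 * (2 * M + q * Ω) ^ 2 +
      4 * θ * Δ * r * (M + q * Ω + κ') + r ^ 2 * (M + q * Ω + κ') ^ 2)) ≤
    rest B D ω (upp h' e) (upp k w') (low e H') (low w' K') := by
  have hen := n2_nonneg e
  have hh : ‖h'‖ ≤ q * b := norm_le_of_sq (by positivity) (by linarith)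
  obtain ⟨hk, hw, hw2⟩ := mm_norms hb ω hM hm hΩn hΩ hh
  have hΩs : √(∑ u, (ω u) ^ 2) = Ω := by rw [← hΩ, Real.sqrt_sq hΩn]
  have hMq : 0 ≤ M + q * Ω := by positivity
  have hαu : ‖upp h' e‖ ≤ q * b := by
    apply norm_le_of_sq (by positivity)
    rw [norm_upp_sq]; exact hα
  have hδu : ‖upp k w'‖ ≤ 2 * M + q * Ω := by
    apply norm_le_of_sq (by positivity)
    rw [norm_upp_sq]
    have h1 : ‖k‖ ^ 2 ≤ M ^ 2 := pow_le_pow_left₀ (norm_nonneg _) hk 2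
    nlinarith [mul_nonneg hM hMq]
  have hAl2 : n2 (low e H') ≤ (r * b) ^ 2 := by rw [n2_low]; exact hA
  have hAl : √(n2 (low e H')) ≤ r * b := sqrt_le_of_sq (by positivity) hAl2
  have hdl2 : n2 (low w' K') ≤ (M + q * Ω + κ') ^ 2 := by
    rw [n2_low]; nlinarith [mul_nonneg hMq hκ]
  have hdl : √(n2 (low w' K')) ≤ M + q * Ω + κ' := sqrt_le_of_sq (by positivity) hdl2
  have hBs : √(dt B B) ≤ θ * b := sqrt_le_of_sq (by positivity) hBn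
  have hDs : √(dt D D) ≤ Δ := sqrt_le_of_sq hΔ hDn
  have hDω : √(∑ u, (∑ p, D u p * ω p) ^ 2) ≤ Δ * Ω := by
    have := (sqrt_mulVec_le D ω).trans (mul_le_mul_of_nonneg_right hDs (Real.sqrt_nonneg _))
    rwa [hΩs] at this
  have hBω : √(∑ u, (∑ p, B u p * ω p) ^ 2) ≤ θ * b * Ω := by
    have := (sqrt_mulVec_le B ω).trans (mul_le_mul_of_nonneg_right hBs (Real.sqrt_nonneg _))
    rwa [hΩs] at this
  have hcom : √(dt (B * D - D * B) (B * D - D * B)) ≤ 2 * (θ * b) * Δ := by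
    have h1 := sqrt_dt_sub_le (B * D) (D * B)
    have h2 := sqrt_dt_mul_le B D
    have h3 := sqrt_dt_mul_le D B
    have h4 : √(dt B B) * √(dt D D) ≤ θ * b * Δ :=
      mul_le_mul hBs hDs (Real.sqrt_nonneg _) (by positivity)
    linarith [mul_comm (√(dt D D)) (√(dt B B))]
  have hrest := rest_ge B D hB hD ω (upp h' e) (upp k w') (low e H') (low w' K')
  have g1 : ‖upp h' e‖ * √(n2 (low e H')) * √(∑ u, (∑ p, D u p * ω p) ^ 2) ≤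
      (q * b) * (r * b) * (Δ * Ω) :=
    mul_le_mul (mul_le_mul hαu hAl (Real.sqrt_nonneg _) (by positivity)) hDω
      (Real.sqrt_nonneg _) (by positivity)
  have g2 : ‖upp h' e‖ * ‖upp k w'‖ * √(n2 (low e H')) * √(n2 (low w' K')) ≤
      (q * b) * (2 * M + q * Ω) * (r * b) * (M + q * Ω + κ') :=
    mul_le_mul (mul_le_mul (mul_le_mul hαu hδu (norm_nonneg _) (by positivity)) hAl
      (Real.sqrt_nonneg _) (by positivity)) hdl (Real.sqrt_nonneg _) (by positivity)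
  have g3 : √(∑ u, (∑ p, B u p * ω p) ^ 2) * ‖upp k w'‖ * √(n2 (low e H')) ≤
      (θ * b * Ω) * (2 * M + q * Ω) * (r * b) :=
    mul_le_mul (mul_le_mul hBω hδu (norm_nonneg _) (by positivity)) hAl
      (Real.sqrt_nonneg _) (by positivity)
  have g4 : ‖upp k w'‖ ^ 2 * n2 (low e H') ≤ (2 * M + q * Ω) ^ 2 * (r * b) ^ 2 :=
    mul_le_mul (pow_le_pow_left₀ (norm_nonneg _) hδu 2) hAl2 (n2_nonneg _) (by positivity)
  have g5 : √(dt (B * D - D * B) (B * D - D * B)) * √(n2 (low e H')) * √(n2 (low w' K')) ≤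
      (2 * (θ * b) * Δ) * (r * b) * (M + q * Ω + κ') :=
    mul_le_mul (mul_le_mul hcom hAl (Real.sqrt_nonneg _) (by positivity)) hdl
      (Real.sqrt_nonneg _) (by positivity)
  have g6 : n2 (low e H') * n2 (low w' K') ≤ (r * b) ^ 2 * (M + q * Ω + κ') ^ 2 :=
    mul_le_mul hAl2 hdl2 (n2_nonneg _) (by positivity)
  linarith [hrest, g1, g2, g3, g4, g5, g6]

/-- **The fixed bulk inequality.** `b` is the top eigenvalue of `E H`, `ω` the rotation, `q b` bounds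
the nonconstant part of the top row of `H`, `r b` that of the other rows, `θ b` the perpendicular
block of `E H`, `Δ` that of `E K` and `κ'` its nonconstant part. -/
theorem core [DecidableEq κ] {o : L} (ho : ‖o‖ = 1) {b q r θ Δ κ' : ℝ} (hb : 0 < b) (hr : 0 ≤ r)
    (hrq : r ≤ q) (hq : q ≤ 1 / 16) (hθ : 0 ≤ θ) (hθ1 : θ ≤ 1) (hΔ : 0 ≤ Δ) (hκ : 0 ≤ κ')
    (B D : Matrix κ κ ℝ) (hB : Bᵀ = B) (hD : Dᵀ = D)
    (ω : κ → ℝ) {h' k : L} {e w' : κ → L} {H' K' : κ → κ → L} (h0 : inner ℝ o h' = 0)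
    (k0 : inner ℝ o k = 0) (e0 : ∀ u, inner ℝ o (e u) = 0)
    (w0 : ∀ u, inner ℝ o (w' u) = 0) (H0 : ∀ u v, inner ℝ o (H' u v) = 0)
    (K0 : ∀ u v, inner ℝ o (K' u v) = 0)
    (hα : ‖h'‖ ^ 2 + n2 e ≤ (q * b) ^ 2) (hA : n2 e + ∑ u, n2 (H' u) ≤ (r * b) ^ 2)
    (hBn : dt B B ≤ (θ * b) ^ 2) (hDn : dt D D ≤ Δ ^ 2) (hK : ∑ u, n2 (K' u) ≤ κ' ^ 2) :
    mm b ω h' k w' / 2 - b ^ 2 * (67 * q * r * (∑ u, (ω u) ^ 2) + 3 * r * √(∑ u, (ω u) ^ 2) * κ' +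
      6 * r ^ 2 * κ' ^ 2 + 6 * q * r * Δ * √(∑ u, (ω u) ^ 2) + 4 * θ * Δ * r * κ' +
      64 * θ ^ 2 * Δ ^ 2 * r ^ 2) ≤
    GG (blk (b • o + h') e (fun u v => B u v • o + H' u v))
        (blk k (fun u => ω u • o + w' u) (fun u v => D u v • o + K' u v)) := by
  have hq0 : 0 ≤ q := hr.trans hrq
  have hWn : 0 ≤ ∑ u, (ω u) ^ 2 := by positivity
  obtain ⟨Ω, hΩn, hΩ, hΩs⟩ : ∃ Ω : ℝ, 0 ≤ Ω ∧ Ω ^ 2 = ∑ u, (ω u) ^ 2 ∧ √(∑ u, (ω u) ^ 2) = Ω :=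
    ⟨_, Real.sqrt_nonneg _, Real.sq_sqrt hWn, rfl⟩
  have hmn : 0 ≤ mm b ω h' k w' := mm_nonneg _ _ _ _ _
  obtain ⟨M, hMn, hm⟩ : ∃ M : ℝ, 0 ≤ M ∧ mm b ω h' k w' = (M * b) ^ 2 := by
    refine ⟨√(mm b ω h' k w') / b, by positivity, ?_⟩
    rw [div_mul_cancel₀ _ hb.ne', Real.sq_sqrt hmn]
  have hen := n2_nonneg e
  have hHn : 0 ≤ ∑ u, n2 (H' u) := sum_nonneg fun u _ => n2_nonneg _
  have hh : ‖h'‖ ≤ q * b := norm_le_of_sq (by positivity) (by linarith)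
  have h1 := top_core ho hb hr hq0 hκ D ω h0 k0 e0 w0 hMn hm hΩn hΩ hh (by linarith) hK
  have h2 := rest_core hb hr hq0 hθ hΔ hκ B D hB hD ω hMn hm hΩn hΩ hα hA hBn hDn hK
  have hnum := mul_le_mul_of_nonneg_left
    (num (M := M) hΩn hr hrq hq hθ hθ1 hΔ hκ) (sq_nonneg b)
  rw [GG_blk ho b B D hB hD ω k0 e0 w0 H0 K0, hm, hΩs, ← hΩ]
  linarith [h1, h2, hnum]

end Vale.Agent.P146.H546
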