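import Vale.Agent.P146.H546.Core5

/-!
P146, plan R1: the fixed bulk inequality (FB), the part which is linear algebra in a real inner
product space `L` (the space of square integrable functions of the Gaussian row). The fields
`a, d : ι → L` are decomposed into the linear part in the orthonormal coordinates `z` and the rest.
-/

open Finset Matrix

set_option linter.unusedSectionVars false

namespace Vale.Agent.P146.H546

section
variable {ι : Type} [Fintype ι] [DecidableEq ι]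
variable {L : Type*} [NormedAddCommGroup L] [InnerProductSpace ℝ L]

/-- Decomposition of a field into the linear part and the rest. -/
structure Dec (z a : ι → L) (M : Matrix ι ι ℝ) (an : ι → L) : Prop where
  on : ∀ i j, inner ℝ (z i) (z j) = if i = j then 1 else 0
  sy : Mᵀ = M
  eq : ∀ i, a i = ∑ j, M i j • z j + an i
  pe : ∀ i j, inner ℝ (z j) (an i) = 0

/-- The two-row form of the fields. -/
noncomputable def Gf (a d : ι → L) : ℝ := dt (gm a a) (gm d d) - dt (gm a d) (gm a d)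

/-- The commutator functional. -/
noncomputable def Yf (a d : ι → L) : ℝ := 1 / 2 * ∑ i, ∑ j, (gm a d i j - gm a d j i) ^ 2

lemma Gf_eq_sum (a d : ι → L) : Gf a d = ∑ i, ∑ j, (inner ℝ (a i) (a j) * inner ℝ (d i) (d j) -
    inner ℝ (a i) (d j) ^ 2) := by
  simp only [Gf, dt, gm, ← sum_sub_distrib, sq]

lemma Yf_eq_sum (a d : ι → L) : Yf a d =
    1 / 2 * ∑ i, ∑ j, (inner ℝ (a i) (d j) - inner ℝ (a j) (d i)) ^ 2 := rfl

/-- A matrix acting on a vector with entries in `L`. -/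
noncomputable def mv (M : Matrix ι ι ℝ) (x : ι → L) : ι → L := fun k => ∑ i, M k i • x i

/-- The norm. -/
noncomputable def nr (x : ι → L) : ℝ := √(n2 x)

/-- The Frobenius norm. -/
noncomputable def fb (M : Matrix ι ι ℝ) : ℝ := √(dt M M)

lemma nr_nonneg (x : ι → L) : 0 ≤ nr x := Real.sqrt_nonneg _
lemma fb_nonneg (M : Matrix ι ι ℝ) : 0 ≤ fb M := Real.sqrt_nonneg _

lemma nr_sq (x : ι → L) : nr x ^ 2 = n2 x := Real.sq_sqrt (n2_nonneg x)
lemma fb_sq (M : Matrix ι ι ℝ) : fb M ^ 2 = dt M M := Real.sq_sqrt (dt_self_nonneg M)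

lemma nr_add_le (x y : ι → L) : nr (fun i => x i + y i) ≤ nr x + nr y := sqrt_n2_add_le x y

lemma abs_ip_le (x y : ι → L) : |ip x y| ≤ nr x * nr y := ip_abs_le x y

lemma nr_le_of_sq {x : ι → L} {c : ℝ} (hc : 0 ≤ c) (h : n2 x ≤ c ^ 2) : nr x ≤ c :=
  sqrt_le_of_sq hc h

lemma fb_le_of_sq {M : Matrix ι ι ℝ} {c : ℝ} (hc : 0 ≤ c) (h : dt M M ≤ c ^ 2) : fb M ≤ c :=
  sqrt_le_of_sq hc h

lemma nr_mv_le (M : Matrix ι ι ℝ) (x : ι → L) : nr (mv M x) ≤ fb M * nr x := by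
  refine nr_le_of_sq (mul_nonneg (fb_nonneg _) (nr_nonneg _)) ?_
  rw [mul_pow, nr_sq, fb_sq, n2, dt, sum_mul]
  refine sum_le_sum fun k _ => ?_
  have h1 : ‖mv M x k‖ ≤ ∑ i, |M k i| * ‖x i‖ := by
    refine (norm_sum_le _ _).trans (sum_le_sum fun i _ => ?_)
    rw [norm_smul, Real.norm_eq_abs]
  have h2 := Finset.sum_mul_sq_le_sq_mul_sq univ (fun i => |M k i|) (fun i => ‖x i‖)
  have h3 := pow_le_pow_left₀ (norm_nonneg _) h1 2
  simp only [sq_abs] at h2
  calc ‖mv M x k‖ ^ 2 ≤ _ := h3.trans h2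
    _ = _ := by
      rw [n2]
      congr 1
      exact sum_congr rfl fun i _ => by rw [sq]

lemma abs_dt_gm_le (x y u w : ι → L) :
    |dt (gm x y) (gm u w)| ≤ (nr x * nr y) * (nr u * nr w) := by
  refine (dt_le _ _).trans ?_
  have h : ∀ s t : ι → L, √(dt (gm s t) (gm s t)) ≤ nr s * nr t := fun s t => by
    refine sqrt_le_of_sq (mul_nonneg (nr_nonneg _) (nr_nonneg _)) ?_
    rw [mul_pow, nr_sq, nr_sq]; exact dt_gm_le s t
  exact mul_le_mul (h _ _) (h _ _) (Real.sqrt_nonneg _)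
    (mul_nonneg (nr_nonneg _) (nr_nonneg _))

lemma ip_mv (M N : Matrix ι ι ℝ) (hM : Mᵀ = M) (x y : ι → L) :
    ip (mv M x) (mv N y) = dt (M * N) (gm x y) := by
  have hs : ∀ i j, M i j = M j i := fun i j => by rw [← Matrix.transpose_apply M, hM]
  have h1 : ∀ k, inner ℝ (mv M x k) (mv N y k) =
      ∑ i, ∑ j, M k i * N k j * inner ℝ (x i) (y j) := by
    intro k
    rw [mv, sum_inner]
    refine sum_congr rfl fun i _ => ?_
    rw [mv, inner_sum]
    refine sum_congr rfl fun j _ => ?_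
    rw [real_inner_smul_left, real_inner_smul_right]; ring
  rw [ip, sum_congr rfl fun k _ => h1 k, sum_comm]
  simp only [dt, gm, Matrix.mul_apply, sum_mul]
  refine sum_congr rfl fun i _ => ?_
  rw [sum_comm]
  refine sum_congr rfl fun j _ => sum_congr rfl fun k _ => ?_
  rw [hs k i]

lemma dt_add_left (X Y Z : Matrix ι ι ℝ) : dt (X + Y) Z = dt X Z + dt Y Z := by
  simp only [dt, Matrix.add_apply, add_mul, sum_add_distrib]

lemma dt_add_right (X Y Z : Matrix ι ι ℝ) : dt Z (X + Y) = dt Z X + dt Z Y := by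
  rw [dt_comm, dt_add_left, dt_comm X, dt_comm Y]

lemma Dec.gm_eq {z a d : ι → L} {M1 M2 : Matrix ι ι ℝ} {an dn : ι → L} (h1 : Dec z a M1 an)
    (h2 : Dec z d M2 dn) : gm a d = M1 * M2 + gm an dn := by
  ext i j
  have hs : ∀ i j, M2 i j = M2 j i := fun i j => by rw [← Matrix.transpose_apply M2, h2.sy]
  have e1 : inner ℝ (∑ k, M1 i k • z k) (∑ k, M2 j k • z k) = ∑ k, M1 i k * M2 k j := by
    rw [sum_inner]
    refine sum_congr rfl fun k _ => ?_
    rw [real_inner_smul_left, inner_sum]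
    simp only [real_inner_smul_right, h1.on, mul_ite, mul_one, mul_zero, sum_ite_eq, mem_univ,
      if_true]
    rw [hs j k]
  have e2 : inner ℝ (∑ k, M1 i k • z k) (dn j) = 0 := by
    rw [sum_inner]
    exact sum_eq_zero fun k _ => by rw [real_inner_smul_left, h2.pe, mul_zero]
  have e3 : inner ℝ (an i) (∑ k, M2 j k • z k) = 0 := by
    rw [inner_sum]
    exact sum_eq_zero fun k _ => by
      rw [real_inner_smul_right, real_inner_comm, h1.pe, mul_zero]
  rw [Matrix.add_apply, Matrix.mul_apply]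
  show inner ℝ (a i) (d j) = _ + inner ℝ (an i) (dn j)
  rw [h1.eq, h2.eq, inner_add_left, inner_add_right, inner_add_right, e1, e2, e3]
  ring

/-- The exact formula for the two-row form. -/
theorem Gf_eq {z a d : ι → L} {M1 M2 : Matrix ι ι ℝ} {an dn : ι → L} (h1 : Dec z a M1 an)
    (h2 : Dec z d M2 dn) : Gf a d = n2 (mv M1 dn) + n2 (mv M2 an) -
      2 * ip (mv M1 an) (mv M2 dn) + Gf an dn := by
  rw [← ip_self, ← ip_self, ip_mv _ _ h1.sy, ip_mv _ _ h2.sy, ip_mv _ _ h1.sy]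
  simp only [Gf, h1.gm_eq h1, h2.gm_eq h2, h1.gm_eq h2, dt_add_left, dt_add_right]
  rw [dt_sq_sq h1.sy h2.sy, dt_comm (gm an an) (M2 * M2), dt_comm (gm an dn) (M1 * M2)]
  ring

lemma Dec.n2_eq {z a : ι → L} {M : Matrix ι ι ℝ} {an : ι → L} (h : Dec z a M an) :
    n2 a = dt M M + n2 an := by
  have h1 : ∀ x : ι → L, n2 x = ∑ i, gm x x i i := fun x => by
    simp only [n2, gm, real_inner_self_eq_norm_sq]
  rw [h1, h.gm_eq h]
  simp only [Matrix.add_apply, sum_add_distrib, ← h1]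
  congr 1
  simp only [Matrix.mul_apply, dt]
  refine sum_congr rfl fun i _ => sum_congr rfl fun j _ => ?_
  rw [← Matrix.transpose_apply M, h.sy]

lemma Dec.fb_le {z a : ι → L} {M : Matrix ι ι ℝ} {an : ι → L} (h : Dec z a M an) {c : ℝ}
    (hc : 0 ≤ c) (ha : n2 a ≤ c ^ 2) : fb M ≤ c := by
  refine fb_le_of_sq hc ?_
  have := h.n2_eq
  have := n2_nonneg an
  linarith

lemma Dec.nr_le {z a : ι → L} {M : Matrix ι ι ℝ} {an : ι → L} (h : Dec z a M an) {c : ℝ}
    (hc : 0 ≤ c) (ha : n2 a ≤ c ^ 2) : nr an ≤ c := by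
  refine nr_le_of_sq hc ?_
  have := h.n2_eq
  have := dt_self_nonneg M
  linarith

/-- The two-row form is bounded from below by the nonlinear parts, without any assumption. -/
theorem Gf_ge {z a d : ι → L} {M1 M2 : Matrix ι ι ℝ} {an dn : ι → L} (h1 : Dec z a M1 an)
    (h2 : Dec z d M2 dn) {α0 α1 δ0 δ1 : ℝ} (hα0 : 0 ≤ α0) (hα1 : 0 ≤ α1) (hδ0 : 0 ≤ δ0)
    (hδ1 : 0 ≤ δ1) (ha : n2 a ≤ α0 ^ 2) (han : n2 an ≤ α1 ^ 2) (hd : n2 d ≤ δ0 ^ 2)
    (hdn : n2 dn ≤ δ1 ^ 2) : -(α0 * δ1 + α1 * δ0) ^ 2 ≤ Gf a d := by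
  rw [Gf_eq h1 h2]
  have e1 := n2_nonneg (mv M1 dn)
  have e2 := n2_nonneg (mv M2 an)
  have k1 := h1.fb_le hα0 ha
  have k2 := h2.fb_le hδ0 hd
  have k3 := nr_le_of_sq hα1 han
  have k4 := nr_le_of_sq hδ1 hdn
  have k5 := h2.nr_le hδ0 hd
  have e3 : |ip (mv M1 an) (mv M2 dn)| ≤ (α0 * α1) * (δ0 * δ1) := by
    refine (abs_ip_le _ _).trans (mul_le_mul ?_ ?_ (nr_nonneg _) (by positivity))
    · exact (nr_mv_le _ _).trans (mul_le_mul k1 k3 (nr_nonneg _) hα0)
    · exact (nr_mv_le _ _).trans (mul_le_mul k2 k4 (nr_nonneg _) hδ0)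
  have e4 : 0 ≤ dt (gm an an) (gm dn dn) := dt_gm_nonneg an dn
  have e5 : dt (gm an dn) (gm an dn) ≤ (α1 * δ0) ^ 2 := by
    refine (dt_gm_le an dn).trans ?_
    rw [mul_pow, ← nr_sq, ← nr_sq]
    exact mul_le_mul (pow_le_pow_left₀ (nr_nonneg _) k3 2) (pow_le_pow_left₀ (nr_nonneg _) k5 2)
      (sq_nonneg _) (sq_nonneg _)
  have e6 := (abs_le.1 e3).2
  rw [Gf]
  nlinarith [sq_nonneg (α0 * δ1)]

end

section Diff
variable {ι : Type} [Fintype ι] [DecidableEq ι]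
variable {L : Type*} [NormedAddCommGroup L] [InnerProductSpace ℝ L]

lemma gm_sub_left (x y w : ι → L) : gm (fun i => x i - y i) w = gm x w - gm y w := by
  ext i j; simp only [gm, Matrix.sub_apply, inner_sub_left]

lemma gm_sub_right (x y w : ι → L) : gm w (fun i => x i - y i) = gm w x - gm w y := by
  ext i j; simp only [gm, Matrix.sub_apply, inner_sub_right]

lemma abs_n2_sub_le (x y : ι → L) : |n2 x - n2 y| ≤ nr (fun i => x i - y i) * (nr x + nr y) := by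
  have h1 : n2 x - n2 y = ip (fun i => x i - y i) (fun i => x i + y i) := by
    simp only [n2, ip, ← sum_sub_distrib]
    refine sum_congr rfl fun i _ => ?_
    rw [inner_sub_left, inner_add_right, inner_add_right, real_inner_self_eq_norm_sq,
      real_inner_self_eq_norm_sq, real_inner_comm (x i) (y i)]
    ring
  rw [h1]
  exact (abs_ip_le _ _).trans (mul_le_mul_of_nonneg_left (nr_add_le x y) (nr_nonneg _))

lemma abs_Gf_sub_le (x y w : ι → L) : |Gf x w - Gf y w| ≤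
    2 * (nr (fun i => x i - y i) * (nr x + nr y) * nr w ^ 2) := by
  have h1 : Gf x w - Gf y w =
      (dt (gm (fun i => x i - y i) x) (gm w w) + dt (gm y (fun i => x i - y i)) (gm w w)) -
      (dt (gm (fun i => x i - y i) w) (gm x w) + dt (gm (fun i => x i - y i) w) (gm y w)) := by
    rw [gm_sub_left, gm_sub_right, gm_sub_left]
    simp only [Gf, dt_sub_left]
    rw [dt_comm (gm y w) (gm x w)]; ring
  have b1 := abs_dt_gm_le (fun i => x i - y i) x w w
  have b2 := abs_dt_gm_le y (fun i => x i - y i) w w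
  have b3 := abs_dt_gm_le (fun i => x i - y i) w x w
  have b4 := abs_dt_gm_le (fun i => x i - y i) w y w
  have c1 := abs_add_le (dt (gm (fun i => x i - y i) x) (gm w w))
    (dt (gm y (fun i => x i - y i)) (gm w w))
  have c2 := abs_add_le (dt (gm (fun i => x i - y i) w) (gm x w))
    (dt (gm (fun i => x i - y i) w) (gm y w))
  rw [h1]
  refine (abs_sub _ _).trans ?_
  nlinarith [b1, b2, b3, b4, c1, c2]

lemma mv_sub_left (M N : Matrix ι ι ℝ) (x : ι → L) :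
    mv (M - N) x = fun k => mv M x k - mv N x k := by
  funext k
  simp only [mv, Matrix.sub_apply, sub_smul, sum_sub_distrib]

lemma mv_sub_right (M : Matrix ι ι ℝ) (x y : ι → L) :
    mv M (fun i => x i - y i) = fun k => mv M x k - mv M y k := by
  funext k
  simp only [mv, smul_sub, sum_sub_distrib]

/-- Replacement of the first field. -/
theorem Gf_replace {z a a' d : ι → L} {M1 M1' M2 : Matrix ι ι ℝ} {an an' dn : ι → L}
    (h1 : Dec z a M1 an) (h1' : Dec z a' M1' an') (h2 : Dec z d M2 dn)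
    {α0 α1 δ0 δ1 ε0 ε1 : ℝ} (hα0 : 0 ≤ α0) (hα1 : 0 ≤ α1) (hδ0 : 0 ≤ δ0)
    (hδ1 : 0 ≤ δ1) (hε0 : 0 ≤ ε0) (hε1 : 0 ≤ ε1) (k1 : fb M1 ≤ α0) (k1' : fb M1' ≤ α0)
    (k2 : nr an ≤ α1) (k2' : nr an' ≤ α1) (hd : n2 d ≤ δ0 ^ 2) (hdn : n2 dn ≤ δ1 ^ 2)
    (he0 : fb (M1 - M1') ≤ ε0) (he1 : nr (fun i => an i - an' i) ≤ ε1) :
    |Gf a d - Gf a' d| ≤ 6 * ((ε0 * δ1 + ε1 * δ0) * (α0 * δ1 + α1 * δ0)) := by
  have k3 := h2.fb_le hδ0 hd
  have k4 := h2.nr_le hδ0 hd
  have k5 := nr_le_of_sq hδ1 hdn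
  -- the four terms
  have t1 : |n2 (mv M1 dn) - n2 (mv M1' dn)| ≤ (ε0 * δ1) * (2 * (α0 * δ1)) := by
    refine (abs_n2_sub_le _ _).trans (mul_le_mul ?_ ?_ (add_nonneg (nr_nonneg _) (nr_nonneg _))
      (by positivity))
    · rw [← mv_sub_left]
      exact (nr_mv_le _ _).trans (mul_le_mul he0 k5 (nr_nonneg _) hε0)
    · have u1 := (nr_mv_le M1 dn).trans (mul_le_mul k1 k5 (nr_nonneg _) hα0)
      have u2 := (nr_mv_le M1' dn).trans (mul_le_mul k1' k5 (nr_nonneg _) hα0)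
      linarith
  have t2 : |n2 (mv M2 an) - n2 (mv M2 an')| ≤ (δ0 * ε1) * (2 * (δ0 * α1)) := by
    refine (abs_n2_sub_le _ _).trans (mul_le_mul ?_ ?_ (add_nonneg (nr_nonneg _) (nr_nonneg _))
      (by positivity))
    · rw [← mv_sub_right]
      exact (nr_mv_le _ _).trans (mul_le_mul k3 he1 (nr_nonneg _) hδ0)
    · have u1 := (nr_mv_le M2 an).trans (mul_le_mul k3 k2 (nr_nonneg _) hδ0)
      have u2 := (nr_mv_le M2 an').trans (mul_le_mul k3 k2' (nr_nonneg _) hδ0)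
      linarith
  have t3 : |ip (mv M1 an) (mv M2 dn) - ip (mv M1' an') (mv M2 dn)| ≤
      (ε0 * α1 + α0 * ε1) * (δ0 * δ1) := by
    have e1 : ip (mv M1 an) (mv M2 dn) - ip (mv M1' an') (mv M2 dn) =
        ip (fun k => mv (M1 - M1') an k + mv M1' (fun i => an i - an' i) k) (mv M2 dn) := by
      rw [mv_sub_left, mv_sub_right]
      simp only [ip, ← sum_sub_distrib]
      refine sum_congr rfl fun k _ => ?_
      rw [← inner_sub_left]
      congr 1
      abel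
    rw [e1]
    refine (abs_ip_le _ _).trans (mul_le_mul ?_ ?_ (nr_nonneg _) (by positivity))
    · refine (nr_add_le _ _).trans (add_le_add ?_ ?_)
      · exact (nr_mv_le _ _).trans (mul_le_mul he0 k2 (nr_nonneg _) hε0)
      · exact (nr_mv_le _ _).trans (mul_le_mul k1' he1 (nr_nonneg _) hα0)
    · exact (nr_mv_le _ _).trans (mul_le_mul k3 k5 (nr_nonneg _) hδ0)
  have t4 : |Gf an dn - Gf an' dn| ≤ 2 * (ε1 * (α1 + α1) * δ0 ^ 2) := by
    refine (abs_Gf_sub_le _ _ _).trans ?_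
    have u1 : nr (fun i => an i - an' i) * (nr an + nr an') ≤ ε1 * (α1 + α1) :=
      mul_le_mul he1 (add_le_add k2 k2') (add_nonneg (nr_nonneg _) (nr_nonneg _)) hε1
    have u2 : nr dn ^ 2 ≤ δ0 ^ 2 := pow_le_pow_left₀ (nr_nonneg _) k4 2
    have := mul_le_mul u1 u2 (sq_nonneg _) (by positivity)
    linarith
  rw [Gf_eq h1 h2, Gf_eq h1' h2]
  have e0 : n2 (mv M1 dn) + n2 (mv M2 an) - 2 * ip (mv M1 an) (mv M2 dn) + Gf an dn -
      (n2 (mv M1' dn) + n2 (mv M2 an') - 2 * ip (mv M1' an') (mv M2 dn) + Gf an' dn) =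
      (n2 (mv M1 dn) - n2 (mv M1' dn)) + (n2 (mv M2 an) - n2 (mv M2 an')) -
      2 * (ip (mv M1 an) (mv M2 dn) - ip (mv M1' an') (mv M2 dn)) +
      (Gf an dn - Gf an' dn) := by ring
  rw [e0, abs_le]
  have r1 := abs_le.1 t1
  have r2 := abs_le.1 t2
  have r3 := abs_le.1 t3
  have r4 := abs_le.1 t4
  have p1 : 0 ≤ ε0 * δ1 * (α0 * δ1) := by positivity
  have p2 : 0 ≤ ε0 * δ1 * (α1 * δ0) := by positivity
  have p3 : 0 ≤ ε1 * δ0 * (α0 * δ1) := by positivity
  have p4 : 0 ≤ ε1 * δ0 * (α1 * δ0) := by positivity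
  constructor <;> nlinarith [r1.1, r1.2, r2.1, r2.2, r3.1, r3.2, r4.1, r4.2, p1, p2, p3, p4]

end Diff

section Main
variable {ι : Type} [Fintype ι] [DecidableEq ι]
variable {L : Type*} [NormedAddCommGroup L] [InnerProductSpace ℝ L]

/-- The rank one field. -/
lemma Dec.rank_one {z : ι → L} (on : ∀ i j, inner ℝ (z i) (z j) = if i = j then (1 : ℝ) else 0)
    (v : ι → ℝ) {m : ℝ} {A al : L} (hA : A = m • ∑ i, v i • z i + al)
    (hal : ∀ j, inner ℝ (z j) al = 0) :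
    Dec z (fun i => v i • A) (m • vecMulVec v v) (fun i => v i • al) := by
  refine ⟨on, ?_, fun i => ?_, fun i j => by rw [real_inner_smul_right, hal, mul_zero]⟩
  · ext i j
    simp only [Matrix.transpose_apply, Matrix.smul_apply, vecMulVec_apply, smul_eq_mul]; ring
  · rw [hA, smul_add, smul_smul, smul_sum]
    congr 1
    refine sum_congr rfl fun j _ => ?_
    rw [smul_smul, Matrix.smul_apply, vecMulVec_apply, smul_eq_mul]
    congr 1; ring

lemma Yf_rank_one (v : ι → ℝ) (hv : ∑ i, v i ^ 2 = 1) (A : L) (d : ι → L) :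
    Yf (fun i => v i • A) d = ∑ i, (inner ℝ A (d i)) ^ 2 - (∑ i, v i * inner ℝ A (d i)) ^ 2 := by
  have h1 : ∀ i j, (gm (fun i => v i • A) d i j - gm (fun i => v i • A) d j i) ^ 2 =
      v i ^ 2 * (inner ℝ A (d j)) ^ 2 + v j ^ 2 * (inner ℝ A (d i)) ^ 2 -
        2 * ((v i * inner ℝ A (d i)) * (v j * inner ℝ A (d j))) := by
    intro i j
    simp only [gm, real_inner_smul_left]; ring
  rw [Yf]
  simp only [h1, sum_sub_distrib, sum_add_distrib, ← mul_sum, ← sum_mul, hv]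
  ring

lemma Yf_split (a a' d : ι → L) :
    Yf a d ≤ 2 * Yf a' d + 4 * (n2 (fun i => a i - a' i) * n2 d) := by
  have h1 : ∀ i j, (gm a d i j - gm a d j i) ^ 2 ≤
      2 * (gm a' d i j - gm a' d j i) ^ 2 + 4 * (gm (fun i => a i - a' i) d i j) ^ 2 +
        4 * (gm (fun i => a i - a' i) d j i) ^ 2 := by
    intro i j
    have e : gm a d i j - gm a d j i = (gm a' d i j - gm a' d j i) +
        (gm (fun i => a i - a' i) d i j - gm (fun i => a i - a' i) d j i) := by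
      simp only [gm_sub_left, Matrix.sub_apply]; ring
    rw [e]
    nlinarith [sq_nonneg ((gm a' d i j - gm a' d j i) -
      (gm (fun i => a i - a' i) d i j - gm (fun i => a i - a' i) d j i)),
      sq_nonneg (gm (fun i => a i - a' i) d i j + gm (fun i => a i - a' i) d j i)]
  have h2 := sum_le_sum fun i (_ : i ∈ (univ : Finset ι)) =>
    sum_le_sum fun j (_ : j ∈ (univ : Finset ι)) => h1 i j
  simp only [sum_add_distrib, ← mul_sum] at h2
  have h3 : ∑ i, ∑ j, (gm (fun i => a i - a' i) d j i) ^ 2 =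
      dt (gm (fun i => a i - a' i) d) (gm (fun i => a i - a' i) d) := by
    rw [sum_comm]; simp only [dt, sq]
  have h4 : ∑ i, ∑ j, (gm (fun i => a i - a' i) d i j) ^ 2 =
      dt (gm (fun i => a i - a' i) d) (gm (fun i => a i - a' i) d) := by
    simp only [dt, sq]
  have h5 := dt_gm_le (fun i => a i - a' i) d
  rw [h3, h4] at h2
  simp only [Yf]
  linarith

/-- **The abstract form of (FB).** -/
theorem fb_abs {z a d : ι → L} {M1 M2 : Matrix ι ι ℝ} {an dn : ι → L}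
    (h1 : Dec z a M1 an) (h2 : Dec z d M2 dn) (v : ι → ℝ) (hv : ∑ i, v i ^ 2 = 1)
    {m : ℝ} {A al : L} (hA : A = m • ∑ i, v i • z i + al) (hal : ∀ j, inner ℝ (z j) al = 0)
    {c α0 α1 δ0 δ1 ε0 ε1 : ℝ} (hc : 0 ≤ c) (hα0 : 0 ≤ α0) (hα1 : 0 ≤ α1) (hδ0 : 0 ≤ δ0)
    (hδ1 : 0 ≤ δ1) (hε0 : 0 ≤ ε0) (hε1 : 0 ≤ ε1)
    (ha : n2 a ≤ α0 ^ 2) (han : n2 an ≤ α1 ^ 2) (hd : n2 d ≤ δ0 ^ 2) (hdn : n2 dn ≤ δ1 ^ 2)
    (hm : |m| ≤ α0) (hal1 : ‖al‖ ≤ α1)
    (he0 : dt (M1 - m • vecMulVec v v) (M1 - m • vecMulVec v v) ≤ ε0 ^ 2)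
    (he1 : n2 (fun i => an i - v i • al) ≤ ε1 ^ 2)
    (hG : c * (∑ i, (inner ℝ A (d i)) ^ 2 - (∑ i, v i * inner ℝ A (d i)) ^ 2) ≤
      Gf (fun i => v i • A) d) :
    c / 2 * Yf a d - 2 * c * ((ε0 ^ 2 + ε1 ^ 2) * δ0 ^ 2) -
      6 * ((ε0 * δ1 + ε1 * δ0) * (α0 * δ1 + α1 * δ0)) ≤ Gf a d := by
  have h1' := Dec.rank_one h1.on v hA hal
  have hvv : ∑ i, v i * v i = 1 := by rw [← hv]; exact sum_congr rfl fun i _ => by ring
  have f1 : fb (m • vecMulVec v v : Matrix ι ι ℝ) ≤ α0 := by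
    refine fb_le_of_sq hα0 ?_
    have : dt (m • vecMulVec v v : Matrix ι ι ℝ) (m • vecMulVec v v) = m ^ 2 := by
      simp only [dt, Matrix.smul_apply, vecMulVec_apply, smul_eq_mul]
      have : ∀ i j, m * (v i * v j) * (m * (v i * v j)) = m ^ 2 * (v i ^ 2 * v j ^ 2) :=
        fun i j => by ring
      simp only [this, ← mul_sum, ← sum_mul, hv]; ring
    rw [this, ← sq_abs]
    exact pow_le_pow_left₀ (abs_nonneg _) hm 2
  have f2 : nr (fun i => v i • al) ≤ α1 := by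
    refine nr_le_of_sq hα1 ?_
    have : n2 (fun i => v i • al) = ‖al‖ ^ 2 := by
      simp only [n2, norm_smul, mul_pow, Real.norm_eq_abs, sq_abs, ← sum_mul, hv, one_mul]
    rw [this]
    exact pow_le_pow_left₀ (norm_nonneg _) hal1 2
  have g1 := Gf_replace h1 h1' h2 hα0 hα1 hδ0 hδ1 hε0 hε1 (h1.fb_le hα0 ha) f1
    (nr_le_of_sq hα1 han) f2 hd hdn (fb_le_of_sq hε0 he0) (nr_le_of_sq hε1 he1)
  have g2 := (abs_le.1 g1).1
  rw [← Yf_rank_one v hv] at hG
  have g3 := Yf_split a (fun i => v i • A) d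
  -- the size of the difference
  have hdec : Dec z (fun i => a i - v i • A) (M1 - m • vecMulVec v v)
      (fun i => an i - v i • al) := by
    refine ⟨h1.on, ?_, fun i => ?_, fun i j => ?_⟩
    · rw [Matrix.transpose_sub, h1.sy, h1'.sy]
    · have e1 := h1.eq i
      have e2 : v i • A = ∑ j, (m • vecMulVec v v : Matrix ι ι ℝ) i j • z j + v i • al := h1'.eq i
      have e3 : ∑ j, (M1 - m • vecMulVec v v) i j • z j =
          ∑ j, M1 i j • z j - ∑ j, (m • vecMulVec v v : Matrix ι ι ℝ) i j • z j := by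
        rw [← sum_sub_distrib]
        exact sum_congr rfl fun j _ => by rw [Matrix.sub_apply, sub_smul]
      rw [e1, e2, e3]
      abel
    · rw [inner_sub_right, h1.pe, h1'.pe i j]; ring
  have g4 : n2 (fun i => a i - v i • A) ≤ ε0 ^ 2 + ε1 ^ 2 := by
    rw [hdec.n2_eq]; linarith
  have g5 : n2 (fun i => a i - v i • A) * n2 d ≤ (ε0 ^ 2 + ε1 ^ 2) * δ0 ^ 2 :=
    mul_le_mul g4 hd (n2_nonneg _) (by positivity)
  have g6 : c / 2 * Yf a d ≤ c * Yf (fun i => v i • A) d +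
      2 * c * ((ε0 ^ 2 + ε1 ^ 2) * δ0 ^ 2) := by
    have := mul_le_mul_of_nonneg_left (g3.trans (add_le_add_right (mul_le_mul_of_nonneg_left g5
      (by norm_num : (0:ℝ) ≤ 4)) (2 * Yf (fun i => v i • A) d))) (by positivity : 0 ≤ c / 2)
    linarith
  linarith

end Main

end Vale.Agent.P146.H546
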