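import Vale.Agent.P146.H546.Fc
import Vale.Agent.P146.H826.LawP

/-!
P146, plan R1: time splitting. The second field `U i (y, y')` depends on the increment `y'`; its
average over the increment is `db`. The two-row form with `U` is at least the one with `db`.
-/

open Finset Matrix MeasureTheory ProbabilityTheory

set_option linter.unusedSectionVars false

namespace Vale.Agent.P146.H546

open Vale.Agent.P157.Lv Vale.Agent.P146.R1 Vale.Agent.P146.R1C

variable {ι : Type} [Fintype ι] [DecidableEq ι]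

/-- The average over the increment. -/
noncomputable def db (U : ι → (ι ⊕ ι → ℝ) → ℝ) (i : ι) (y : ι → ℝ) : ℝ :=
  ∫ y', U i (Sum.elim y y') ∂(gI ι)

lemma eg_inl {f : (ι → ℝ) → ℝ} (hf : EG f) : EG fun w : ι ⊕ ι → ℝ => f fun e => w (Sum.inl e) := by
  obtain ⟨C, a, hC, ha, hb⟩ := hf.bdd
  refine ⟨hf.meas.comp (measurable_pi_lambda _ fun e => measurable_pi_apply _), C, a, hC, ha,
    fun w => (hb _).trans ?_⟩
  refine mul_le_mul_of_nonneg_left (Real.exp_le_exp.2 (mul_le_mul_of_nonneg_left ?_ ha)) hC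
  exact (pi_norm_le_iff_of_nonneg (norm_nonneg _)).2 fun _ => norm_le_pi_norm w _

variable {a : ι → (ι → ℝ) → ℝ} {U : ι → (ι ⊕ ι → ℝ) → ℝ}

lemma eg_db (hU : ∀ i, EG (U i)) (i : ι) : EG (db U i) := eg_int (hU i)

lemma int_a_U {i j : ι} : ∫ y, (∫ y', a i y * U j (Sum.elim y y') ∂(gI ι)) ∂(gI ι) =
    ∫ y, a i y * db U j y ∂(gI ι) := by
  simp only [integral_const_mul, db]

/-- The second moments of the second field. -/
lemma int_U_U (hU : ∀ i, EG (U i)) (i j : ι) :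
    ∫ y, (∫ y', U i (Sum.elim y y') * U j (Sum.elim y y') ∂(gI ι)) ∂(gI ι) =
      (∫ y, db U i y * db U j y ∂(gI ι)) + ∫ w, (U i w - db U i fun e => w (Sum.inl e)) *
        (U j w - db U j fun e => w (Sum.inl e)) ∂(gI (ι ⊕ ι)) := by
  have h1 := (hU i).mul (hU j)
  have h2 : ∀ k, EG fun w : ι ⊕ ι → ℝ => db U k fun e => w (Sum.inl e) := fun k =>
    eg_inl (eg_db hU k)
  have e1 : ∫ y, (∫ y', U i (Sum.elim y y') * U j (Sum.elim y y') ∂(gI ι)) ∂(gI ι) =
      ∫ w, U i w * U j w ∂(gI (ι ⊕ ι)) := (int_sum h1).symm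
  have e2 : ∀ k l, ∫ w, U k w * db U l (fun e => w (Sum.inl e)) ∂(gI (ι ⊕ ι)) =
      ∫ y, db U k y * db U l y ∂(gI ι) := by
    intro k l
    rw [int_sum ((hU k).mul (h2 l))]
    refine integral_congr_ae (Filter.Eventually.of_forall fun y => ?_)
    simp only [Sum.elim_inl]
    rw [integral_mul_const]
    rfl
  have e3 : ∀ k l, ∫ w, db U k (fun e => w (Sum.inl e)) * db U l (fun e => w (Sum.inl e))
      ∂(gI (ι ⊕ ι)) = ∫ y, db U k y * db U l y ∂(gI ι) := by
    intro k l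
    rw [int_sum ((h2 k).mul (h2 l))]
    refine integral_congr_ae (Filter.Eventually.of_forall fun y => ?_)
    simp only [Sum.elim_inl, integral_const, probReal_univ, one_smul]
  have e4 : ∀ w : ι ⊕ ι → ℝ, (U i w - db U i fun e => w (Sum.inl e)) *
      (U j w - db U j fun e => w (Sum.inl e)) = U i w * U j w -
        U i w * (db U j fun e => w (Sum.inl e)) - U j w * (db U i fun e => w (Sum.inl e)) +
        (db U i fun e => w (Sum.inl e)) * (db U j fun e => w (Sum.inl e)) := fun w => by ring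
  simp only [e4]
  rw [integral_add (((h1.sub ((hU i).mul (h2 j))).sub ((hU j).mul (h2 i))).integrable)
    ((h2 i).mul (h2 j)).integrable,
    integral_sub ((h1.sub ((hU i).mul (h2 j))).integrable) ((hU j).mul (h2 i)).integrable,
    integral_sub h1.integrable ((hU i).mul (h2 j)).integrable, e2, e2, e3, e1]
  have e5 : ∫ y, db U j y * db U i y ∂(gI ι) = ∫ y, db U i y * db U j y ∂(gI ι) := by
    simp only [mul_comm]
  rw [e5]; ring

/-- **Time splitting.** -/
theorem split_ge (ha : ∀ i, EG (a i)) (hU : ∀ i, EG (U i)) :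
    Gi a (db U) ≤ ∑ i, ∑ j, ((∫ y, a i y * a j y ∂(gI ι)) *
      (∫ y, (∫ y', U i (Sum.elim y y') * U j (Sum.elim y y') ∂(gI ι)) ∂(gI ι)) -
      (∫ y, (∫ y', a i y * U j (Sum.elim y y') ∂(gI ι)) ∂(gI ι)) ^ 2) := by
  set ν : ι → (ι ⊕ ι → ℝ) → ℝ := fun i w => U i w - db U i fun e => w (Sum.inl e) with hν
  have hνe : ∀ i, EG (ν i) := fun i => (hU i).sub (eg_inl (eg_db hU i))
  have h1 : 0 ≤ ∑ i, ∑ j, (∫ y, a i y * a j y ∂(gI ι)) * (∫ w, ν i w * ν j w ∂(gI (ι ⊕ ι))) := by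
    have := (psd_gm (fun i => el (a i))).sum_mul_nonneg (psd_gm (fun i => el (ν i)))
    refine this.trans_eq ?_
    refine sum_congr rfl fun i _ => sum_congr rfl fun j _ => ?_
    simp only [gm]
    rw [inner_el (ha i) (ha j), inner_el (hνe i) (hνe j)]
  have h2 : ∀ i j, (∫ y, a i y * a j y ∂(gI ι)) *
      (∫ y, (∫ y', U i (Sum.elim y y') * U j (Sum.elim y y') ∂(gI ι)) ∂(gI ι)) -
      (∫ y, (∫ y', a i y * U j (Sum.elim y y') ∂(gI ι)) ∂(gI ι)) ^ 2 =
      ((∫ y, a i y * a j y ∂(gI ι)) * (∫ y, db U i y * db U j y ∂(gI ι)) -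
        (∫ y, a i y * db U j y ∂(gI ι)) ^ 2) +
      (∫ y, a i y * a j y ∂(gI ι)) * (∫ w, ν i w * ν j w ∂(gI (ι ⊕ ι))) := by
    intro i j
    rw [int_U_U hU, int_a_U]; ring
  simp only [h2, sum_add_distrib]
  rw [Gi]
  linarith

/-- The commutator functional in terms of the double integrals. -/
lemma Yi_db : Yi a (db U) = 1 / 2 * ∑ i, ∑ j,
    ((∫ y, (∫ y', a i y * U j (Sum.elim y y') ∂(gI ι)) ∂(gI ι)) -
      ∫ y, (∫ y', a j y * U i (Sum.elim y y') ∂(gI ι)) ∂(gI ι)) ^ 2 := by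
  simp only [int_a_U, Yi]

/-- Jensen for the averaged field. -/
lemma int_db_sq_le (hU : ∀ i, EG (U i)) : ∫ y, ∑ i, db U i y ^ 2 ∂(gI ι) ≤
    ∫ y, (∫ y', ∑ i, U i (Sum.elim y y') ^ 2 ∂(gI ι)) ∂(gI ι) := by
  have h1 : ∫ y, (∫ y', ∑ i, U i (Sum.elim y y') ^ 2 ∂(gI ι)) ∂(gI ι) =
      ∑ i, ∫ y, (∫ y', U i (Sum.elim y y') * U i (Sum.elim y y') ∂(gI ι)) ∂(gI ι) := by
    rw [← int_sum (EG.sum _ fun i _ => (hU i).pow 2), integral_finsetSum _ fun i _ =>
      ((hU i).pow 2).integrable]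
    refine sum_congr rfl fun i _ => ?_
    rw [← int_sum ((hU i).mul (hU i))]
    simp only [_root_.sq]
  rw [h1, integral_finsetSum _ fun i _ => ((eg_db hU i).pow 2).integrable]
  refine sum_le_sum fun i _ => ?_
  rw [int_U_U hU]
  have : 0 ≤ ∫ w, (U i w - db U i fun e => w (Sum.inl e)) *
        (U i w - db U i fun e => w (Sum.inl e)) ∂(gI (ι ⊕ ι)) :=
    integral_nonneg fun w => mul_self_nonneg _
  simp only [_root_.sq]
  linarith

end Vale.Agent.P146.H546
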