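import Vale.Agent.P146.H546.Fe
import Vale.Agent.P146.H332.CRow

/-!
P146, plan R1: (FB) at a fixed bulk, for the two-row form of block C. Model free: for a pair of
matrices of conditional expectations with the row derivatives (`RowIn`), at the times `s1`, `s2`.
-/

open Finset Matrix MeasureTheory ProbabilityTheory

set_option linter.unusedSectionVars false

namespace Vale.Agent.P146.R1C

open Vale.Agent.P157.Lv Vale.Agent.P146.H425 Vale.Agent.P146.H325 Vale.Agent.P146.H332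
  Vale.Agent.P146.H712 Vale.Agent.P146.R1 Vale.Agent.P146.H816

variable {n : ℕ} {k s : ℝ} {A : (Pair n → ℝ) → Matrix (Fin n) (Fin n) ℝ}
  {DA : Pair n → (Pair n → ℝ) → Matrix (Fin n) (Fin n) ℝ}
  {H : Fin n → (Pair n → ℝ) → Matrix (Fin n) (Fin n) ℝ} {b b' : Fin n}

/-- the clean column as a field of the standard Gaussian row -/
noncomputable def fa (A : (Pair n → ℝ) → Matrix (Fin n) (Fin n) ℝ) (s : ℝ) (b b' : Fin n)
    (z : Pair n → ℝ) (i : Fin n) (y : Fin n → ℝ) : ℝ := gr A s b b' z i (√s • y)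

/-- its Jacobian -/
noncomputable def fH (k : ℝ) (H : Fin n → (Pair n → ℝ) → Matrix (Fin n) (Fin n) ℝ) (s : ℝ)
    (b b' : Fin n) (z : Pair n → ℝ) (i j : Fin n) (y : Fin n → ℝ) : ℝ :=
  √s * kr k H s b b' z i j (√s • y)

lemma gf_gr (h : RowIn k A DA H) (hb : b ≠ b') (s : ℝ) (z : Pair n → ℝ) :
    H329.GF (gr A s b b' z) (kr k H s b b' z) :=
  let o := ogf_row h hb s z
  ⟨o.fd, o.eg, o.egH, o.cH, o.sym, o.odd⟩

lemma gf_a (h : RowIn k A DA H) (hb : b ≠ b') (s : ℝ) (z : Pair n → ℝ) :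
    H329.GF (fa A s b b' z) (fH k H s b b' z) :=
  H546.GF_scale (gf_gr h hb s z) (√s)

/-- `E_y |a|²` -/
noncomputable def Na0 (A : (Pair n → ℝ) → Matrix (Fin n) (Fin n) ℝ) (s : ℝ) (b b' : Fin n)
    (z : Pair n → ℝ) : ℝ := ∫ y, ∑ i, fa A s b b' z i y ^ 2 ∂(gI (Fin n))

/-- `E_y |a - (E H) y|²` -/
noncomputable def Na1 (k : ℝ) (A : (Pair n → ℝ) → Matrix (Fin n) (Fin n) ℝ)
    (H : Fin n → (Pair n → ℝ) → Matrix (Fin n) (Fin n) ℝ) (s : ℝ) (b b' : Fin n)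
    (z : Pair n → ℝ) : ℝ :=
  ∫ y, ∑ i, H329.nl (fa A s b b' z) (fH k H s b b' z) i y ^ 2 ∂(gI (Fin n))

/-- the profile in the direction `v` without its linear part -/
noncomputable def Net (k : ℝ) (A : (Pair n → ℝ) → Matrix (Fin n) (Fin n) ℝ)
    (H : Fin n → (Pair n → ℝ) → Matrix (Fin n) (Fin n) ℝ) (s : ℝ) (b b' : Fin n)
    (v : Fin n → ℝ) (z : Pair n → ℝ) : ℝ :=
  ∫ y, H329.al v (fa A s b b' z) (fH k H s b b' z) y ^ 2 ∂(gI (Fin n))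

/-- `|E H - m v v'|²`, `m = v' (E H) v` -/
noncomputable def Ne0 (k : ℝ) (H : Fin n → (Pair n → ℝ) → Matrix (Fin n) (Fin n) ℝ) (s : ℝ)
    (b b' : Fin n) (v : Fin n → ℝ) (z : Pair n → ℝ) : ℝ :=
  ∑ i, ∑ j, (H329.MH (fH k H s b b' z) i j - H329.mv v (fH k H s b b' z) * (v i * v j)) ^ 2

/-- `2 E |(1 - v v') (H - E H)|²` -/
noncomputable def Ne1 (k : ℝ) (H : Fin n → (Pair n → ℝ) → Matrix (Fin n) (Fin n) ℝ) (s : ℝ)
    (b b' : Fin n) (v : Fin n → ℝ) (z : Pair n → ℝ) : ℝ :=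
  2 * ∑ i, ∑ j, ∫ y, ((fH k H s b b' z i j y - H329.MH (fH k H s b b' z) i j) -
    v i * ∑ l, v l * (fH k H s b b' z l j y - H329.MH (fH k H s b b' z) l j)) ^ 2 ∂(gI (Fin n))

/-- **(FB) at a fixed bulk.** -/
theorem fb_row {A1 A2 : (Pair n → ℝ) → Matrix (Fin n) (Fin n) ℝ}
    {DA1 DA2 : Pair n → (Pair n → ℝ) → Matrix (Fin n) (Fin n) ℝ}
    {H1 H2 : Fin n → (Pair n → ℝ) → Matrix (Fin n) (Fin n) ℝ} {q : Par} (hq : q.Ok)
    (h1 : RowIn k A1 DA1 H1) (h2 : RowIn k A2 DA2 H2) (hb : b ≠ b') (w : K4 (Pair n) → ℝ)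
    {v : Fin n → ℝ} (hv : ∑ i, v i ^ 2 = 1) {c α0 α1 δ0 δ1 ε0 ε1 : ℝ} (hc : 0 ≤ c)
    (hα0 : 0 ≤ α0) (hα1 : 0 ≤ α1) (hδ0 : 0 ≤ δ0) (hδ1 : 0 ≤ δ1) (hε0 : 0 ≤ ε0) (hε1 : 0 ≤ ε1)
    (hca : 2 * c * Na0 A1 q.s1 b b' (P2 q w) ≤ Net k A1 H1 q.s1 b b' v (P2 q w))
    (ha0 : Na0 A1 q.s1 b b' (P2 q w) ≤ α0 ^ 2)
    (ha1 : Na1 k A1 H1 q.s1 b b' (P2 q w) ≤ α1 ^ 2)
    (hd0 : Na0 A2 q.s2 b b' (P3 q w) ≤ δ0 ^ 2)
    (hd1 : Na1 k A2 H2 q.s2 b b' (P3 q w) ≤ δ1 ^ 2)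
    (he0 : Ne0 k H1 q.s1 b b' v (P2 q w) ≤ ε0 ^ 2)
    (he1 : Ne1 k H1 q.s1 b b' v (P2 q w) ≤ ε1 ^ 2) {Sa Sd N : Matrix (Fin n) (Fin n) ℝ}
    (hSa : ∀ i j, Sa i j = Av (lf (row b ∪ row b'))
      (fun w => clz A1 q.s1 b b' (P2 q w) i * clz A1 q.s1 b b' (P2 q w) j) w)
    (hSd : ∀ i j, Sd i j = Av (lf (row b ∪ row b'))
      (fun w => clz A2 q.s2 b b' (P3 q w) i * clz A2 q.s2 b b' (P3 q w) j) w)
    (hN : ∀ i j, N i j = Av (lf (row b ∪ row b'))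
      (fun w => clz A1 q.s1 b b' (P2 q w) i * clz A2 q.s2 b b' (P3 q w) j) w) :
    c / 4 * fr (N - Nᵀ) ≤ (ip Sa Sd - fr N) + 2 * c * ((ε0 ^ 2 + ε1 ^ 2) * δ0 ^ 2) +
      6 * ((ε0 * δ1 + ε1 * δ0) * (α0 * δ1 + α1 * δ0)) := by
  have hs : √q.s1 ^ 2 + √(q.s2 - q.s1) ^ 2 = √q.s2 ^ 2 := by
    have h0 : 0 ≤ q.s1 := hq.h0.trans (hq.h01.trans hq.h1)
    have h3 := hq.h12
    rw [Real.sq_sqrt h0, Real.sq_sqrt (by linarith), Real.sq_sqrt (by linarith)]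
    ring
  have key := H546.fb_two (gf_gr h1 hb q.s1 (P2 q w)) (gf_gr h2 hb q.s2 (P3 q w)) hs hv hc hα0
    hα1 hδ0 hδ1 hε0 hε1 hca ha0 ha1 hd0 hd1 he0 he1
  have e1 : fr (N - Nᵀ) = ∑ i, ∑ j, ((∫ y, (∫ y', gr A1 q.s1 b b' (P2 q w) i (√q.s1 • y) *
        gr A2 q.s2 b b' (P3 q w) j (√q.s1 • y + √(q.s2 - q.s1) • y')
          ∂(gI (Fin n))) ∂(gI (Fin n))) - ∫ y, (∫ y', gr A1 q.s1 b b' (P2 q w) j (√q.s1 • y) *
        gr A2 q.s2 b b' (P3 q w) i (√q.s1 • y + √(q.s2 - q.s1) • y')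
          ∂(gI (Fin n))) ∂(gI (Fin n))) ^ 2 := by
    unfold fr
    refine sum_congr rfl fun i _ => sum_congr rfl fun j _ => ?_
    rw [Matrix.sub_apply, Matrix.transpose_apply, hN, hN, Av_ad hq h1.egA h2.egA,
      Av_ad hq h1.egA h2.egA]
  have e2 : ip Sa Sd - fr N = ∑ i, ∑ j, ((∫ y, gr A1 q.s1 b b' (P2 q w) i (√q.s1 • y) *
        gr A1 q.s1 b b' (P2 q w) j (√q.s1 • y) ∂(gI (Fin n))) *
      (∫ y, (∫ y', gr A2 q.s2 b b' (P3 q w) i (√q.s1 • y + √(q.s2 - q.s1) • y') *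
        gr A2 q.s2 b b' (P3 q w) j (√q.s1 • y + √(q.s2 - q.s1) • y')
          ∂(gI (Fin n))) ∂(gI (Fin n))) -
      (∫ y, (∫ y', gr A1 q.s1 b b' (P2 q w) i (√q.s1 • y) *
        gr A2 q.s2 b b' (P3 q w) j (√q.s1 • y + √(q.s2 - q.s1) • y')
          ∂(gI (Fin n))) ∂(gI (Fin n))) ^ 2) := by
    unfold ip fr
    rw [← sum_sub_distrib]
    refine sum_congr rfl fun i _ => ?_
    rw [← sum_sub_distrib]
    refine sum_congr rfl fun j _ => ?_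
    rw [hSa, hSd, hN, Av_ad hq h1.egA h2.egA, Av_aa hq h1.egA, Av_dd hq h2.egA]
  rw [e1, e2]
  exact key

/-! ### the numbers in terms of positions -/

/-- `Na0 = ee` -/
lemma Na0_eq (hA : ∀ i j, EG fun z => A z i j) (s : ℝ) (b b' : Fin n) (z : Pair n → ℝ) :
    Na0 A s b b' z = AvP s (row b ∪ row b') (fun z => ∑ i, clz A s b b' z i ^ 2) z := by
  rw [AvP_union_ind (EG.sum _ fun i _ => (eg_clz hA s b b' i).pow 2)]
  · exact (AvP_row (EG.sum _ fun i _ => (eg_clz hA s b b' i).pow 2) s b z).symm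
  · intro z w
    simp only
    refine sum_congr rfl fun i _ => ?_
    have := ind_clz (A := A) s b b' i z w
    simp only at this
    rw [this]

/-- the mean Jacobian, at a position -/
noncomputable def mh (k : ℝ) (H : Fin n → (Pair n → ℝ) → Matrix (Fin n) (Fin n) ℝ) (s : ℝ)
    (b b' : Fin n) (z : Pair n → ℝ) (i j : Fin n) : ℝ :=
  AvP s (row b) (fun u => hlz k H s b b' u i j) z

lemma MH_eq (hH : ∀ b i j, EG fun z => H b z i j) (s : ℝ) (b b' : Fin n) (z : Pair n → ℝ)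
    (i j : Fin n) : H329.MH (fH k H s b b' z) i j = √s * mh k H s b b' z i j := by
  unfold H329.MH fH mh
  rw [integral_const_mul, AvP_row (eg_hlz hH k s b b' i j)]
  rfl

/-- `mh` on the bulk sites -/
lemma mh_eq (hH : ∀ b i j, EG fun z => H b z i j) (s : ℝ) (b b' : Fin n) (z : Pair n → ℝ)
    (i j : Fin n) : mh k H s b b' z i j = if (i = b ∨ i = b') ∨ j = b ∨ j = b' then 0 else
      k * AvP s (row b ∪ row b') (fun z => H b z i j) z := by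
  unfold mh hlz
  by_cases h : (i = b ∨ i = b') ∨ j = b ∨ j = b'
  · simp only [if_pos h]
    exact AvP_const 0 z
  · simp only [if_neg h]
    rw [AvP_const_mul, AvP_AvP (hH b i j)]

/-- functions of the Jacobian of the row -/
lemma int_fH (hH : ∀ b i j, EG fun z => H b z i j) (s : ℝ) (b b' : Fin n) (z : Pair n → ℝ)
    {f : (Pair n → ℝ) → ℝ} (hf : EG f) :
    ∫ y : Fin n → ℝ, f (put b (√s • y) z) ∂(gI (Fin n)) = AvP s (row b) f z :=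
  (AvP_row hf s b z).symm

lemma eg_hm (hH : ∀ b i j, EG fun z => H b z i j) (k s : ℝ) (b b' i j : Fin n)
    (z : Pair n → ℝ) : EG fun u => hlz k H s b b' u i j - mh k H s b b' z i j :=
  (eg_hlz hH k s b b' i j).sub (EG.const _)

/-- `Na1` from the variance of the Jacobian (Poincaré) -/
theorem Na1_le (h : RowIn k A DA H) (hb : b ≠ b') (hs : 0 ≤ s) (z : Pair n → ℝ) :
    Na1 k A H s b b' z ≤ s * ∑ i, ∑ j, AvP s (row b)
      (fun u => (hlz k H s b b' u i j - mh k H s b b' z i j) ^ 2) z := by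
  refine (H329.nl_le (gf_a h hb s z)).trans (le_of_eq ?_)
  rw [mul_sum]
  refine sum_congr rfl fun i _ => ?_
  rw [mul_sum]
  refine sum_congr rfl fun j _ => ?_
  rw [MH_eq h.egH, AvP_row ((eg_hm h.egH k s b b' i j z).pow 2), ← integral_const_mul]
  refine integral_congr_ae (Filter.Eventually.of_forall fun y => ?_)
  simp only [fH, kr]
  have e := Real.sq_sqrt hs
  calc _ = √s ^ 2 * (hlz k H s b b' (put b (√s • y) z) i j - mh k H s b b' z i j) ^ 2 := by ring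
    _ = _ := by rw [e]

/-- `Ne1` at a position -/
theorem Ne1_eq (hH : ∀ b i j, EG fun z => H b z i j) (hs : 0 ≤ s) (b b' : Fin n)
    (v : Fin n → ℝ) (z : Pair n → ℝ) :
    Ne1 k H s b b' v z = 2 * s * ∑ i, ∑ j, AvP s (row b)
      (fun u => ((hlz k H s b b' u i j - mh k H s b b' z i j) -
        v i * ∑ l, v l * (hlz k H s b b' u l j - mh k H s b b' z l j)) ^ 2) z := by
  unfold Ne1
  rw [mul_assoc]
  congr 1
  rw [mul_sum]
  refine sum_congr rfl fun i _ => ?_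
  rw [mul_sum]
  refine sum_congr rfl fun j _ => ?_
  have he : EG fun u => (hlz k H s b b' u i j - mh k H s b b' z i j) -
        v i * ∑ l, v l * (hlz k H s b b' u l j - mh k H s b b' z l j) :=
    (eg_hm hH k s b b' i j z).sub ((EG.sum univ fun l _ =>
      (eg_hm hH k s b b' l j z).const_mul (v l)).const_mul (v i))
  rw [AvP_row (he.pow 2), ← integral_const_mul]
  refine integral_congr_ae (Filter.Eventually.of_forall fun y => ?_)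
  simp only [MH_eq hH, fH, kr]
  have e := Real.sq_sqrt hs
  have e2 : ∑ l, v l * (√s * hlz k H s b b' (put b (√s • y) z) l j - √s * mh k H s b b' z l j) =
      √s * ∑ l, v l * (hlz k H s b b' (put b (√s • y) z) l j - mh k H s b b' z l j) := by
    rw [mul_sum]
    exact sum_congr rfl fun l _ => by ring
  rw [e2]
  calc _ = √s ^ 2 * ((hlz k H s b b' (put b (√s • y) z) i j - mh k H s b b' z i j) -
        v i * ∑ l, v l * (hlz k H s b b' (put b (√s • y) z) l j - mh k H s b b' z l j)) ^ 2 := by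
        ring
    _ = _ := by rw [e]

/-- `Ne0` at a position -/
theorem Ne0_eq (hH : ∀ b i j, EG fun z => H b z i j) (hs : 0 ≤ s) (b b' : Fin n)
    (v : Fin n → ℝ) (z : Pair n → ℝ) :
    Ne0 k H s b b' v z = s * ∑ i, ∑ j, (mh k H s b b' z i j -
      (∑ p, ∑ l, v p * mh k H s b b' z p l * v l) * (v i * v j)) ^ 2 := by
  unfold Ne0 H329.mv
  simp only [MH_eq hH]
  have e2 : ∑ p, ∑ l, v p * (√s * mh k H s b b' z p l) * v l =
      √s * ∑ p, ∑ l, v p * mh k H s b b' z p l * v l := by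
    simp only [mul_sum]
    exact sum_congr rfl fun p _ => sum_congr rfl fun l _ => by ring
  rw [e2]
  generalize (∑ p, ∑ l, v p * mh k H s b b' z p l * v l) = m
  rw [mul_sum]
  refine sum_congr rfl fun i _ => ?_
  rw [mul_sum]
  refine sum_congr rfl fun j _ => ?_
  have e := Real.sq_sqrt hs
  calc _ = √s ^ 2 * (mh k H s b b' z i j - m * (v i * v j)) ^ 2 := by ring
    _ = _ := by rw [e]

/-! ### the SK instance -/

/-- **(FB) for SK at a fixed bulk.** -/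
theorem fb_sk {q : Par} (hq : q.Ok) (hs1 : 0 < q.s1) (hb : b ≠ b') (w : K4 (Pair n) → ℝ)
    {v : Fin n → ℝ} (hv : ∑ i, v i ^ 2 = 1) {c α0 α1 δ0 δ1 ε0 ε1 : ℝ} (hc : 0 ≤ c)
    (hα0 : 0 ≤ α0) (hα1 : 0 ≤ α1) (hδ0 : 0 ≤ δ0) (hδ1 : 0 ≤ δ1) (hε0 : 0 ≤ ε0) (hε1 : 0 ≤ ε1)
    (hca : 2 * c * ee k q.x q.s1 b b' (P2 q w) ≤
      Net k (AA k q.x q.s1) (HH k q.x q.s1) q.s1 b b' v (P2 q w))
    (ha0 : ee k q.x q.s1 b b' (P2 q w) ≤ α0 ^ 2)
    (ha1 : Na1 k (AA k q.x q.s1) (HH k q.x q.s1) q.s1 b b' (P2 q w) ≤ α1 ^ 2)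
    (hd0 : ee k q.x q.s2 b b' (P3 q w) ≤ δ0 ^ 2)
    (hd1 : Na1 k (AA k q.x q.s2) (HH k q.x q.s2) q.s2 b b' (P3 q w) ≤ δ1 ^ 2)
    (he0 : Ne0 k (HH k q.x q.s1) q.s1 b b' v (P2 q w) ≤ ε0 ^ 2)
    (he1 : Ne1 k (HH k q.x q.s1) q.s1 b b' v (P2 q w) ≤ ε1 ^ 2) :
    c / 4 * fr (Nd k q b b' w - (Nd k q b b' w)ᵀ) ≤ Gb k q b b' w +
      2 * c * ((ε0 ^ 2 + ε1 ^ 2) * δ0 ^ 2) +
      6 * ((ε0 * δ1 + ε1 * δ0) * (α0 * δ1 + α1 * δ0)) := by
  have hs2 : 0 < q.s2 := hs1.trans_le hq.h12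
  have r1 := rowIn_sk (n := n) (k := k) hs1 hq.x0.le hq.x1
  have r2 := rowIn_sk (n := n) (k := k) hs2 hq.x0.le hq.x1
  exact fb_row hq r1 r2 hb w hv hc hα0 hα1 hδ0 hδ1 hε0 hε1 (by rw [Na0_eq r1.egA]; exact hca)
    (by rw [Na0_eq r1.egA]; exact ha0) ha1 (by rw [Na0_eq r2.egA]; exact hd0) hd1 he0 he1
    (fun i j => rfl) (fun i j => rfl) fun i j => rfl

end Vale.Agent.P146.R1C
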