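import Vale.Agent.P146.H504.Cum9
import Vale.Agent.P146.H722.Jet2
import Vale.Agent.P146.H546.Rb0

/-!
P146, all temperatures: the third Stein coefficient of the column of a position system (T3D).
The fourth derivative of the value function along a line of a row is controlled by the average of
the fourth derivative of the functional itself over the couplings of the row (`hK7`).
-/

open MeasureTheory ProbabilityTheory

namespace Vale.Agent.P146.R1S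

open Vale.Agent.P157.Lv Vale.Agent.P146.H425 Vale.Agent.P146.H325 Vale.Agent.P146.H332
  Vale.Agent.P146.H712 Vale.Agent.P146.R1 Vale.Agent.P146.R1C
open Vale.Agent.P146.H722 (nuv)
open Vale.Agent.P146.H785 (Ax)

set_option linter.unusedSectionVars false

/-! ### the fourth derivative along a line -/

lemma abs_it4_le {ι X : Type} [Fintype ι] [DecidableEq ι] [Fintype X] [DecidableEq X]
    {k Γ : ℝ} {φ : ι → X → ℝ} {F : (ι → ℝ) → ℝ} {μ : (ι → ℝ) → X → ℝ}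
    (h : Cum.Fn k φ F μ Γ) (w z : ι → ℝ) :
    |iteratedDeriv 4 (fun t : ℝ => F (z + t • w)) 0| ≤
      6 * Γ ^ 3 * k ^ 4 * ∑ v, μ z v * (∑ e, w e * φ e v) ^ 4 := by
  obtain ⟨T2, T3, T4, T5, R2, R3, R4, R5, c5, hF, -⟩ := h.chn_layer (m := 1) one_pos le_rfl 0
  rw [hF.it4 w z, abs_mul, abs_of_nonneg (by positivity : 0 ≤ k ^ 4)]
  have h2 := Cum.ev_le_pow hF.m4 h.nn (Cum.fw φ w) z
  have hc4 : Fintype.card Cum.Lg4 = 4 := by simp
  rw [hc4] at h2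
  have e3 : ∀ v, |Cum.fw φ w v| ^ 4 = (∑ e, w e * φ e v) ^ 4 := fun v =>
    Even.pow_abs (by decide) _
  simp only [e3] at h2
  calc k ^ 4 * |Cum.ev T4 (fun _ => Cum.fw φ w) z| ≤ k ^ 4 * (6 * Γ ^ 3 *
        ∑ v, μ z v * (∑ e, w e * φ e v) ^ 4) := mul_le_mul_of_nonneg_left h2 (by positivity)
    _ = _ := by ring

variable {n : ℕ} {k x Γ : ℝ} {S : CS n k x} {μ1 : (Pair n → ℝ) → (Fin n → ℤˣ) → ℝ}
  {b b' : Fin n} {v : Fin n → ℝ} {s lam : ℝ}

lemma Ax_zero (G : (Pair n → ℝ) → ℝ) (z : Pair n → ℝ) : Ax x (√(1 - 1)) S.F G z = G z := by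
  unfold H785.Ax
  simp only [sub_self, Real.sqrt_zero, zero_smul, add_zero, integral_const, probReal_univ,
    one_smul]
  exact mul_div_cancel_left₀ _ (Real.exp_pos _).ne'

lemma root_one (h : Cum.Root S μ1 Γ) (z : Pair n → ℝ) (σ : Fin n → ℤˣ) :
    S.mu 1 z σ = μ1 z σ := by
  rw [h.mu_eq, Ax_zero]

lemma lin_le (hv : ∑ i, v i ^ 2 = 1) (σ : Fin n → ℤˣ) : lin v σ ^ 2 ≤ n := by
  have h := Finset.sum_mul_sq_le_sq_mul_sq Finset.univ v (fun i => sp σ i)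
  have h2 : ∑ i, sp σ i ^ 2 = (n : ℝ) := by
    have : ∀ i, sp σ i ^ 2 = 1 := fun i => by rw [pow_two]; exact sp_mul_self σ i
    simp [this]
  rw [hv, one_mul, h2] at h
  exact h

/-- the fourth moment in the direction `v` -/
noncomputable def M1v (S : CS n k x) (s : ℝ) (v : Fin n → ℝ) (z : Pair n → ℝ) : ℝ :=
  ∑ σ, S.mu s z σ * lin v σ ^ 4

/-- the variance of the square in the direction `v` -/
noncomputable def V1v (S : CS n k x) (s : ℝ) (v : Fin n → ℝ) (lam : ℝ) (z : Pair n → ℝ) : ℝ :=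
  ∑ σ, S.mu s z σ * (lin v σ ^ 2 - lam) ^ 2

lemma eg_M1v (S : CS n k x) (s : ℝ) (v : Fin n → ℝ) : EG (M1v S s v) := S.eg_mean s _

lemma eg_V1v (S : CS n k x) (s : ℝ) (v : Fin n → ℝ) (lam : ℝ) : EG (V1v S s v lam) :=
  S.eg_mean s _

lemma M1v_nonneg (z : Pair n → ℝ) : 0 ≤ M1v S s v z :=
  Finset.sum_nonneg fun σ _ => mul_nonneg (S.mu0 s z σ) (by positivity)

lemma V1v_nonneg (z : Pair n → ℝ) : 0 ≤ V1v S s v lam z :=
  Finset.sum_nonneg fun σ _ => mul_nonneg (S.mu0 s z σ) (sq_nonneg _)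

lemma mean_le {f : (Fin n → ℤˣ) → ℝ} {C : ℝ} (hf : ∀ σ, f σ ≤ C) (z : Pair n → ℝ) :
    ∑ σ, S.mu s z σ * f σ ≤ C := by
  calc ∑ σ, S.mu s z σ * f σ ≤ ∑ σ, S.mu s z σ * C :=
        Finset.sum_le_sum fun σ _ => mul_le_mul_of_nonneg_left (hf σ) (S.mu0 s z σ)
    _ = C := by rw [← Finset.sum_mul, S.mu1, one_mul]

lemma M1v_le (hv : ∑ i, v i ^ 2 = 1) (z : Pair n → ℝ) : M1v S s v z ≤ (n : ℝ) ^ 2 := by
  refine mean_le (fun σ => ?_) z
  have h1 := lin_le hv σ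
  have h2 : lin v σ ^ 4 = (lin v σ ^ 2) ^ 2 := by ring
  rw [h2]
  exact pow_le_pow_left₀ (sq_nonneg _) h1 2

lemma V1v_le (hv : ∑ i, v i ^ 2 = 1) (hl : 0 ≤ lam) (hln : lam ≤ n) (z : Pair n → ℝ) :
    V1v S s v lam z ≤ (n : ℝ) ^ 2 := by
  refine mean_le (fun σ => ?_) z
  have h1 := lin_le hv σ
  have h2 := sq_nonneg (lin v σ)
  nlinarith

lemma M1v_V1v (z : Pair n → ℝ) : M1v S s v z ≤ 2 * lam ^ 2 + 2 * V1v S s v lam z :=
  Cum.four_le (S.mu0 s z) (S.mu1 s z) lam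

/-- the row of the gradient -/
lemma row_D (S : CS n k x) (b : Fin n) (z : Pair n → ℝ) :
    ∑ e ∈ row b, S.D e z ^ 2 ≤ k ^ 2 * n := by
  have h1 := S.sum_row_A 1 b z
  have h3 : ∑ e ∈ row b, S.D e z ^ 2 = ∑ e ∈ row b, (k * S.A 1 z e.1.1 e.1.2) ^ 2 :=
    Finset.sum_congr rfl fun e _ => by rw [S.D_eq]
  rw [h3, h1]
  refine mul_le_mul_of_nonneg_left ?_ (sq_nonneg k)
  have h4 : vn (H816.col (S.A 1 z) b) ≤ n := by
    unfold vn H816.col
    calc ∑ i, S.A 1 z i b ^ 2 ≤ ∑ _i : Fin n, (1 : ℝ) := Finset.sum_le_sum fun i _ => by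
          have := S.abs_A 1 z i b
          rw [← sq_abs]
          exact pow_le_one₀ (abs_nonneg _) this
      _ = n := by simp
  linarith

/-! ### the position law -/

/-- the position law of a function at the time one -/
noncomputable def Xi (S : CS n k x) (s : ℝ) (R : Finset (Pair n)) (G : (Pair n → ℝ) → ℝ)
    (z : Pair n → ℝ) : ℝ := AvP s R (Ax x (√(1 - s)) S.F G) z

variable {R R' : Finset (Pair n)} {G G' : (Pair n → ℝ) → ℝ}

lemma Xi_add (hG : EG G) (hG' : EG G') (z : Pair n → ℝ) :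
    Xi S s R (fun z => G z + G' z) z = Xi S s R G z + Xi S s R G' z := by
  unfold Xi
  rw [← AvP_add (eg_Ax S.c11 hG x _) (eg_Ax S.c11 hG' x _)]
  congr 1
  funext y
  exact H785.Ax_add S.c11.lip S.c11.B0 hG hG' x _ y

lemma Xi_const_mul (c : ℝ) (G : (Pair n → ℝ) → ℝ) (z : Pair n → ℝ) :
    Xi S s R (fun z => c * G z) z = c * Xi S s R G z := by
  unfold Xi
  rw [← AvP_const_mul]
  congr 1
  funext y
  exact H785.Ax_const_mul c G x _ y

lemma Xi_const (c : ℝ) (z : Pair n → ℝ) : Xi S s R (fun _ => c) z = c := by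
  unfold Xi
  have : Ax x (√(1 - s)) S.F (fun _ => c) = fun _ => c :=
    funext fun y => H785.Ax_const S.c11.lip S.c11.B0 c x _ y
  rw [this, AvP_const]

lemma Xi_mono (hG : EG G) (hG' : EG G') (hle : ∀ z, G z ≤ G' z) (z : Pair n → ℝ) :
    Xi S s R G z ≤ Xi S s R G' z :=
  AvP_mono (eg_Ax S.c11 hG x _) (eg_Ax S.c11 hG' x _)
    (fun y => H785.Ax_mono S.c11.lip S.c11.B0 hG hG' hle x _ y) z

lemma Xi_nonneg (hG : EG G) (h0 : ∀ z, 0 ≤ G z) (z : Pair n → ℝ) : 0 ≤ Xi S s R G z := by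
  rw [← Xi_const (S := S) (s := s) (R := R) 0 z]
  exact Xi_mono (EG.const 0) hG h0 z

/-- the mean over the root law is a martingale -/
lemma Xi_mu (h : Cum.Root S μ1 Γ) (f : (Fin n → ℤˣ) → ℝ) (z : Pair n → ℝ) :
    Xi S s R (fun z => ∑ σ, S.mu 1 z σ * f σ) z =
      AvP s R (fun z => ∑ σ, S.mu s z σ * f σ) z := by
  unfold Xi
  congr 1
  funext y
  have e1 : (fun z => ∑ σ, S.mu 1 z σ * f σ) = fun z => ∑ σ, f σ * S.mu 1 z σ := by
    funext z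
    exact Finset.sum_congr rfl fun σ _ => mul_comm _ _
  rw [e1, H785.Ax_sum S.c11.lip S.c11.B0 Finset.univ fun σ _ => (S.eg_mu 1 σ).const_mul _]
  refine Finset.sum_congr rfl fun σ _ => ?_
  rw [H785.Ax_const_mul, h.mu_eq s y σ, mul_comm]
  congr 2
  funext u
  exact root_one h u σ

/-- (R2) for a function dominated by a bounded one -/
lemma r2_M (hs : 0 ≤ s) (hs1 : s ≤ 1) (h8 : 8 * (k ^ 2 * n) * x ^ 2 ≤ 1) {M : (Pair n → ℝ) → ℝ}
    (hG : EG G) (hM : EG M) {c N t : ℝ} (hc : 0 ≤ c) (hN : 0 ≤ N) (ht : 0 < t)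
    (h1 : ∀ u, |G u| ≤ c * M u) (h0 : ∀ u, 0 ≤ M u) (h2 : ∀ u, M u ≤ N ^ 2) (R' : Finset (Pair n))
    (z : Pair n → ℝ) :
    |Xi S s (row b ∪ R') G z - Xi S s (row b ∪ R') (AvP 1 (row b) G) z| ≤
      3 / 2 * √(k ^ 2 * n) * (c * (x * N * (Xi S s (row b ∪ R') (AvP 1 (row b) M) z / t + t))) := by
  have hx := S.x0
  have hA : EG (AvP 1 (row b) M) := eg_AvP hM 1 _
  have hA2 : EG (AvP 1 (row b) (fun u => G u ^ 2)) := eg_AvP (hG.pow 2) 1 _
  have h3 := r2 S.c11 hx hs hs1 (row_D S b) h8 hG R' z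
  have h4 : ∀ y, √(AvP 1 (row b) (fun u => G u ^ 2) y) ≤
      c * N / 2 * (1 / t) * AvP 1 (row b) M y + c * N / 2 * t := by
    intro y
    have k1 : AvP 1 (row b) (fun u => G u ^ 2) y ≤ c ^ 2 * N ^ 2 * AvP 1 (row b) M y := by
      rw [← AvP_const_mul]
      refine AvP_mono (hG.pow 2) (hM.const_mul _) (fun u => ?_) y
      have k2 : G u ^ 2 ≤ (c * M u) ^ 2 := by
        rw [← sq_abs]
        exact pow_le_pow_left₀ (abs_nonneg _) (h1 u) 2
      have k3 : M u ^ 2 ≤ N ^ 2 * M u := by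
        rw [pow_two (M u)]
        exact mul_le_mul_of_nonneg_right (h2 u) (h0 u)
      calc G u ^ 2 ≤ c ^ 2 * M u ^ 2 := by rw [← mul_pow]; exact k2
        _ ≤ c ^ 2 * (N ^ 2 * M u) := mul_le_mul_of_nonneg_left k3 (sq_nonneg c)
        _ = _ := by ring
    have k4 : 0 ≤ AvP 1 (row b) M y := AvP_nonneg h0 y
    have e1 : c * N / 2 * (1 / t) * AvP 1 (row b) M y + c * N / 2 * t =
        c * N / 2 * (AvP 1 (row b) M y / t + t) := by ring
    rw [e1, Real.sqrt_le_left (by positivity)]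
    refine k1.trans ?_
    set a := AvP 1 (row b) M y with ha
    have k5 : 4 * a ≤ (a / t + t) ^ 2 := by
      have e2 : (a / t + t) ^ 2 - 4 * a = (a / t - t) ^ 2 := by field_simp; ring
      nlinarith [sq_nonneg (a / t - t)]
    calc c ^ 2 * N ^ 2 * a = (c * N / 2) ^ 2 * (4 * a) := by ring
      _ ≤ (c * N / 2) ^ 2 * (a / t + t) ^ 2 := mul_le_mul_of_nonneg_left k5 (sq_nonneg _)
      _ = _ := by ring
  have h5 : Xi S s (row b ∪ R') (fun y => √(AvP 1 (row b) (fun u => G u ^ 2) y)) z ≤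
      c * N / 2 * (1 / t) * Xi S s (row b ∪ R') (AvP 1 (row b) M) z + c * N / 2 * t := by
    refine (Xi_mono (eg_sqrt hA2) ((hA.const_mul _).add (EG.const _)) h4 z).trans (le_of_eq ?_)
    rw [Xi_add (hA.const_mul _) (EG.const _), Xi_const_mul, Xi_const]
  refine h3.trans ?_
  have h6 : 0 ≤ 3 * √(k ^ 2 * n) * x := by positivity
  refine (mul_le_mul_of_nonneg_left h5 h6).trans (le_of_eq ?_)
  ring

/-! ### the theorem -/

/-- the constant -/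
noncomputable def C8 (Γ b2 C7 : ℝ) : ℝ :=
  (2 + 9 * b2) * C7 + (12 + 27 * b2) * (√b2 * (6 * Γ ^ 3)) + 2 * (22 * Γ ^ 2 + 60 * Γ + 48)

lemma C8_nonneg {b2 C7 : ℝ} (hΓ : 0 ≤ Γ) (hb : 0 ≤ b2) (hC : 0 ≤ C7) : 0 ≤ C8 Γ b2 C7 := by
  unfold C8
  positivity

/-- the real numbers of the proof -/
lemma t3d_real {Γ B b2 C7 K4 X Vb Y a L E D1 D2 U c0 x : ℝ} (hΓ : 0 ≤ Γ) (hB : 0 ≤ B)
    (hBb : B * B = b2) (hC7 : 0 ≤ C7) (hK4 : 0 ≤ K4) (hX : 0 ≤ X) (hVb : 0 ≤ Vb)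
    (ha : 0 < a) (hL : 0 < L) (hE : 0 ≤ E) (hx : 0 ≤ x) (hx1 : x ≤ 1) (hxL : x * L ≤ a)
    (hBp : 0 < B)
    (h1 : X ≤ Vb + 3 / 2 * B * (1 * (a * (X / (3 * B * a) + 3 * B * a))))
    (hY : Y ≤ 2 * L ^ 2 + 2 * X)
    (h2 : D1 ≤ D2 + 3 / 2 * B * (6 * Γ ^ 3 * K4 * (a * (Y / (L + a) + (L + a)))))
    (h3 : D2 ≤ K4 * (-c0 * L ^ 2 + C7 * (X + L ^ 2 * E)))
    (h4 : U ≤ D1 + (22 * Γ ^ 2 + 60 * Γ + 48) * x * K4 * (2 * L ^ 2 + 2 * Vb)) :
    U ≤ K4 * (-c0 * L ^ 2 + ((2 + 9 * b2) * C7 + (12 + 27 * b2) * (B * (6 * Γ ^ 3)) +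
      2 * (22 * Γ ^ 2 + 60 * Γ + 48)) * (Vb + L ^ 2 * (a / L + (a / L) ^ 2 + E))) := by
  have s1 : X ≤ 2 * Vb + 9 * b2 * a ^ 2 := by
    have e1 : 3 / 2 * B * (1 * (a * (X / (3 * B * a) + 3 * B * a))) =
        X / 2 + 9 / 2 * (B * B) * a ^ 2 := by
      field_simp
      ring
    rw [e1, hBb] at h1
    linarith
  have s2 : a * (Y / (L + a) + (L + a)) ≤ 3 * (a * L) + 2 * X + a ^ 2 := by
    have hp : 0 < L + a := by positivity
    have e2 : a * (Y / (L + a)) ≤ 2 * (a * L) + 2 * X := by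
      rw [← mul_div_assoc, div_le_iff₀ hp]
      have k1 : a * Y ≤ a * (2 * L ^ 2 + 2 * X) := mul_le_mul_of_nonneg_left hY ha.le
      have k2 : 0 ≤ 2 * a ^ 2 * L + 2 * X * L := by positivity
      nlinarith
    nlinarith
  have hb2 : 0 ≤ b2 := by rw [← hBb]; positivity
  set G := B * (6 * Γ ^ 3) with hG
  have hG0 : 0 ≤ G := by positivity
  set K2 := 22 * Γ ^ 2 + 60 * Γ + 48 with hK2
  have hK20 : 0 ≤ K2 := by positivity
  have s3 : D1 ≤ D2 + K4 * (3 / 2 * G * (3 * (a * L) + 2 * X + a ^ 2)) := by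
    refine h2.trans ?_
    have k1 := mul_le_mul_of_nonneg_left s2 (mul_nonneg (mul_nonneg (by norm_num : (0:ℝ) ≤ 3 / 2)
      hG0) hK4)
    have e3 : 3 / 2 * B * (6 * Γ ^ 3 * K4 * (a * (Y / (L + a) + (L + a)))) =
        3 / 2 * G * K4 * (a * (Y / (L + a) + (L + a))) := by rw [hG]; ring
    rw [e3]
    linarith
  have s4 : U ≤ K4 * ((-c0 * L ^ 2 + C7 * (X + L ^ 2 * E)) +
      3 / 2 * G * (3 * (a * L) + 2 * X + a ^ 2) + K2 * (x * (2 * L ^ 2 + 2 * Vb))) := by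
    calc U ≤ D1 + K2 * x * K4 * (2 * L ^ 2 + 2 * Vb) := h4
      _ ≤ (K4 * (-c0 * L ^ 2 + C7 * (X + L ^ 2 * E)) +
          K4 * (3 / 2 * G * (3 * (a * L) + 2 * X + a ^ 2))) +
          K2 * x * K4 * (2 * L ^ 2 + 2 * Vb) := by linarith
      _ = _ := by ring
  refine s4.trans (mul_le_mul_of_nonneg_left ?_ hK4)
  have e4 : L ^ 2 * (a / L + (a / L) ^ 2 + E) = a * L + a ^ 2 + L ^ 2 * E := by
    field_simp
  rw [e4]
  have s5 : x * (2 * L ^ 2 + 2 * Vb) ≤ 2 * (a * L) + 2 * Vb := by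
    have k1 : x * L * L ≤ a * L := mul_le_mul_of_nonneg_right hxL hL.le
    have k2 : x * Vb ≤ 1 * Vb := mul_le_mul_of_nonneg_right hx1 hVb
    nlinarith
  have s6 := mul_le_mul_of_nonneg_left s5 hK20
  have s7 := mul_le_mul_of_nonneg_left s1 hC7
  have s8 := mul_le_mul_of_nonneg_left s1 (mul_nonneg (by norm_num : (0:ℝ) ≤ 3) hG0)
  have p2 : 0 ≤ a * L := by positivity
  have p3 : 0 ≤ a ^ 2 := by positivity
  have p4 : 0 ≤ L ^ 2 * E := by positivity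
  have q1 : 0 ≤ (9 * b2 * C7 + (6 + 27 * b2) * G) * Vb := by positivity
  have q2 : 0 ≤ ((2 + 9 * b2) * C7 + (15 / 2 + 27 * b2) * G) * (a * L) := by positivity
  have q3 : 0 ≤ (2 * C7 + 21 / 2 * G + 2 * K2) * a ^ 2 := by positivity
  have q4 : 0 ≤ ((1 + 9 * b2) * C7 + (12 + 27 * b2) * G + 2 * K2) * (L ^ 2 * E) := by positivity
  have key : -c0 * L ^ 2 + ((2 + 9 * b2) * C7 + (12 + 27 * b2) * G + 2 * K2) *
      (Vb + (a * L + a ^ 2 + L ^ 2 * E)) - (-c0 * L ^ 2 + C7 * (2 * Vb + 9 * b2 * a ^ 2) +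
        C7 * (L ^ 2 * E) + 3 / 2 * G * (3 * (a * L) + a ^ 2) +
        3 * G * (2 * Vb + 9 * b2 * a ^ 2) + K2 * (2 * (a * L) + 2 * Vb)) =
      (9 * b2 * C7 + (6 + 27 * b2) * G) * Vb +
        ((2 + 9 * b2) * C7 + (15 / 2 + 27 * b2) * G) * (a * L) +
        (2 * C7 + 21 / 2 * G + 2 * K2) * a ^ 2 +
        ((1 + 9 * b2) * C7 + (12 + 27 * b2) * G + 2 * K2) * (L ^ 2 * E) := by ring
  have key2 : -c0 * L ^ 2 + C7 * (X + L ^ 2 * E) + 3 / 2 * G * (3 * (a * L) + 2 * X + a ^ 2) +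
      K2 * (x * (2 * L ^ 2 + 2 * Vb)) = -c0 * L ^ 2 + C7 * X + C7 * (L ^ 2 * E) +
      3 / 2 * G * (3 * (a * L) + a ^ 2) + 3 * G * X + K2 * (x * (2 * L ^ 2 + 2 * Vb)) := by ring
  rw [key2]
  linarith

/-- **(T3D)** The third Stein coefficient of the column of a position system in the direction `v`,
from the averaged fourth derivative of the functional at every position (`hK7`). -/
theorem t3d_u4 (h : Cum.Root S μ1 Γ) (hv : ∑ i, v i ^ 2 = 1) (hb : v b = 0) (hn : 0 < n)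
    (hs : 0 < s) (hs1 : s ≤ 1) (hl : 0 < lam) (hln : lam ≤ n)
    (h8 : 8 * (k ^ 2 * n) * x ^ 2 ≤ 1) {c0 C7 : ℝ} (hC7 : 0 ≤ C7) {err : (Pair n → ℝ) → ℝ}
    (he : EG err) (he0 : ∀ Z, 0 ≤ err Z)
    (hK7 : ∀ Z, AvP 1 (row b) (fun u => iteratedDeriv 4 (fun r : ℝ => S.F (u + r • nuv b v)) 0) Z ≤
      k ^ 4 * (-c0 * lam ^ 2 + C7 * (AvP 1 (row b) (fun u => ∑ σ, S.mu 1 u σ *
        ((∑ i, v i * sp σ i) ^ 2 - lam) ^ 2) Z + lam ^ 2 * err Z))) (z : Pair n → ℝ) :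
    AvP s (row b ∪ row b')
        (fun u => iteratedDeriv 4 (fun r : ℝ => uu x s S.F (u + r • nuv b v)) 0) z ≤
      k ^ 4 * (-c0 * lam ^ 2 + C8 Γ (k ^ 2 * n) C7 * (AvP s (row b ∪ row b') (fun u =>
        ∑ σ, S.mu s u σ * ((∑ i, v i * sp σ i) ^ 2 - lam) ^ 2) z + lam ^ 2 * (x * n / lam +
          (x * n / lam) ^ 2 + AvP s (row b ∪ row b') (Ax x (√(1 - s)) S.F err) z))) := by
  have hk := S.k0
  have hx := S.x0
  have hx1 := S.x1
  have hn' : (0 : ℝ) < n := by exact_mod_cast hn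
  have hΓ := h.fn.Γ0
  set U := row b ∪ row b' with hU
  set B := √(k ^ 2 * n) with hB
  have hb2 : 0 < k ^ 2 * n := by positivity
  have hB0 : 0 < B := Real.sqrt_pos.2 hb2
  have hBB : B * B = k ^ 2 * n := Real.mul_self_sqrt hb2.le
  set a := x * n with ha
  have ha0 : 0 < a := by positivity
  -- the functions
  set V := V1v S 1 v lam with hV
  set M := M1v S 1 v with hM
  set d4 : (Pair n → ℝ) → ℝ := fun u => iteratedDeriv 4 (fun r : ℝ => S.F (u + r • nuv b v)) 0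
    with hd4
  have egV : EG V := eg_V1v S 1 v lam
  have egM : EG M := eg_M1v S 1 v
  have egd : EG d4 := h.fn.eg_it4 (nuv b v)
  have egAV : EG (AvP 1 (row b) V) := eg_AvP egV 1 _
  have egAM : EG (AvP 1 (row b) M) := eg_AvP egM 1 _
  have egAd : EG (AvP 1 (row b) d4) := eg_AvP egd 1 _
  -- the bound of the fourth derivative
  have hd : ∀ u, |d4 u| ≤ 6 * Γ ^ 3 * k ^ 4 * M u := by
    intro u
    have h1 := abs_it4_le h.fn (nuv b v) u
    have h2 : ∑ σ, μ1 u σ * (∑ e, nuv b v e * SkS e σ) ^ 4 = M u :=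
      Finset.sum_congr rfl fun σ _ => by rw [Cum.fw_nuv_four hb, root_one h]
    rw [h2] at h1
    exact h1
  -- the numbers
  set X := Xi S s U (AvP 1 (row b) V) z with hX
  set Y := Xi S s U (AvP 1 (row b) M) z with hY
  set Vb := AvP s U (fun u => ∑ σ, S.mu s u σ * ((∑ i, v i * sp σ i) ^ 2 - lam) ^ 2) z with hVb
  have eVb : Xi S s U V z = Vb := Xi_mu h (fun σ => (lin v σ ^ 2 - lam) ^ 2) z
  have hX0 : 0 ≤ X := Xi_nonneg egAV (AvP_nonneg fun _ => V1v_nonneg _) z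
  have hVb0 : 0 ≤ Vb := eVb ▸ Xi_nonneg egV (fun _ => V1v_nonneg _) z
  -- the variance functional
  have g1 := r2_M (S := S) (G := V) (M := V) (c := 1) (N := n) (t := 3 * B * a) (b := b) hs.le hs1 h8 egV egV
    zero_le_one hn'.le (by positivity) (fun u => by
      rw [one_mul, abs_of_nonneg (V1v_nonneg u)]) (fun u => V1v_nonneg u)
    (fun u => V1v_le hv hl.le hln u) (row b') z
  rw [← hU, ← hX, eVb, ← hB, ← ha] at g1
  have g1' := (abs_le.1 g1).1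
  -- the fourth derivative
  have g2 := r2_M (S := S) (G := d4) (M := M) (c := 6 * Γ ^ 3 * k ^ 4) (N := n) (t := lam + a) (b := b)
    hs.le hs1 h8 egd egM (by positivity) hn'.le (by positivity) hd (fun u => M1v_nonneg u)
    (fun u => M1v_le hv u) (row b') z
  rw [← hU, ← hY, ← hB, ← ha] at g2
  have g2' := (abs_le.1 g2).2
  -- the fourth moment
  have g3 : Y ≤ 2 * lam ^ 2 + 2 * X := by
    have k1 : ∀ Z, AvP 1 (row b) M Z ≤ 2 * lam ^ 2 + 2 * AvP 1 (row b) V Z := by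
      intro Z
      rw [← AvP_const_mul, ← AvP_const (s := 1) (R := row b) (2 * lam ^ 2) Z,
        ← AvP_add (EG.const _) (egV.const_mul 2)]
      exact AvP_mono egM ((EG.const _).add (egV.const_mul 2)) (fun u => M1v_V1v u) Z
    have k2 := Xi_mono (S := S) (s := s) (R := U) egAM ((EG.const (2 * lam ^ 2)).add
      (egAV.const_mul 2)) k1 z
    rw [Xi_add (EG.const _) (egAV.const_mul 2), Xi_const, Xi_const_mul] at k2
    exact k2
  -- the hypothesis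
  set E := AvP s U (Ax x (√(1 - s)) S.F err) z with hE
  have hE0 : 0 ≤ E := Xi_nonneg he he0 z
  have g4 : Xi S s U (AvP 1 (row b) d4) z ≤ k ^ 4 * (-c0 * lam ^ 2 + C7 * (X + lam ^ 2 * E)) := by
    have eg1 : EG fun Z => AvP 1 (row b) V Z + lam ^ 2 * err Z := egAV.add (he.const_mul _)
    have k2 := Xi_mono (S := S) (s := s) (R := U) egAd (((EG.const (-c0 * lam ^ 2)).add
      (eg1.const_mul C7)).const_mul (k ^ 4)) hK7 z
    rw [Xi_const_mul, Xi_add (EG.const _) (eg1.const_mul C7), Xi_const, Xi_const_mul,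
      Xi_add egAV (he.const_mul _), Xi_const_mul] at k2
    exact k2
  -- the step of the layer
  have g5 := (abs_le.1 (Cum.k2 h hb s s U lam z)).2
  have g5' : AvP s U
      (fun u => iteratedDeriv 4 (fun r : ℝ => uu x s S.F (u + r • nuv b v)) 0) z ≤
      Xi S s U d4 z + (22 * Γ ^ 2 + 60 * Γ + 48) * x * k ^ 4 * (2 * lam ^ 2 + 2 * Vb) := by
    have e1 : AvP s U (fun u => ∑ σ, S.mu s u σ * (lin v σ ^ 2 - lam) ^ 2) z = Vb := rfl
    rw [e1] at g5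
    have e2 : AvP s U (Ax x (√(1 - s)) S.F (fun y => iteratedDeriv 4
      (fun r : ℝ => S.F (y + r • nuv b v)) 0)) z = Xi S s U d4 z := rfl
    rw [e2] at g5
    linarith
  exact t3d_real (B := B) (b2 := k ^ 2 * n) (a := a) (L := lam) (x := x) hΓ hB0.le hBB hC7
    (by positivity) hX0 hVb0 ha0 hl hE0 hx.le hx1 (mul_le_mul_of_nonneg_left hln hx.le) hB0
    (by linarith) g3 (by linarith) g4 g5'

/-- **(T3D)** in terms of the third Stein coefficient. -/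
theorem t3d (h : Cum.Root S μ1 Γ) (hv : ∑ i, v i ^ 2 = 1) (hb : v b = 0) (hb' : v b' = 0)
    (hbb : b ≠ b') (hs : 0 < s) (hs1 : s ≤ 1) (hl : 0 < lam) (hln : lam ≤ n)
    (h8 : 8 * (k ^ 2 * n) * x ^ 2 ≤ 1) {c0 C7 : ℝ} (hC7 : 0 ≤ C7) {err : (Pair n → ℝ) → ℝ}
    (he : EG err) (he0 : ∀ Z, 0 ≤ err Z)
    (hK7 : ∀ Z, AvP 1 (row b) (fun u => iteratedDeriv 4 (fun r : ℝ => S.F (u + r • nuv b v)) 0) Z ≤
      k ^ 4 * (-c0 * lam ^ 2 + C7 * (AvP 1 (row b) (fun u => ∑ σ, S.mu 1 u σ *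
        ((∑ i, v i * sp σ i) ^ 2 - lam) ^ 2) Z + lam ^ 2 * err Z))) (z : Pair n → ℝ) :
    H722.A3S S s b b' v z ≤ (√s * k) ^ 3 * (-c0 * lam ^ 2 + C8 Γ (k ^ 2 * n) C7 *
      (AvP s (row b ∪ row b') (fun u =>
        ∑ σ, S.mu s u σ * ((∑ i, v i * sp σ i) ^ 2 - lam) ^ 2) z + lam ^ 2 * (x * n / lam +
          (x * n / lam) ^ 2 + AvP s (row b ∪ row b') (Ax x (√(1 - s)) S.F err) z))) := by
  have hn : 0 < n := Fin.pos b
  have hk := S.k0
  have h1 := t3d_u4 (b' := b') h hv hb hn hs hs1 hl hln h8 hC7 he he0 hK7 z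
  rw [(H722.J1 (h.fnu s) hv hb hb' hbb hs z).2]
  have h2 : 0 ≤ √s ^ 3 / k := by positivity
  refine (mul_le_mul_of_nonneg_left h1 h2).trans (le_of_eq ?_)
  rw [← mul_assoc]
  congr 1
  field_simp

end Vale.Agent.P146.R1S
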